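import Crest.Agent.N337.G4.RTree
import Crest.Agent.N337.E.Step

/-!
# Row 337, G4 (helper50): geometry of the fronts, the reset step and the base step
-/

set_option autoImplicit false
set_option linter.unusedSectionVars false

namespace Crest.Agent.N337.G4.Rs

open Finset Crest.Agent.N337.Rep Crest.Agent.N337.Free Crest.Agent.N337.Rg Crest.Agent.N337.Tr
open Crest.Agent.N337.Arc (Fld)

section geo
variable {L : ℕ} [NeZero L] {Q : Gp} {U U' : ℕ → Tor 3 L → Prop} {D : Dat L} {l r r' d d' : ℕ}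
  {y y' : Tor 3 L}

lemma In.up (h : In D r y) (hr : r + tdist y y' ≤ r') : In D r' y' := by
  obtain ⟨B, hB, h⟩ := h
  exact ⟨B, hB, by have := tdist_triangle B.1 y y'; omega⟩

lemma In.mono (h : In D r y) (hr : r ≤ r') : In D r' y := h.up (by rw [tdist_self]; omega)

lemma Fr.near (h : Fr U l d y) (hd : d' + tdist y y' ≤ d) : Fr U l d' y' := fun u hu => by
  have := h u hu
  have := tdist_triangle y y' u
  omega

lemma Fr.anti (h : Fr U l d y) (hU : ∀ u, U' l u → U l u) : Fr U' l d y := fun u hu => h u (hU u hu)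

/-- the fronts move with the point. -/
lemma Cd.near (h : Cd Q U l D r' y) (hr : r + tdist y y' ≤ r') : Cd Q U l D r y' :=
  ⟨fun k => h.1 (k.up (by rwa [tdist_comm])), fun u hu k => h.2 u hu (by
    have := tdist_triangle y y' u; omega)⟩

lemma Cd.mono (h : Cd Q U l D r' y) (hr : r ≤ r') : Cd Q U l D r y :=
  h.near (by rw [tdist_self]; omega)

lemma Cd.anti (h : Cd Q U l D r y) (hU : ∀ u, U' l u → U l u) : Cd Q U' l D r y :=
  ⟨h.1, fun u hu => h.2 u (hU u hu)⟩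

lemma Val.anti (h : Val Q U l D) (hU : ∀ u, U' l u → U l u) : Val Q U' l D :=
  ⟨h.card, h.rad, h.sep, fun u hu => h.cls u (hU u hu)⟩

lemma Cd.fr (h : Cd Q U l D r y) : Fr U l r y := fun u hu => lt_of_not_ge fun k =>
  h.1 ((h.2 u hu (by omega)).up (by rw [tdist_comm]; omega))

/-- no outer erosion. -/
lemma Cd.clos (hV : Val Q U l D) (h : Cd Q U l D r' y) (hr : r ≤ Q.sg l) (hy : tdist y y' ≤ Q.W l)
    (hn : ¬ In D r y') : Cd Q U l D r y' ∨ Cs Q U l y' := by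
  by_cases k : In D (Q.dc l) y'
  · exact .inl ⟨hn, fun u hu h1 => hV.cls u hu (k.up (by omega))⟩
  · refine .inr fun u hu => lt_of_not_ge fun h1 => k ((h.2 u hu ?_).up (by rw [tdist_comm]; omega))
    have := tdist_triangle y y' u
    omega

lemma Ty.mono {mt j l0 : ℕ} {D : ℕ → Dat L} {r r' : ℕ → ℕ} (h : Ty Q U mt j l0 D r' y)
    (hr : ∀ i, j ≤ i → i < mt → r i ≤ r' i) : Ty Q U mt j l0 D r y :=
  ⟨h.1, fun i a b => (h.2 i a b).mono (hr i a b)⟩

lemma Ty.fr {mt j : ℕ} {D : ℕ → Dat L} {r : ℕ → ℕ} (h : Ty Q U mt j 0 D r y) (hm : 1 ≤ mt)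
    (h1 : Q.fr ≤ Q.dc 0) (h2 : j = 0 → Q.fr ≤ r 0) : Fr U 0 Q.fr y := by
  rcases j.eq_zero_or_pos with rfl | hj
  · exact (h.2 0 le_rfl hm).fr.near (by rw [tdist_self]; exact h2 rfl)
  · exact Fr.near (h.1 0 le_rfl hj) (by rw [tdist_self]; exact h1)

variable {α κ : Type} [SemilatticeSup α] [Preorder κ] {S : Sys (Tor 3 L) α κ} {G : Eg}
  {Lf : Tor 3 L → Prop}

/-- the cells near `y`. -/
def T1 (Q : Gp) (l : ℕ) (y : Tor 3 L) : Finset (Tor 3 L) := univ.filter fun z => tdist y z ≤ Q.A l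

open Classical in
/-- the cells in the range of the route, off the front. -/
noncomputable def T2 (S : Sys (Tor 3 L) α κ) (G : Eg) (l : ℕ) (D : Dat L) (r : ℕ) (y : Tor 3 L) :
    Finset (Tor 3 L) := univ.filter fun z => tdist y z ≤ G.Rs l ∧ ¬ In D (r + S.loc l) z

lemma mem_T2 {z : Tor 3 L} : z ∈ T2 S G l D r y ↔ tdist y z ≤ G.Rs l ∧ ¬ In D (r + S.loc l) z := by
  classical
  simp [T2]

lemma T1_sub (N : NG S G Q) (hl : l < G.mt) (h : Cd Q U l D r' y) (hr : r + Q.un l ≤ r') :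
    T1 Q l y ⊆ T2 S G l D r y := fun z hz => by
  have h1 := (mem_filter.1 hz).2
  have := N.A l hl
  exact mem_T2.2 ⟨by omega, fun k => h.1 (k.up (by rw [tdist_comm]; omega))⟩

/-- **the route datum.** -/
theorem rt_of (hd : ∀ x y, S.d x y = tdist x y) (N : NG S G Q) (hl : l < G.mt) (hV : Val Q U l D)
    (h : Cd Q U l D r' y) (hr : r + Q.un l ≤ r') (hr' : r' ≤ Q.sg l)
    (n1 : ¬ FT S (Cp S Q U) Lf (T1 Q l y) 0 l) (n2 : ¬ FT S (Cp S Q U) Lf (T2 S G l D r y) S.a1 l)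
    {x : Sd.V} (hx : tcast L x = y) : Rt S G l (Jr S Q U Lf l) x := by
  classical
  obtain ⟨F, c1, hF⟩ := Sys.cover_of_not_sepd n2
  obtain ⟨a1, a2, a3, a4⟩ := N.A l hl
  obtain ⟨s1, s2, s3⟩ := N.σ l hl
  have w1 := (N.W l hl).1
  have hL := N.hL l hl
  have dl : ∀ z, dist x (lf x z) = tdist y z := fun z => by rw [dist_comm, dist_lf, hx]
  obtain ⟨e, he⟩ : ∃ e, ∀ B ∈ D, tdist y B.1 < G.c * (B.2 + Q.sg l) →
      Sd.hgt e x - Sd.hgt e (lf x B.1) = dist x (lf x B.1) := by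
    by_cases k : ∃ B ∈ D, tdist y B.1 < G.c * (B.2 + Q.sg l)
    · obtain ⟨B, hB, k⟩ := k
      refine (Sd.exists_hgt x (lf x B.1)).imp fun e he B' hB' k' => ?_
      by_cases e1 : B' = B
      · rwa [e1]
      have b1 := hV.sep B' hB' B hB e1
      have b2 := tdist_triangle B'.1 y B.1
      have b3 := Nat.mul_le_mul_right (B'.2 + Q.sg l + (B.2 + Q.sg l)) N.c.1
      rw [tdist_comm B'.1 y] at b2
      rw [mul_add G.c] at b3
      omega
    · exact ⟨(0, true), fun B hB k' => absurd ⟨B, hB, k'⟩ k⟩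
  refine ⟨e, (D.filter fun B => G.c * (B.2 + Q.sg l) ≤ tdist y B.1).image
    (fun B => (lf x B.1, ((B.2 + Q.sg l : ℕ) : ℝ))) ∪ (F.filter fun f => G.c * G.σ l ≤ tdist y f).image
      fun f => (lf x f, (G.σ l : ℝ)), (card_union_le _ _).trans ((add_le_add (card_image_le.trans
        ((card_filter_le _ _).trans hV.card)) (card_image_le.trans ((card_filter_le _ _).trans
          c1))).trans N.q), fun B hB => ?_, fun p hp hpx => ?_⟩
  · rcases mem_union.1 hB with k | k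
    · obtain ⟨B', hB', rfl⟩ := mem_image.1 k
      obtain ⟨b1, b2⟩ := mem_filter.1 hB'
      have := hV.rad B' b1
      refine ⟨Nat.cast_le.2 (by omega), Nat.cast_le.2 (by omega), ?_⟩
      simp only [dl]
      exact_mod_cast b2
    · obtain ⟨f, hf, rfl⟩ := mem_image.1 k
      refine ⟨le_rfl, Nat.cast_le.2 (by omega), ?_⟩
      simp only [dl]
      exact_mod_cast (mem_filter.1 hf).2
  have p1 : tdist y (tcast L p) ≤ G.Rs l := hx ▸ tdist_le_of (by rwa [dist_comm])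
  by_cases k : In D (r + S.loc l) (tcast L p)
  · obtain ⟨B, hB, k⟩ := k
    have b0 := hV.rad B hB
    have b1 : dist p (lf x B.1) ≤ (B.2 + (r + S.loc l) : ℕ) := dist_lf_le hpx k (by omega)
    have b2 : ((B.2 + (r + S.loc l) : ℕ) : ℝ) ≤ (B.2 + Q.sg l : ℕ) := Nat.cast_le.2 (by omega)
    rcases le_or_gt (G.c * (B.2 + Q.sg l)) (tdist y B.1) with k1 | k1
    · exact .inr ⟨_, mem_union_left _ (mem_image_of_mem _ (mem_filter.2 ⟨hB, k1⟩)), b1.trans b2⟩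
    have b3 : B.2 + r' < tdist y B.1 := lt_of_not_ge fun k2 => h.1 ⟨B, hB, by rwa [tdist_comm]⟩
    have b4 : ((B.2 + (r + S.loc l) : ℕ) : ℝ) + G.A l < tdist y B.1 := by
      exact_mod_cast (by omega : B.2 + (r + S.loc l) + G.A l < tdist y B.1)
    have b5 := he B hB k1
    have b6 := Sd.hgt_le e p (lf x B.1)
    have b7 := dist_triangle x p (lf x B.1)
    have b8 := dist_triangle p (lf x B.1) x
    have b9 : (tdist y B.1 : ℝ) + (B.2 + Q.sg l : ℕ) ≤ (G.c + 3) * G.W l := by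
      have := Nat.mul_le_mul_left G.c (by omega : B.2 + Q.sg l ≤ G.W l)
      exact_mod_cast (by rw [add_mul]; omega : tdist y B.1 + (B.2 + Q.sg l) ≤ (G.c + 3) * G.W l)
    rw [dist_comm (lf x B.1) x] at b8
    rw [dist_comm x p] at b7
    rw [dl] at b5 b7 b8
    have := dist_nonneg (x := p) (y := x)
    have : (0 : ℝ) ≤ G.A l := Nat.cast_nonneg _
    exact .inl ⟨by linarith, by linarith, by linarith⟩
  have p2 : FQ S (Cp S Q U) Lf l (tcast L p) :=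
    hp.resolve_left fun k1 => k ((h.2 _ k1 (by omega)).mono (Nat.zero_le _))
  have p3 : Q.A l < tdist y (tcast L p) := lt_of_not_ge fun k1 =>
    n1 ⟨{tcast L p}, rfl, by simpa [T1] using ⟨k1, p2⟩, by simp⟩
  obtain ⟨f, hf, p4⟩ : ∃ f ∈ F, tdist f (tcast L p) ≤ S.sep l := by
    by_contra k1
    exact hF _ (fun f hf => hd f _ ▸ lt_of_not_ge fun k2 => k1 ⟨f, hf, k2⟩) ⟨mem_T2.2 ⟨p1, k⟩, p2⟩
  have := tdist_triangle y f (tcast L p)
  rw [add_mul] at a2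
  exact .inr ⟨_, mem_union_right _ (mem_image_of_mem _ (mem_filter.2 ⟨hf, by omega⟩)),
    dist_lf_le hpx (p4.trans s1) (by omega)⟩

/-- **cover of the junk** (input of G1). -/
theorem covJ (hd : ∀ x y, S.d x y = tdist x y) {F0 : Finset (Tor 3 L)} {R s : ℕ}
    (h : ¬ FQ S (Cp S Q U) Lf (l + 1) y) (hR : R ≤ S.ρ (l + 1))
    (hU : ∀ u, tdist y u ≤ R + Q.dc l + S.loc l → U l u → ∃ f ∈ F0, tdist f u ≤ s)
    (hs : S.sep l ≤ s + Q.dc l + S.loc l) : ∃ F : Finset (Tor 3 L), F.card ≤ F0.card + S.a1 ∧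
      ∀ z, tdist y z ≤ R → Jr S Q U Lf l z → ∃ f ∈ F, tdist f z ≤ s + Q.dc l + S.loc l := by
  classical
  obtain ⟨F, c1, hF⟩ := Sys.cover_of_not_sepd h
  refine ⟨F0 ∪ F, (card_union_le _ _).trans (by omega), fun z hz k => ?_⟩
  by_cases k1 : Cp S Q U l z
  · have k2 := k.resolve_left fun k2 => by have := k1 z k2; rw [tdist_self] at this; omega
    by_contra k3
    exact hF z (fun f hf => hd f z ▸ lt_of_not_ge fun k4 => k3 ⟨f, mem_union_right _ hf, by omega⟩)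
      ⟨hd y z ▸ hz.trans hR, k1, k2⟩
  · simp only [Cp, Fr, not_forall, not_lt] at k1
    obtain ⟨u, h1, h2⟩ := k1
    obtain ⟨f, hf, h3⟩ := hU u (by have := tdist_triangle y z u; omega) h1
    have := tdist_triangle f u z
    rw [tdist_comm u z] at this
    exact ⟨f, mem_union_left _ hf, by omega⟩

/-- **no failing cell at the top**: the leaves live in a small domain. -/
theorem topJ (hd : ∀ x y, S.d x y = tdist x y) (ha : 1 ≤ S.a1) {P : ℕ → Tor 3 L → Prop} {δ : ℕ}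
    (h : ∀ z z', Lf z → Lf z' → tdist z z' ≤ δ) (hs : δ + 2 * S.loc l ≤ S.sep l) :
    ¬ FQ S P Lf (l + 1) y := by
  rintro ⟨Y, h1, h2, h3⟩
  obtain ⟨z, hz, z', hz', hne⟩ := one_lt_card.1 (by omega : 1 < Y.card)
  obtain ⟨u, a1, a2⟩ := (h2 z hz).2.2.leaf
  obtain ⟨u', b1, b2⟩ := (h2 z' hz').2.2.leaf
  have := h3 z hz z' hz' hne
  have := h u u' a1 b1
  have := tdist_triangle z u z'
  have := tdist_triangle u u' z'
  rw [tdist_comm u' z'] at this
  simp only [hd] at *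
  omega

end geo

variable {L n T : ℕ} [NeZero L] [NeZero T] {ex ey : Fin T → Tor 3 L × Fin n}
  {α κ : Type} [SemilatticeSup α] [Preorder κ] {S : Sys (Tor 3 L) α κ} {G : Eg} {Q : Gp}
  {p : Fin T → ℝ} {b b' : Pt L n T → ℝ} {P : Pz} {U : ℕ → Tor 3 L → Prop}
  {Lf : CR T (Tor 3 L × Fin n) → Tor 3 L → Prop}
  {Pr : ℕ → Tor 3 L → Pt L n T → Pt L n T → ℝ → Prop} {l : ℕ} {D : ℕ → Dat L} {r r' : ℕ → ℕ}
  {y : Tor 3 L}

lemma NT.mono {m m' : ℕ} (N : NT S P m) (h : m' ≤ m) : NT S P m' :=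
  ⟨N.d, N.a1, N.η, N.cF, N.γ, N.ε, fun k hk => N.rec' k (by omega), fun k hk => N.sep k (by omega)⟩

/-- claims make good leaves. -/
theorem RIn.gl (I : RIn ex ey S G Q p b P b' U Lf Pr) {m : ℕ} (h0 : Fr U 0 Q.fr y)
    (h : ∀ k ≤ m, Bd ex ey p b Pr k y (2 * P.γ k)) : Gl ex ey S p b P Lf (m + 1) y :=
  ⟨I.leaf y h0 (h 0 (Nat.zero_le _)), fun k hk v u h1 h2 h3 h4 => by
    simpa using h k (by omega) v u 0 (I.far k y v u h1 h2 h3 h4)⟩

/-- the bad event of the reset step. -/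
def Bad0 (S : Sys (Tor 3 L) α κ) (G : Eg) (Q : Gp) (U : ℕ → Tor 3 L → Prop) (Lf : Tor 3 L → Prop)
    (l : ℕ) (D : ℕ → Dat L) (r : ℕ → ℕ) (y : Tor 3 L) : Prop :=
  ∃ i ∈ Ico l G.mt, FT S (Cp S Q U) Lf (T1 Q i y) 0 i ∨
    FT S (Cp S Q U) Lf (T2 S G i (D i) (r i) y) S.a1 i

theorem RIn.core (I : RIn ex ey S G Q p b P b' U Lf Pr) (hl : l ≤ G.mt)
    (hD : ∀ i, l ≤ i → i < G.mt →
      Val Q U i (D i) ∧ Q.fr ≤ r i ∧ r i + Q.un i ≤ r' i ∧ r' i ≤ Q.sg i)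
    (hy : Ty Q U G.mt l l D r' y)
    (h0 : l = 0 → Bd ex ey p b Pr 0 y (2 * P.γ 0) ∨ ∀ x, b (0, x) = 0)
    (hB : PR ex ey p b (fun ω => Bad0 S G Q U (Lf ω) l D r y) ≤ P.γ l / 2) :
    Bd ex ey p b Pr l y (P.γ l) := fun v u o hv => by
  obtain ⟨Bad, g, g0, h1, h2, h3, h4⟩ := I.que l hl y v u o hv fun e => ⟨by
    subst e
    have := hD 0 le_rfl I.ng.mt
    exact hy.fr I.ng.mt I.ng.fr fun _ => by omega, h0 e⟩
  have key := annG (ex := ex) (ey := ey) I.hp I.hb I.hb' I.le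
    (Bad := fun ω => Bad0 S G Q U (Lf ω) l D r y ∨ Bad ω) (fun ξ R R' hR => Or.imp
      (fun ⟨i, hi, k⟩ => ⟨i, hi, k.imp
        (Sys.Sepd.mono · fun z hz => ⟨hz.1, hz.2.mono (fun _ _ _ h => h) fun z => I.mono ξ R R' z hR⟩)
        (Sys.Sepd.mono · fun z hz => ⟨hz.1, hz.2.mono (fun _ _ _ h => h) fun z => I.mono ξ R R' z hR⟩)⟩)
      (h2 ξ R R' hR)) h1 g0 (v := v) fun ω k1 k2 k3 k4 => h4 ω k1 (fun k => k2 (.inr k))
        (fun x hx i a1 a2 => ⟨lf x y, ?_, ?_⟩) k3 k4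
  · have := (sub_PR (ex := ex) (ey := ey) I.hp I.hb.mem).or
      (fun ω => Bad0 S G Q U (Lf ω) l D r y) Bad
    linarith
  · rw [dist_comm, dist_lf, tdist_comm]
    exact Nat.cast_le.2 (hx.trans (I.ng.rr i a2))
  · obtain ⟨d1, -, d2, d3⟩ := hD i a1 a2
    exact rt_of I.nt.d I.ng a2 d1 (hy.2 i a1 a2) d2 d3
      (fun k => k2 (.inl ⟨i, mem_Ico.2 ⟨a1, a2⟩, .inl k⟩))
      (fun k => k2 (.inl ⟨i, mem_Ico.2 ⟨a1, a2⟩, .inr k⟩)) (tcast_lf x y)

/-- **the reset step.** -/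
theorem reset : ResetStmt ex ey S G Q p b P := fun b' U Lf Pr I l hl D r r' hD H y hy => by
  have hμ := sub_PR (ex := ex) (ey := ey) I.hp I.hb.mem
  have hr : ∀ i, l ≤ i → i < G.mt → r i ≤ r' i := fun i a b => by have := hD i a b; omega
  refine I.core hl hD hy (fun e => .inl (by subst e; exact H 0 le_rfl hl 0 le_rfl y (hy.mono hr)))
    ((hμ.union (Ico l G.mt) _ fun _ h => h).trans ((sum_le_sum fun i hi => ?_).trans (I.sum l hl)))
  obtain ⟨a1, a2⟩ := mem_Ico.1 hi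
  obtain ⟨d1, d0, d2, d3⟩ := hD i a1 a2
  obtain ⟨w1, w2⟩ := I.ng.W i a2
  have key : ∀ z : ℕ → Tor 3 L, z i ∈ T2 S G i (D i) (r i) y → (∀ k < i, Cp S Q U k (z k)) →
      (∀ k ≤ i, tdist (z k) (z 0) + S.loc 0 ≤ S.loc k) → Gl ex ey S p b P Lf (i + 1) (z 0) :=
    fun z h1 h2 h3 => by
      obtain ⟨h1, h4⟩ := mem_T2.1 h1
      have h5 := h3 i le_rfl
      have h6 := tdist_triangle y (z i) (z 0)
      have lo : ∀ k < i, Cs Q U k (z 0) := fun k hk =>
        Fr.near (h2 k hk) (by have := h3 k hk.le; omega)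
      have up : ∀ k, i < k → k < G.mt → Cd Q U k (D k) (r k) (z 0) := fun k b1 b2 =>
        (hy.2 k (by omega) b2).near (by
          have := I.ng.un i k b1 b2; have := (hD k (by omega) b2).2.2.1; omega)
      obtain ⟨j, j1, j2, hj⟩ : ∃ j, i ≤ j ∧ j ≤ G.mt ∧ ∀ l0, Ty Q U G.mt j l0 D r (z 0) := by
        rcases (hy.2 i a1 a2).clos d1 (r := r i) (y' := z 0) (by omega) (by omega)
          fun k => h4 (k.up (by rw [tdist_comm]; omega)) with k | k
        · exact ⟨i, le_rfl, a2.le, fun l0 => ⟨fun k _ => lo k, fun k' b1 b2 =>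
            b1.eq_or_lt.elim (fun e => e ▸ k) fun b1 => up k' b1 b2⟩⟩
        · exact ⟨i + 1, by omega, a2, fun l0 => ⟨fun k' _ b1 =>
            (Nat.le_of_lt_succ b1).eq_or_lt.elim (fun e => e ▸ k) (lo k'), up⟩⟩
      refine I.gl ((hj 0).fr I.ng.mt I.ng.fr fun e => ?_) fun k hk =>
        H j (by omega) j2 k (by omega) _ (hj k)
      obtain rfl : i = 0 := by omega
      exact d0
  have N := I.nt.mono (show i + 1 ≤ G.mt from a2)
  have s1 := T1_sub I.ng a2 (hy.2 i a1 a2) d2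
  have s2 : ∀ z ∈ T2 S G i (D i) (r i) y, tdist y z ≤ S.ρ (i + 1) := fun z hz =>
    (mem_T2.1 hz).1.trans w2
  refine (hμ.or _ _).trans (add_le_add ?_ ?_)
  · simpa using tree (A := T1 Q i y) I.hp I.hb N (Nat.zero_le _) (card_ball_le y (Q.A i)) (fun z hz => s2 z (s1 hz))
      fun z hz => key z (s1 hz)
  · simpa using tree I.hp I.hb N le_rfl ((card_le_card fun z hz =>
      mem_filter.2 ⟨mem_univ _, s2 z hz⟩).trans (card_ball_le y (S.ρ (i + 1)))) s2 key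

/-- **the base step.** -/
theorem base : BaseStmt ex ey S G Q p b P := fun b' U Lf Pr I h0 l hl D r r' hD y hy => by
  refine I.core hl hD hy (fun _ => .inr h0) ((PR_zero I.hp I.hb.mem h0 fun ξ hξ ⟨i, _, k⟩ => ?_).trans
    (by have := (I.nt.γ l).1; positivity))
  obtain ⟨A, m, Y, h1, h2, -⟩ : ∃ A m, FT S (Cp S Q U) (Lf (ξ, ∅)) A m i :=
    k.elim (fun k => ⟨_, _, k⟩) fun k => ⟨_, _, k⟩
  obtain ⟨z, hz⟩ := card_pos.1 (h1 ▸ Nat.succ_pos _ : 0 < Y.card)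
  obtain ⟨u, hu, -⟩ := (h2 z hz).2.leaf
  exact I.zero ξ u hξ hu

end Crest.Agent.N337.G4.Rs
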