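import Crest.Agent.N337.G4.Path
import Crest.Agent.N337.G4.RStep

/-!
# Row 337, G4 (helper23): the nested induction on the fronts of `G4/RDefs`
-/

set_option autoImplicit false
set_option linter.unusedSectionVars false

namespace Crest.Agent.N337.G4.Sp

open Finset Crest.Agent.N337.Rep Crest.Agent.N337.Free Crest.Agent.N337.Rg Crest.Agent.N337.Tr
  Crest.Agent.N337.G4.Rs
open Crest.Agent.N337.Arc (Fld)

section geo
variable {L : ℕ} [NeZero L]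

/-- cubes of the torus are collected in well separated groups. -/
theorem mergeT (c σ n : ℕ) : ∀ l : Dat L, l.card ≤ n → ∃ F : Dat L, F.card ≤ n ∧
    (∀ m ∈ l, ∃ G ∈ F, tdist G.1 m.1 + m.2 ≤ G.2) ∧
    (∀ G ∈ F, ∀ G' ∈ F, G ≠ G' → c * (G.2 + σ + (G'.2 + σ)) ≤ tdist G.1 G'.1) ∧
    ∀ G ∈ F, ∃ m ∈ l, tdist G.1 m.1 + m.2 ≤ G.2 ∧ G.2 + σ ≤ (2 * c + 2) ^ n * (m.2 + σ) := by
  induction n with
  | zero =>
    intro l h1
    rw [card_eq_zero.1 (Nat.le_zero.1 h1)]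
    exact ⟨∅, by simp⟩
  | succ n ih =>
    intro l h1
    by_cases hs : ∀ G ∈ l, ∀ G' ∈ l, G ≠ G' → c * (G.2 + σ + (G'.2 + σ)) ≤ tdist G.1 G'.1
    · exact ⟨l, h1, fun m hm => ⟨m, hm, by simp [tdist_self]⟩, hs, fun G hG => ⟨G, hG,
        by simp [tdist_self], Nat.le_mul_of_pos_left _ (by positivity)⟩⟩
    have : ∃ G ∈ l, ∃ G' ∈ l, G ≠ G' ∧ G'.2 ≤ G.2 ∧
        tdist G.1 G'.1 < c * (G.2 + σ + (G'.2 + σ)) := by
      push Not at hs
      obtain ⟨G, hG, G', hG', hne, hd⟩ := hs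
      rcases le_total G'.2 G.2 with h | h
      · exact ⟨G, hG, G', hG', hne, h, hd⟩
      · exact ⟨G', hG', G, hG, hne.symm, h, by rw [tdist_comm, add_comm (G'.2 + σ)]; exact hd⟩
    obtain ⟨G, hG, G', hG', hne, hle, hd⟩ := this
    have hG'' : G' ∈ l.erase G := mem_erase.2 ⟨hne.symm, hG'⟩
    obtain ⟨F, f1, f2, f3, f4⟩ := ih
      (insert (G.1, G.2 + tdist G.1 G'.1 + G'.2) ((l.erase G).erase G')) (by
        have a1 := card_insert_le (G.1, G.2 + tdist G.1 G'.1 + G'.2) ((l.erase G).erase G')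
        have a2 := card_erase_of_mem hG''
        have a3 := card_erase_of_mem hG
        have a4 := card_pos.2 ⟨_, hG''⟩
        omega)
    obtain ⟨K, hK, hKH⟩ := f2 _ (mem_insert_self _ _)
    dsimp only at hKH
    refine ⟨F, by omega, fun m hm => ?_, f3, fun K' hK' => ?_⟩
    · by_cases e1 : m = G
      · exact ⟨K, hK, by rw [e1]; omega⟩
      by_cases e2 : m = G'
      · exact ⟨K, hK, by have := tdist_triangle K.1 G.1 G'.1; rw [e2]; omega⟩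
      exact f2 m (mem_insert_of_mem (mem_erase.2 ⟨e2, mem_erase.2 ⟨e1, hm⟩⟩))
    · obtain ⟨m, hm, m1, m2⟩ := f4 K' hK'
      rcases mem_insert.1 hm with rfl | hm
      · refine ⟨G, hG, by dsimp only at m1; omega, m2.trans ?_⟩
        rw [pow_succ, mul_assoc]
        refine Nat.mul_le_mul_left _ ?_
        dsimp only
        nlinarith [Nat.mul_le_mul_left c hle]
      · refine ⟨m, mem_of_mem_erase (mem_of_mem_erase hm), m1, m2.trans ?_⟩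
        rw [pow_succ, mul_assoc]
        exact Nat.mul_le_mul_left _ (Nat.le_mul_of_pos_left _ (by omega))

variable {Q : Gp} {U U' : ℕ → Tor 3 L → Prop} {l r r' : ℕ} {D : Dat L} {x y : Tor 3 L}

lemma In_mono (h : In D r y) (hr : r ≤ r') : In D r' y :=
  h.imp fun _ h => ⟨h.1, h.2.trans (Nat.add_le_add_left hr _)⟩

lemma In_move {e : ℕ} (h : In D r y) (he : tdist y x ≤ e) : In D (r + e) x := by
  obtain ⟨B, h1, h2⟩ := h
  exact ⟨B, h1, by have := tdist_triangle B.1 y x; omega⟩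

lemma Cd_mono (h : Cd Q U l D r y) (hU : ∀ u, U' l u → U l u) (hr : r' ≤ r) : Cd Q U' l D r' y :=
  ⟨fun h1 => h.1 (In_mono h1 hr), fun u hu h1 => h.2 u (hU u hu) (by omega)⟩

lemma Cd_not (h : Cd Q U l D r y) : ¬ U l y := fun hu =>
  h.1 (In_mono (h.2 y hu (by rw [tdist_self]; omega)) (Nat.zero_le _))

/-- **a datum from a cover by balls far from the point.** -/
theorem pick_gen {F : Finset (Tor 3 L)} {s e R H : ℕ} (hF : F.card ≤ Q.N)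
    (hc : ∀ u, U l u → tdist x u ≤ H → ∃ f ∈ F, tdist f u ≤ s)
    (hR : (2 * Q.c + 2) ^ Q.N * (s + Q.sg l) ≤ R) (hm : R ≤ Q.Rm l)
    (hf : ∀ f ∈ F, 2 * R + Q.sg l + e < tdist x f)
    (hH : (Q.N + 1) * (2 * Q.Rm l + Q.W l + 2 * Q.dc l + Q.sg l + e) ≤ H) :
    ∃ D, Val Q U l D ∧ ∀ y, tdist x y ≤ e → Cd Q U l D (Q.sg l) y := by
  obtain ⟨𝒢, g1, g2, g3, g4⟩ := mergeT Q.c (Q.sg l) Q.N (F.image fun f => (f, s))
    (card_image_le.trans hF)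
  set w := 2 * Q.Rm l + Q.W l + 2 * Q.dc l + Q.sg l + e with hw
  have g5 : ∀ G ∈ 𝒢, G.2 ≤ R ∧ ∃ f ∈ F, tdist G.1 f ≤ R := fun G hG => by
    obtain ⟨m, hm, m1, m2⟩ := g4 G hG
    obtain ⟨f, hf, rfl⟩ := mem_image.1 hm
    dsimp only at m1 m2
    exact ⟨by omega, f, hf, by omega⟩
  obtain ⟨k, hk, hk'⟩ : ∃ k ≤ Q.N, ∀ G ∈ 𝒢, tdist x G.1 ≤ (k + 1) * w → tdist x G.1 ≤ k * w := by
    by_contra hn
    push Not at hn
    have h1 : range (Q.N + 1) ⊆ 𝒢.image fun G => (tdist x G.1 - 1) / w := fun k hk => by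
      obtain ⟨G, hG, a1, a2⟩ := hn k (Nat.lt_succ_iff.1 (mem_range.1 hk))
      exact mem_image.2 ⟨G, hG, Nat.div_eq_of_lt_le (by omega) (by omega)⟩
    have := (card_le_card h1).trans card_image_le
    rw [card_range] at this
    omega
  have kw : (k + 1) * w ≤ H := (Nat.mul_le_mul_right _ (by omega)).trans hH
  rw [add_mul, one_mul] at kw hk'
  have key : ∀ u, U l u → tdist x u + Q.Rm l ≤ k * w + w →
      In (𝒢.filter fun G => tdist x G.1 ≤ k * w) 0 u := fun u hu h1 => by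
    obtain ⟨f, hf, h2⟩ := hc u hu (by omega)
    obtain ⟨G, hG, h3⟩ := g2 _ (mem_image_of_mem _ hf)
    dsimp only at h3
    have a1 := tdist_triangle G.1 f u
    have a2 := tdist_triangle x u G.1
    have a3 := (g5 G hG).1
    rw [tdist_comm u] at a2
    exact ⟨G, mem_filter.2 ⟨hG, hk' G hG (by omega)⟩, by omega⟩
  refine ⟨𝒢.filter fun G => tdist x G.1 ≤ k * w, ⟨(card_filter_le _ _).trans g1,
    fun B hB => (g5 B (mem_filter.1 hB).1).1.trans hm,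
    fun B hB B' hB' => g3 B (mem_filter.1 hB).1 B' (mem_filter.1 hB').1,
    fun u hu ⟨B, hB, h1⟩ => key u hu ?_⟩, fun y hy => ⟨fun ⟨B, hB, h1⟩ => ?_,
    fun u hu h1 => key u hu ?_⟩⟩
  · have a1 := tdist_triangle x B.1 u
    have a2 := (mem_filter.1 hB).2
    have a3 := (g5 B (mem_filter.1 hB).1).1
    omega
  · obtain ⟨a1, f, a2, a3⟩ := g5 B (mem_filter.1 hB).1
    have a4 := hf f a2
    have a5 := tdist_triangle x y f
    have a6 := tdist_triangle y B.1 f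
    rw [tdist_comm y B.1] at a6
    omega
  · have := tdist_triangle x y u
    omega

/-- a datum for a point with no junk nearby. -/
theorem pick_fr {F : Finset (Tor 3 L)} {s e d H : ℕ} (hF : F.card ≤ Q.N)
    (hc : ∀ u, U l u → tdist x u ≤ H → ∃ f ∈ F, tdist f u ≤ s)
    (hR : (2 * Q.c + 2) ^ Q.N * (s + Q.sg l) ≤ Q.Rm l) (hx : Fr U l d x)
    (hd : 2 * Q.Rm l + Q.sg l + e + s ≤ d)
    (hH : (Q.N + 1) * (2 * Q.Rm l + Q.W l + 2 * Q.dc l + Q.sg l + e) ≤ H) :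
    ∃ D, Val Q U l D ∧ ∀ y, tdist x y ≤ e → Cd Q U l D (Q.sg l) y := by
  classical
  refine pick_gen (F := F.filter fun f => ∃ u, U l u ∧ tdist f u ≤ s)
    ((card_filter_le _ _).trans hF) (fun u hu h1 => ?_) hR le_rfl (fun f hf => ?_) hH
  · obtain ⟨f, h2, h3⟩ := hc u hu h1
    exact ⟨f, mem_filter.2 ⟨h2, u, hu, h3⟩, h3⟩
  · obtain ⟨-, u, h1, h2⟩ := mem_filter.1 hf
    have := hx u h1
    have := tdist_triangle x f u
    omega

/-- a datum for all points near an isolated point. -/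
theorem pick_iso {α κ : Type} [SemilatticeSup α] [Preorder κ] {S : Sys (Tor 3 L) α κ}
    (hd : ∀ x y, S.d x y = tdist x y) {e : ℕ} (h : S.Iso U l x) (hN : S.N ≤ Q.N)
    (h1 : Q.sg l + e ≤ S.sep l) (h2 : 4 * (2 * Q.c + 2) ^ Q.N + 1 ≤ S.Lam)
    (h3 : (2 * Q.c + 2) ^ Q.N * (S.Sx l + Q.sg l) ≤ Q.Rm l)
    (hH : (Q.N + 1) * (2 * Q.Rm l + Q.W l + 2 * Q.dc l + Q.sg l + e) ≤ S.H l) :
    ∃ D, Val Q U l D ∧ ∀ y, tdist x y ≤ e → Cd Q U l D (Q.sg l) y := by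
  obtain ⟨s, F, a1, a2, a3, a4, a5⟩ := h
  simp only [hd] at a4 a5
  refine pick_gen (a3.trans hN) a4 le_rfl
    ((Nat.mul_le_mul_left _ (Nat.add_le_add_right a2 _)).trans h3) (fun f hf => ?_) hH
  have b1 := a5 f hf
  have b2 := Nat.mul_le_mul_right s h2
  have b3 := Nat.mul_le_mul_left ((2 * Q.c + 2) ^ Q.N) (show s + Q.sg l ≤ 2 * s by omega)
  rw [tdist_comm] at b1
  nlinarith

end geo

/-- numbers of the paths. -/
structure Np where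
  /-- steps of the ladder; radii in units of `un l` -/
  K : ℕ → ℕ
  ρ : ℕ → ℕ
  σ : ℕ → ℕ
  Δ : ℕ → ℕ
  /-- speed of the cheap steps, number of expensive steps, size of the slice -/
  v : ℕ → ℕ
  f : ℕ → ℕ
  Nn : ℕ → ℕ
  /-- range of the junk predicate, radius and range of the covers, range of the pairs -/
  lc : ℕ → ℕ
  Sc : ℕ → ℕ
  Hc : ℕ → ℕ
  r0 : ℕ
  Kr : ℕ → ℝ

variable {L n T : ℕ} [NeZero L] [NeZero T] (ex ey : Fin T → Tor 3 L × Fin n)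
  {α κ : Type} [SemilatticeSup α] [Preorder κ] (S : Sys (Tor 3 L) α κ) (G : Eg) (Q : Gp) (P : Pz)
  (N : Np)

/-- **numerics of the paths** (`vol` = number of slots). -/
structure NP (n vol : ℕ) : Prop where
  γ : ∀ l, 0 < P.γ l ∧ P.γ l ≤ 3
  anti : Antitone P.γ
  Δ0 : 1 ≤ N.Δ 0
  Δ : ∀ l < G.mt, (N.K l + 3) * N.Δ l ≤ N.Δ (l + 1)
  σ : ∀ l < G.mt, N.ρ l + ∑ t ∈ range (l + 1), N.Δ (t + 1) ≤ N.σ l ∧ N.σ l * Q.un l ≤ Q.sg l
  lad : ∀ l ≤ G.mt, 3 * (N.Nn l : ℝ) ≤ P.γ l * Real.exp (P.γ l * N.K l / 6)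
  top : vol ≤ N.Nn G.mt
  fast : ∀ l < G.mt, N.Nn l * Real.exp (40 * N.Kr l - N.f l) ≤ P.γ l
  card : ∀ l < G.mt,
    Q.N * ((2 * (Q.Rm l + N.lc l + ((N.f l + 1) * (N.v l + 1) + 1)) + 1) ^ 3 * n) ≤ N.Nn l
  ρ : ∀ l < G.mt, Q.fr ≤ N.ρ l * Q.un l ∧
    N.lc l + ((N.f l + 1) * (N.v l + 1) + 1) + N.r0 ≤ N.ρ l * Q.un l
  Rm : ∀ l < G.mt, (2 * Q.c + 2) ^ Q.N * (N.Sc l + Q.sg l) ≤ Q.Rm l
  dc : ∀ l < G.mt, 2 * Q.Rm l + Q.sg l + N.Sc l ≤ Q.dc l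
  H : ∀ l < G.mt, (Q.N + 1) * (2 * Q.Rm l + Q.W l + 2 * Q.dc l + Q.sg l) ≤ N.Hc l

variable (p : Fin T → ℝ) (b0 : Pt L n T → ℝ) (Z0 : Finset (Tor 3 L))
  (U : Finset (Tor 3 L) → ℕ → Tor 3 L → Prop)
  (Pr : Finset (Tor 3 L) → ℕ → Tor 3 L → Pt L n T → Pt L n T → ℝ → Prop)

/-- **the inputs of G4** (`U Z` = junk for the killed set `Z`). -/
structure GIn : Prop where
  np : NP G Q P N n (L ^ 3 * n)
  hp : ∀ s, 0 ≤ p s ∧ p s ≤ 1
  hb : Fld b0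
  nn : ∀ s, tdist (ex s).1 (ey s).1 ≤ 1
  anti : ∀ Z Z' l y, Z ⊆ Z' → U Z' l y → U Z l y
  dead : ∀ l < G.mt, ∀ Z y, (∀ z, tdist y z ≤ N.lc l → z ∈ Z) → ¬ U Z l y
  cov : ∀ l < G.mt, ∀ Z x, Z0 ⊆ Z → (l + 1 < G.mt → ¬ U Z (l + 1) x) → ∃ F : Finset (Tor 3 L),
    F.card ≤ Q.N ∧ ∀ u, U Z l u → tdist x u ≤ N.Hc l → ∃ f ∈ F, tdist f u ≤ N.Sc l
  rate : ∀ l < G.mt, A.Rate ex ey (fun x y => tdist x.1 y.1) ⟨p, b0⟩ (N.v l + 2) (N.Kr l)
  slow : ∀ l < G.mt, (∃ u, U Z0 l u) → ∀ Z, Z0 ⊆ Z → A.Slow ex ey (fun x y => tdist x.1 y.1)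
    (A.Cheap ex ey (fun x y => tdist x.1 y.1) ⟨p, b0⟩)
    (fun u => u.2.1 ∉ Z ∧ ¬ U Z l u.2.1 ∧ b0 u ≠ 0) (N.v l)
  mono : ∀ Z Z' l x v u o, Z ⊆ Z' → (v.2.1 ∈ Z' → v.2.1 ∈ Z) → (u.2.1 ∈ Z' → u.2.1 ∈ Z) →
    Pr Z l x v u o → Pr Z' l x v u o
  pos : ∀ Z l x v u o, Pr Z l x v u o → 0 ≤ o
  near : ∀ Z l x v u o, Pr Z l x v u o → tdist x v.2.1 ≤ N.r0
  rin : ∀ M : Mem Prod.fst b0 Z0, ∃ b' Lf, RIn ex ey S G Q p M.b P b' (U M.Z) Lf (Pr M.Z)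

open Classical in
/-- the geometric data. -/
noncomputable def gd : GD T (Tor 3 L × Fin n) (Tor 3 L) (Dat L) where
  L := G.mt
  γ := P.γ
  Pr l Z := Pr Z l
  Cs l Z := Cs Q (U Z) l
  Cd l a r Z := Cd Q (U Z) l a (r * Q.un l)
  Val l Z a := Val Q (U Z) l a ∧ (a.Nonempty → ∃ u, U Z0 l u)
  kz l a := univ.filter (In a (N.lc l))
  K := N.K
  ρ := N.ρ
  σ := N.σ
  Δ := N.Δ
  v := N.v
  f := N.f
  Nn := N.Nn

variable {ex ey S G Q P N p b0 Z0 U Pr}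

lemma mem_Dp {l : ℕ} {a : Dat L} {y : Tor 3 L × Fin n}
    (h : y ∈ (gd G Q P N Z0 U Pr).Dp Prod.fst (fun x y => tdist x.1 y.1) l a) :
    In a (N.lc l + ((N.f l + 1) * (N.v l + 1) + 1)) y.1 := by
  classical
  obtain ⟨z, h1, h2⟩ := A.mem_nbd.1 h
  exact In_move (mem_filter.1 (mem_filter.1 h1).2).2 (by rw [tdist_comm]; exact h2)

/-- no junk, no datum. -/
lemma trim (h : GIn ex ey S G Q P N p b0 Z0 U Pr) {Z : Finset (Tor 3 L)} (hZ : Z0 ⊆ Z) {l : ℕ}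
    {a : Dat L} (hV : Val Q (U Z) l a) : ∃ a', (Val Q (U Z) l a' ∧ (a'.Nonempty → ∃ u, U Z0 l u)) ∧
      ∀ r y, Cd Q (U Z) l a r y → Cd Q (U Z) l a' r y := by
  by_cases hU : ∃ u, U Z0 l u
  · exact ⟨a, ⟨hV, fun _ => hU⟩, fun _ _ h => h⟩
  · have hn : ∀ u, ¬ U Z l u := fun u hu => hU ⟨u, h.anti _ _ _ _ hZ hu⟩
    exact ⟨∅, ⟨⟨by simp, by simp, by simp, fun u hu => absurd hu (hn u)⟩, by simp⟩,
      fun r y _ => ⟨by simp [In], fun u hu => absurd hu (hn u)⟩⟩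

theorem gd_ok (h : GIn ex ey S G Q P N p b0 Z0 U Pr) :
    (gd G Q P N Z0 U Pr).Ok ex ey p Prod.fst b0 Z0 (fun x y => tdist x.1 y.1) N.Kr := by
  classical
  have np := h.np
  have Δ1 : ∀ l ≤ G.mt, 1 ≤ N.Δ l := fun l hl => by
    induction l with
    | zero => exact np.Δ0
    | succ l ih => exact (Nat.mul_pos (by omega) (ih (by omega))).trans_le (np.Δ l hl)
  have rad : ∀ l ≤ G.mt, ∀ D r Z, (gd G Q P N Z0 U Pr).Ad l D r (N.Δ l) Z → ∀ i, l ≤ i → i < G.mt →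
      Val Q (U Z) i (D i) ∧ Q.fr ≤ r i * Q.un i ∧ r i * Q.un i + Q.un i ≤ (r i + N.Δ l) * Q.un i ∧
        (r i + N.Δ l) * Q.un i ≤ Q.sg i := fun l hl D r Z hA i a b => by
    obtain ⟨a1, a2, a3⟩ := hA i a b
    refine ⟨a1.1, (np.ρ i b).1.trans (Nat.mul_le_mul_right _ a2), ?_,
      (Nat.mul_le_mul_right _ a3).trans (np.σ i b).2⟩
    rw [add_mul]
    exact Nat.add_le_add_left (Nat.le_mul_of_pos_left _ (Δ1 l hl)) _
  have ρσ : ∀ l < G.mt, N.ρ l + (N.K l + 3) * N.Δ l ≤ N.σ l := fun l hl =>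
    le_trans (Nat.add_le_add_left ((np.Δ l hl).trans (single_le_sum (f := fun t => N.Δ (t + 1))
      (fun _ _ => Nat.zero_le _) (self_mem_range_succ l))) _) (np.σ l hl).1
  refine ⟨h.hp, h.hb, ⟨fun _ => tdist_self _, fun _ _ => tdist_comm _ _,
    fun _ _ _ => tdist_triangle _ _ _, h.nn⟩, np.γ, np.anti,
    fun l Z Z' x v u o => h.mono Z Z' l x v u o, fun l Z => h.pos Z l,
    fun l Z Z' x hZ hx u hu => hx u (h.anti _ _ _ _ hZ hu),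
    fun l a r r' Z Z' x hZ hr hx => Cd_mono hx (fun u => h.anti _ _ _ _ hZ)
      (Nat.mul_le_mul_right _ hr),
    fun l Z Z' a hZ hV => ⟨hV.1.anti fun u => h.anti _ _ _ _ hZ, hV.2⟩,
    np.Δ, ρσ, np.lad, le_of_eq_of_le (by simp) np.top, np.fast, h.rate, fun l hl Z a _ ⟨hV, _⟩ => ?_,
    fun l hl Z a hZ ⟨hV, hV'⟩ => ?_,
    fun l hl Z a x _ hV hx l0 _ v u o hP => ?_, fun l hl D r Z x hZ _ hx => ?_,
    fun l hl a Z x _ hk _ hx u hu => ?_, fun l hl D r M hA hH x hx => ?_,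
    fun l hl D r M h0 hA x hx => ?_⟩
  · refine le_trans (card_le_card (t := a.biUnion fun B => (univ.filter fun z =>
      tdist B.1 z ≤ Q.Rm l + N.lc l + ((N.f l + 1) * (N.v l + 1) + 1)) ×ˢ univ) fun y hy => ?_)
      (card_biUnion_le.trans ((sum_le_card_nsmul _ _ _ fun B _ => ?_).trans
        ((Nat.mul_le_mul_right _ hV.card).trans (np.card l hl))))
    · obtain ⟨B, h1, h2⟩ := mem_Dp hy
      have := hV.rad B h1
      exact mem_biUnion.2 ⟨B, h1, mem_product.2 ⟨mem_filter.2 ⟨mem_univ _, by omega⟩, mem_univ _⟩⟩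
    · rw [card_product, card_univ, Fintype.card_fin]
      exact Nat.mul_le_mul_right _ (card_ball_le _ _)
  · rcases a.eq_empty_or_nonempty with rfl | ha
    · intro s t γ hst ht hP
      rcases hst.eq_or_lt with rfl | hst
      · exact (tdist_self _).le.trans (Nat.zero_le _)
      · obtain ⟨B, hB, -⟩ := mem_Dp (hP ⟨s, by omega⟩ le_rfl hst).1.1
        simp at hB
    refine (h.slow l hl (hV' ha) Z hZ).mono (fun _ h => h) (fun u hu => ?_) le_rfl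
    refine ⟨hu.2.2.1, fun hU => hu.2.1 (mem_filter.2 ⟨mem_univ _, In_mono (hV.cls _ hU
      (In_mono (mem_Dp hu.1) ?_)) (Nat.zero_le _)⟩), hu.2.2.2⟩
    have a1 := (np.ρ l hl).2
    have a2 := (np.σ l hl).2
    have a3 := Nat.mul_le_mul_right (Q.un l) ((Nat.le_add_right _ _).trans (ρσ l hl))
    omega
  · exact fun h2 => hx.1 (In_mono (In_move (mem_Dp h2)
      (by rw [tdist_comm]; exact h.near _ _ _ _ _ _ hP)) (np.ρ l hl).2)
  · obtain ⟨F, h1, h2⟩ := h.cov l hl Z x hZ fun h1 => Cd_not (hx.2 (l + 1) le_rfl h1)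
    obtain ⟨a, a1, a2⟩ := pick_fr (e := 0) h1 h2 (np.Rm l hl) (hx.1 l le_rfl l.lt_succ_self)
      (np.dc l hl) (np.H l hl)
    obtain ⟨a', a3, a4⟩ := trim h hZ a1
    exact ⟨a', a3, Cd_mono (a4 _ _ (a2 x (tdist_self x).le)) (fun _ h => h) (np.σ l hl).2⟩
  · by_contra hc
    exact h.dead l hl Z u (fun z hz => hk (mem_filter.2 ⟨mem_univ _,
      In_mono (In_move (hx.2 u hu (by omega)) hz) (by omega)⟩)) hu
  · obtain ⟨b', Lf, hI⟩ := h.rin M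
    exact Rs.reset b' _ Lf _ hI l hl D _ _ (rad l hl D r M.Z hA) hH x hx
  · obtain ⟨b', Lf, hI⟩ := h.rin M
    exact fun v u o hP => (Rs.base b' _ Lf _ hI h0 l hl D _ _ (rad l hl D r M.Z hA) x hx v u o
      hP).trans (by have := (np.γ l).1; show _ ≤ 2 * P.γ l + o; linarith)

/-- **G4, Green part**: all members, all types (fronts of radius `sg`). -/
theorem g4_all (h : GIn ex ey S G Q P N p b0 Z0 U Pr)
    (M : Mem Prod.fst b0 Z0) {j l0 : ℕ} (hj : j ≤ G.mt) (h0 : l0 ≤ j) {D : ℕ → Dat L}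
    (hV : ∀ i, j ≤ i → i < G.mt → Val Q (U M.Z) i (D i)) {y : Tor 3 L}
    (hy : Ty Q (U M.Z) G.mt j l0 D Q.sg y) : Bd ex ey p M.b (Pr M.Z) l0 y (P.γ l0) := by
  choose! D' h1 h2 using fun i a b => trim h M.sub (hV i a b)
  exact GD.all (gd_ok h) (R := N.σ) (fun i hi => ⟨(h.np.σ i hi).1, le_rfl⟩) M hj h1 h0
    ⟨hy.1, fun i a b => Cd_mono (h2 i a b _ _ (hy.2 i a b)) (fun _ h => h) (h.np.σ i b).2⟩

/-- **G4, Green part**: a point with a datum at every level `≥ l0`. -/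
theorem g4_pt (h : GIn ex ey S G Q P N p b0 Z0 U Pr)
    (M : Mem Prod.fst b0 Z0) {l0 : ℕ} (h0 : l0 ≤ G.mt) {y : Tor 3 L}
    (hy : ∀ i, l0 ≤ i → i < G.mt → ∃ D, Val Q (U M.Z) i D ∧ Cd Q (U M.Z) i D (Q.sg i) y) :
    Bd ex ey p M.b (Pr M.Z) l0 y (P.γ l0) := by
  choose! D hD using hy
  exact g4_all h M h0 le_rfl (D := D) (fun i a b => (hD i a b).1)
    ⟨fun i a b => absurd b (by omega), fun i a b => (hD i a b).2⟩

end Crest.Agent.N337.G4.Sp
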