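import Crest.Agent.N337.R.Det
import Crest.Agent.N337.R.Fast
import Crest.Agent.N337.I.Env

/-!
# Row 337, G4 (helper76): fast strands in an environment, in family form

A strand is pushed by the pinned steps; more than `f` free jumps in a window force a set of free
active coins from a light static family.  Off this event everything is read on the grid slices.
-/

set_option autoImplicit false
set_option linter.unusedSectionVars false

namespace Crest.Agent.N337.G4.Fs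

open Finset Equiv Free KV Geo Rep
open Crest.Agent.N337.RR (Word)
open Crest.Agent.N337.RR.Dt
open Crest.Agent.N337.I (V Ev vis cnt chg acp evp)

variable {L n T : ℕ} [NeZero L] [NeZero T] (ex ey : Fin T → Tor 3 L × Fin n)

/-- the effective on-site steps form the last block of the period. -/
def Blk (p0 : Fin T → ℝ) : Prop := ∃ t0 : ℕ, ∀ s : Fin T,
  ((ex s).1 = (ey s).1 → p0 s ≠ 0 → t0 ≤ s.val) ∧ (t0 ≤ s.val → (ex s).1 = (ey s).1)

/-- the coins are free, or pinned and recorded in `X`. -/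
def Pin (p0 p : Fin T → ℝ) (X : Finset (V L n T)) : Prop :=
  ∀ s, (0 ≤ p s ∧ p s ≤ p0 s) ∨ (p s = 1 ∧ (ex s ≠ ey s → (s, ex s) ∈ X ∧ (s, ey s) ∈ X))

/-- the step `k` is a bond at the site `z`. -/
def Bd (k : ℕ) (z : Tor 3 L) : Prop := (ex (tm T k)).1 ≠ (ey (tm T k)).1 ∧
  ((ex (tm T k)).1 = z ∨ (ey (tm T k)).1 = z)

instance (k : ℕ) (z : Tor 3 L) : Decidable (Bd ex ey k z) := by unfold Bd; infer_instance

/-- rate of the step `k` at `z`. -/
def gr (p0 : Fin T → ℝ) (k : ℕ) (z : Tor 3 L) : ℝ := if Bd ex ey k z then p0 (tm T k) else 0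

/-- number of free jumps. -/
noncomputable def Jf (p : Fin T → ℝ) (ξ : Fin T → Bool) (u : Tor 3 L × Fin n) (a b : ℕ) : ℕ :=
  ∑ k ∈ Ico a b, if st ex ey ξ u (k + 1) ≠ st ex ey ξ u k ∧ p (tm T k) ≠ 1 then 1 else 0

open Classical in
/-- number of pinned bonds at the sites of `W`. -/
noncomputable def pc (p : Fin T → ℝ) (W : Tor 3 L → Prop) (a b : ℕ) : ℕ :=
  ∑ k ∈ Ico a b, if p (tm T k) = 1 ∧ ∃ z, W z ∧ Bd ex ey k z then 1 else 0

variable {ex ey} {p p0 : Fin T → ℝ} {ξ : Fin T → Bool} {E w B : ℕ} {θ : ℝ}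
  {X R : Finset (V L n T)} {Z : Finset (Tor 3 L)} {u : Tor 3 L × Fin n} {W : Tor 3 L → Prop}

lemma gr_nn (hW : Word ex ey p0 E w B θ) (k : ℕ) (z : Tor 3 L) : 0 ≤ gr ex ey p0 k z := by
  unfold gr; split_ifs; exacts [(hW.hp _).1, le_rfl]

lemma E_pos (hW : Word ex ey p0 E w B θ) : 0 < E :=
  Nat.pos_of_ne_zero fun h => NeZero.ne T (by rw [hW.hT, h, mul_zero])

lemma th_nn (hW : Word ex ey p0 E w B θ) : 0 ≤ θ :=
  le_trans (sum_nonneg fun a _ => gr_nn hW _ 0) (hW.rate 0 0)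

/-- the remaining rate. -/
theorem clock (hW : Word ex ey p0 E w B θ) (i : ℕ) : ∃ A : ℕ → Tor 3 L → ℝ,
    (∀ t z, A (t + 1) z + gr ex ey p0 t z ≤ A t z) ∧ (∀ t z z', A t z' ≤ A t z + θ) ∧
    (∀ t z, t ≤ (i + 1) * (w * E) → 0 ≤ A t z) ∧
    ∀ t z, i * (w * E) ≤ t → A t z ≤ θ * (w + 1) := by
  have hE := E_pos hW
  have h0 := th_nn hW
  let ρ : ℕ → Tor 3 L → ℝ := fun t z => ∑ s ∈ Ico t ((t / E + 1) * E), gr ex ey p0 s z
  have r0 : ∀ t z, 0 ≤ ρ t z := fun t z => sum_nonneg fun s _ => gr_nn hW s z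
  have r1 : ∀ t z, ρ t z ≤ θ := fun t z => by
    refine le_trans (sum_le_sum_of_subset_of_nonneg (Ico_subset_Ico (Nat.div_mul_le_self t E)
      le_rfl) fun s _ _ => gr_nn hW s z) ?_
    rw [sum_Ico_eq_sum_range, add_one_mul, Nat.add_sub_cancel_left]
    exact hW.rate _ z
  refine ⟨fun t z => θ * (((i + 1) * w : ℕ) - (t / E : ℕ)) + ρ t z, fun t z => ?_,
    fun t z z' => by linarith [r0 t z, r1 t z'], fun t z h => ?_, fun t z h => ?_⟩
  · have h1 : t < (t / E + 1) * E := by rw [add_one_mul]; exact Nat.lt_div_mul_add hE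
    have h2 : ρ t z = gr ex ey p0 t z + ∑ s ∈ Ico (t + 1) ((t / E + 1) * E), gr ex ey p0 s z :=
      sum_eq_sum_Ico_succ_bot h1 _
    rcases (Nat.succ_le_of_lt h1).eq_or_lt with h3 | h3
    · have h4 : (t + 1) / E = t / E + 1 := by
        rw [show t + 1 = (t / E + 1) * E from h3, Nat.mul_div_cancel _ hE]
      rw [← h3, Ico_self, sum_empty] at h2
      have := r1 (t + 1) z
      simp only [h4, h2]
      push_cast
      linarith
    · have h4 : (t + 1) / E = t / E :=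
        le_antisymm (Nat.le_of_lt_succ ((Nat.div_lt_iff_lt_mul hE).2 h3))
          (Nat.div_le_div_right (Nat.le_succ t))
      have : ρ (t + 1) z = ∑ s ∈ Ico (t + 1) ((t / E + 1) * E), gr ex ey p0 s z := by
        simp only [ρ, h4]
      simp only [h4, h2, this]
      linarith
  · have : ((t / E : ℕ) : ℝ) ≤ ((i + 1) * w : ℕ) := by
      exact_mod_cast Nat.div_le_of_le_mul (by rw [mul_comm E, mul_assoc]; exact h)
    exact add_nonneg (mul_nonneg h0 (by linarith)) (r0 t z)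
  · have : ((i * w : ℕ) : ℝ) ≤ (t / E : ℕ) := by
      exact_mod_cast (Nat.le_div_iff_mul_le hE).2 (by rw [mul_assoc]; exact h)
    have h1 := mul_le_mul_of_nonneg_left this h0
    have := r1 t z
    push_cast at h1 ⊢
    linarith

lemma Pin.nn (hP : Pin ex ey p0 p X) (s : Fin T) : 0 ≤ p s :=
  (hP s).elim (·.1) fun h => by rw [h.1]; exact zero_le_one

lemma Pin.le (hW : Word ex ey p0 E w B θ) (hP : Pin ex ey p0 p X) {s : Fin T} (h : p s ≠ 1) :
    p s ≤ p0 s := (hP s).elim (·.2) fun k => absurd k.1 h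

lemma xi_one (h : Pw p ξ ≠ 0) {s : Fin T} (h1 : p s = 1) : ξ s = true := by
  by_contra k
  exact h (prod_eq_zero (mem_univ s) (by rw [wb, if_neg k, h1, sub_self]))

lemma xi_zero (h : Pw p ξ ≠ 0) {s : Fin T} (h1 : ξ s = true) : p s ≠ 0 := fun k =>
  h (prod_eq_zero (mem_univ s) (by rw [wb, if_pos h1, k]))

lemma Jf_bot {a b : ℕ} (h : a < b) : Jf ex ey p ξ u a b =
    (if st ex ey ξ u (a + 1) ≠ st ex ey ξ u a ∧ p (tm T a) ≠ 1 then 1 else 0) +
      Jf ex ey p ξ u (a + 1) b := sum_eq_sum_Ico_succ_bot h _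

lemma bd_of {k : ℕ} (h : st ex ey ξ u (k + 1) ≠ st ex ey ξ u k) :
    Bd ex ey k (st ex ey ξ u k) := by
  rcases (jump h).2 with ⟨e1, e2⟩ | ⟨e1, e2⟩
  · exact ⟨by rw [e1, e2]; exact h.symm, .inl e1⟩
  · exact ⟨by rw [e1, e2]; exact h, .inr e1⟩

/-- after an effective on-site step the site is frozen up to the end of the window. -/
lemma frozen (hT : T = B * (w * E)) (hB : Blk ex ey p0) {i t k : ℕ} (h1 : i * (w * E) ≤ t)
    (h2 : t ≤ k) (h3 : k < (i + 1) * (w * E)) (h4 : (ex (tm T t)).1 = (ey (tm T t)).1)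
    (h5 : p0 (tm T t) ≠ 0) : st ex ey ξ u (k + 1) = st ex ey ξ u k := by
  by_contra h
  obtain ⟨t0, hB⟩ := hB
  refine (bd_of h).1 ((hB _).2 (((hB _).1 h4 h5).trans ?_))
  have h6 : (i % B + 1) * (w * E) ≤ T := by
    rw [hT]; exact Nat.mul_le_mul_right _ (Nat.mod_lt _ (I.B_pos hT))
  have h7 := split_mod hT i
  rw [add_one_mul] at h3 h6
  obtain ⟨t, rfl⟩ : ∃ t', t = t' + i / B * T := ⟨t - i / B * T, by omega⟩
  obtain ⟨k, rfl⟩ : ∃ k', k = k' + i / B * T := ⟨k - i / B * T, by omega⟩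
  rw [tm_add_mul, tm_add_mul, tm_val_of_lt (by omega), tm_val_of_lt (by omega)]
  omega

lemma exp_step {a q : ℝ} (hq : 0 ≤ q) :
    Real.exp a + 6 * q * Real.exp (a + 2) ≤ Real.exp (a + 50 * q) := by
  have h1 : Real.exp 2 ≤ 8 := by
    have := Real.exp_one_lt_d9
    rw [show (2 : ℝ) = 1 + 1 by norm_num, Real.exp_add]
    nlinarith [Real.exp_pos 1]
  rw [Real.exp_add, Real.exp_add]
  have h2 := Real.add_one_le_exp (50 * q)
  have h3 := Real.exp_pos a
  have h4 := mul_le_mul_of_nonneg_left h1 hq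
  nlinarith

/-- **the family of a pushed strand.** -/
theorem fam (hW : Word ex ey p0 E w B θ) (hθ : 50 * θ ≤ 1) (hB : Blk ex ey p0)
    (hP : Pin ex ey p0 p X) (W : Tor 3 L → Prop) (i : ℕ) {A : ℕ → Tor 3 L → ℝ}
    (A1 : ∀ t z, A (t + 1) z + gr ex ey p0 t z ≤ A t z) (A2 : ∀ t z z', A t z' ≤ A t z + θ)
    (A3 : ∀ t z, t ≤ (i + 1) * (w * E) → 0 ≤ A t z) {t : ℕ} (ht : t ≤ (i + 1) * (w * E)) :
    i * (w * E) ≤ t → ∀ (k : ℕ) (y : Tor 3 L × Fin n), ∃ F : Finset (Finset (Fin T)),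
      (∀ S ∈ F, ∀ s' ∈ S, ∃ s, t ≤ s ∧ s < (i + 1) * (w * E) ∧ s' = tm T s ∧ p s' ≠ 1 ∧
        ∃ z, W z ∧ Bd ex ey s z) ∧
      ∑ S ∈ F, ∏ s ∈ S, 6 * p s ≤
        Real.exp (50 * (A t y.1 + θ * pc ex ey p W t ((i + 1) * (w * E))) - k) ∧
      ∀ ξ, Pw p ξ ≠ 0 → ∀ u b, b ≤ (i + 1) * (w * E) → Fw ex ey ξ t u = y →
        (∀ s, t ≤ s → s < b → W (st ex ey ξ u s)) → k ≤ Jf ex ey p ξ u t b →
        ∃ S ∈ F, ∀ s ∈ S, ξ s = true := by
  classical
  have h0 := th_nn hW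
  have hT : T = B * (w * E) := by rw [hW.hT, mul_assoc]
  have hPn : ∀ S : Finset (Fin T), 0 ≤ ∏ s ∈ S, 6 * p s := fun S =>
    prod_nonneg fun s _ => by linarith [hP.nn s]
  generalize hN : (i + 1) * (w * E) = N at *
  induction ht using Nat.decreasingInduction with
  | self =>
    intro _ k y
    rcases k with _ | k
    · refine ⟨{∅}, by simp, ?_, fun _ _ _ _ _ _ _ _ => ⟨∅, by simp, by simp⟩⟩
      simp only [sum_singleton, prod_empty, Nat.cast_zero, sub_zero]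
      exact Real.one_le_exp (by have := A3 N y.1 le_rfl; positivity)
    · refine ⟨∅, by simp, (Real.exp_pos _).le, fun ξ _ u b hb _ _ h => ?_⟩
      rw [Jf, Ico_eq_empty_of_le hb, sum_empty] at h
      omega
  | of_succ t ht ih =>
    intro h1 k y
    have ih := ih (by omega)
    rcases k with _ | k
    · refine ⟨{∅}, by simp, ?_, fun _ _ _ _ _ _ _ _ => ⟨∅, by simp, by simp⟩⟩
      simp only [sum_singleton, prod_empty, Nat.cast_zero, sub_zero]
      exact Real.one_le_exp (by have := A3 t y.1 ht.le; positivity)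
    have lt : ∀ {ξ u b}, k + 1 ≤ Jf ex ey p ξ u t b → t < b := fun {ξ u b} h => by
      by_contra hc
      rw [Jf, Ico_eq_empty_of_le (not_lt.1 hc), sum_empty] at h
      omega
    by_cases hy : W y.1
    swap
    · exact ⟨∅, by simp, (Real.exp_pos _).le, fun ξ _ u b _ e h2 h3 =>
        absurd (h2 t le_rfl (lt h3)) (by rwa [st, e])⟩
    set y' := swap (ex (tm T t)) (ey (tm T t)) y with hy'
    have hpc : pc ex ey p W t N = (if p (tm T t) = 1 ∧ ∃ z, W z ∧ Bd ex ey t z then 1 else 0) +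
        pc ex ey p W (t + 1) N := sum_eq_sum_Ico_succ_bot ht _
    have hpc' : θ * pc ex ey p W (t + 1) N ≤ θ * pc ex ey p W t N :=
      mul_le_mul_of_nonneg_left (Nat.cast_le.2 (by omega)) h0
    have hg := gr_nn hW t y.1
    have hA := A1 t y.1
    have nx1 : ∀ {ξ u}, Fw ex ey ξ t u = y → ξ (tm T t) = true → Fw ex ey ξ (t + 1) u = y' :=
      fun e h => by rw [Fw_succ, e, sg, if_pos h]
    have nx0 : ∀ {ξ u}, Fw ex ey ξ t u = y → ξ (tm T t) ≠ true → Fw ex ey ξ (t + 1) u = y :=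
      fun e h => by rw [Fw_succ, e, sg, if_neg h]; rfl
    have bd : y'.1 ≠ y.1 → Bd ex ey t y.1 := fun h => by
      by_cases a1 : y = ex (tm T t)
      · rw [hy', a1, swap_apply_left] at h; exact ⟨h.symm, .inl (by rw [a1])⟩
      by_cases a2 : y = ey (tm T t)
      · rw [hy', a2, swap_apply_right] at h; exact ⟨h, .inr (by rw [a2])⟩
      · exact absurd (congrArg Prod.fst (swap_apply_of_ne_of_ne a1 a2)) h
    by_cases c1 : p (tm T t) = 1
    · obtain ⟨F, f1, f2, f3⟩ := ih (k + 1) y'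
      refine ⟨F, fun S hS s' hs => ?_, f2.trans (Real.exp_le_exp.2 ?_), fun ξ hξ u b hb e h2 h3 =>
        f3 ξ hξ u b hb (nx1 e (xi_one hξ c1)) (fun s a1 => h2 s (by omega)) ?_⟩
      · obtain ⟨s, a1, a2⟩ := f1 S hS s' hs
        exact ⟨s, by omega, a2⟩
      · by_cases c2 : y'.1 = y.1
        · rw [c2]; linarith
        · rw [hpc, if_pos ⟨c1, _, hy, bd c2⟩]
          have := A2 (t + 1) y.1 y'.1
          push_cast
          linarith
      · rwa [Jf_bot (lt h3), if_neg (fun k => k.2 c1), zero_add] at h3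
    obtain ⟨F, f1, f2, f3⟩ := ih (k + 1) y
    have f1' : ∀ S ∈ F, ∀ s' ∈ S, ∃ s, t ≤ s ∧ s < N ∧ s' = tm T s ∧ p s' ≠ 1 ∧
        ∃ z, W z ∧ Bd ex ey s z := fun S hS s' hs => by
      obtain ⟨s, a1, a2⟩ := f1 S hS s' hs
      exact ⟨s, by omega, a2⟩
    have f3' : ∀ ξ, Pw p ξ ≠ 0 → ∀ u b, b ≤ N → Fw ex ey ξ t u = y → Fw ex ey ξ (t + 1) u = y →
        (∀ s, t ≤ s → s < b → W (st ex ey ξ u s)) → k + 1 ≤ Jf ex ey p ξ u t b →
        ∃ S ∈ F, ∀ s ∈ S, ξ s = true := fun ξ hξ u b hb e e' h2 h3 => by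
      refine f3 ξ hξ u b hb e' (fun s a1 => h2 s (by omega)) ?_
      rwa [Jf_bot (lt h3), if_neg (fun k => k.1 (by rw [st, st, e, e'])), zero_add] at h3
    by_cases c2 : y'.1 = y.1
    · refine ⟨F, f1', f2.trans (Real.exp_le_exp.2 (by linarith)), fun ξ hξ u b hb e h2 h3 => ?_⟩
      by_cases c3 : ξ (tm T t) = true
      swap
      · exact f3' ξ hξ u b hb e (nx0 e c3) h2 h3
      by_cases c4 : y' = y
      · exact f3' ξ hξ u b hb e (c4 ▸ nx1 e c3) h2 h3
      have c5 : (ex (tm T t)).1 = (ey (tm T t)).1 := by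
        by_cases a1 : y = ex (tm T t)
        · rw [hy', a1, swap_apply_left] at c2; exact c2.symm
        by_cases a2 : y = ey (tm T t)
        · rw [hy', a2, swap_apply_right] at c2; exact c2
        · exact absurd (swap_apply_of_ne_of_ne a1 a2) c4
      have c6 : p0 (tm T t) ≠ 0 := fun e0 =>
        xi_zero hξ c3 (le_antisymm (e0 ▸ hP.le hW c1) (hP.nn _))
      rw [Jf, sum_eq_zero fun s hs => if_neg fun a => a.1 (frozen hT hB h1 (mem_Ico.1 hs).1
        (hN ▸ (mem_Ico.1 hs).2.trans_le hb) c5 c6)] at h3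
      omega
    obtain ⟨G, g1, g2, g3⟩ := ih k y'
    refine ⟨F ∪ G.image (insert (tm T t)), fun S hS s' hs => ?_, ?_, fun ξ hξ u b hb e h2 h3 => ?_⟩
    · rcases mem_union.1 hS with hS | hS
      · exact f1' S hS s' hs
      obtain ⟨S', hS', rfl⟩ := mem_image.1 hS
      rcases mem_insert.1 hs with rfl | hs
      · exact ⟨t, le_rfl, ht, rfl, c1, _, hy, bd c2⟩
      · obtain ⟨s, a1, a2⟩ := g1 S' hS' s' hs
        exact ⟨s, by omega, a2⟩
    · have hn : ∀ S ∈ G, tm T t ∉ S := fun S hS h => by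
        obtain ⟨s, a1, a2, a3, -⟩ := g1 S hS _ h
        have : w * E ≤ T := hT ▸ Nat.le_mul_of_pos_left _ (I.B_pos hT)
        rw [add_one_mul] at hN
        rw [show s = t + (s - t) by omega, eq_comm, ← add_zero t, add_assoc, zero_add,
          tm_add_inj t (by omega) (NeZero.pos T)] at a3
        omega
      have a1 := sum_union_inter (s₁ := F) (s₂ := G.image (insert (tm T t)))
        (f := fun S => ∏ s ∈ S, 6 * p s)
      have a2 : 0 ≤ ∑ S ∈ F ∩ G.image (insert (tm T t)), ∏ s ∈ S, 6 * p s :=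
        sum_nonneg fun S _ => hPn S
      have a3 : ∑ S ∈ G.image (insert (tm T t)), ∏ s ∈ S, 6 * p s ≤
          6 * p (tm T t) * ∑ S ∈ G, ∏ s ∈ S, 6 * p s := by
        refine (sum_image_le_of_nonneg fun S _ => hPn S).trans (le_of_eq ?_)
        rw [mul_sum]
        exact sum_congr rfl fun S hS => prod_insert (hn S hS)
      have a4 : p (tm T t) ≤ gr ex ey p0 t y.1 := by
        rw [gr, if_pos (bd c2)]; exact hP.le hW c1
      have a5 := exp_step (a := 50 * (A (t + 1) y.1 + θ * pc ex ey p W (t + 1) N) - (k + 1 : ℕ))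
        (hP.nn (tm T t))
      have a6 : ∑ S ∈ G, ∏ s ∈ S, 6 * p s ≤ Real.exp (50 * (A (t + 1) y.1 +
          θ * pc ex ey p W (t + 1) N) - (k + 1 : ℕ) + 2) := g2.trans (Real.exp_le_exp.2 (by
        have := A2 (t + 1) y.1 y'.1
        push_cast
        linarith))
      have a7 := mul_le_mul_of_nonneg_left a6 (by linarith [hP.nn (tm T t)] : 0 ≤ 6 * p (tm T t))
      refine le_trans ?_ (a5.trans (Real.exp_le_exp.2 (by linarith)))
      linarith
    · by_cases c3 : ξ (tm T t) = true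
      · obtain ⟨S, hS, h⟩ := g3 ξ hξ u b hb (nx1 e c3) (fun s a1 => h2 s (by omega)) (by
          rw [Jf_bot (lt h3)] at h3
          split_ifs at h3 <;> omega)
        exact ⟨_, mem_union_right _ (mem_image_of_mem _ hS), fun s hs =>
          (mem_insert.1 hs).elim (fun a => a ▸ c3) (h s)⟩
      · obtain ⟨S, hS, h⟩ := f3' ξ hξ u b hb e (nx0 e c3) h2 h3
        exact ⟨S, mem_union_left _ hS, h⟩

/-- the strands off `Z` near `x` make at most `f` free jumps in a window. -/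
def Slw (ex ey : Fin T → Tor 3 L × Fin n) (p : Fin T → ℝ) (Z : Finset (Tor 3 L)) (D B f r ρ : ℕ)
    (x : Tor 3 L) (ξ : Fin T → Bool) : Prop :=
  ∀ i < B, ∀ u a b, i * D ≤ a → a ≤ b → b ≤ (i + 1) * D → J ex ey ξ u a b ≤ r →
    (∀ s, a ≤ s → s < b → st ex ey ξ u s ∉ Z ∧ tdist x (st ex ey ξ u s) ≤ ρ) →
    Jf ex ey p ξ u a b ≤ f

/-- at most `m` recorded visible changes per window within `r` of every site within `ρ` of `x`. -/
def Few (Z : Finset (Tor 3 L)) (X : Finset (V L n T)) (D m r ρ : ℕ) (x : Tor 3 L) : Prop :=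
  ∀ z, tdist x z ≤ ρ → ∀ i, chg D (vis Z X) i z r ≤ m

variable {D f r ρ m i : ℕ} {x : Tor 3 L}

lemma pc_le (hP : Pin ex ey p0 p X) (hW : Word ex ey p0 E w B θ) {z : Tor 3 L} {a b : ℕ}
    (h1 : i * D ≤ a) (h2 : b ≤ (i + 1) * D) :
    pc ex ey p (fun z' => z' ∉ Z ∧ tdist z z' ≤ r) a b ≤ chg D (vis Z X) i z r := by
  refine le_trans (sum_le_sum fun k _ => ?_) (sum_le_sum_of_subset (Ico_subset_Ico h1 h2))
  split_ifs with h
  swap
  · exact Nat.zero_le _
  obtain ⟨h3, z', h4, h5, h6⟩ := h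
  have h7 := ((hP (tm T k)).resolve_left fun a => by
    have := (hW.hp (tm T k)).2; linarith [a.2]).2 fun e => h5 (by rw [e])
  refine card_pos.2 ?_
  rcases h6 with rfl | rfl
  · exact ⟨_, mem_filter.2 ⟨mem_univ _, I.mem_vis.2 ⟨h7.1, fun k => h4.1 k.mem⟩, h4.2⟩⟩
  · exact ⟨_, mem_filter.2 ⟨mem_univ _, I.mem_vis.2 ⟨h7.2, fun k => h4.1 k.mem⟩, h4.2⟩⟩

lemma J_mono {a a' b b' : ℕ} (h1 : a' ≤ a) (h2 : b ≤ b') : J ex ey ξ u a b ≤ J ex ey ξ u a' b' :=
  sum_le_sum_of_subset (Ico_subset_Ico h1 h2)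

lemma first {a b : ℕ} (h : a ≤ b) (hf : f < Jf ex ey p ξ u a b) : ∃ a', a ≤ a' ∧ a' < b ∧
    st ex ey ξ u (a' + 1) ≠ st ex ey ξ u a' ∧ p (tm T a') ≠ 1 ∧ f ≤ Jf ex ey p ξ u (a' + 1) b := by
  induction h using Nat.decreasingInduction with
  | self => simp [Jf] at hf
  | of_succ a h ih =>
    rw [Jf_bot h] at hf
    split_ifs at hf with c
    · exact ⟨a, le_rfl, h, c.1, c.2, by omega⟩
    · obtain ⟨a', h1, h2⟩ := ih (by omega)
      exact ⟨a', by omega, h2⟩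

lemma Bd.dist (nn : ∀ s, tdist (ex s).1 (ey s).1 ≤ 1) {k : ℕ} {z : Tor 3 L} (h : Bd ex ey k z) :
    tdist z (ex (tm T k)).1 ≤ 1 := by
  rcases h.2 with e | e <;> rw [← e]
  · rw [tdist_self]; omega
  · rw [tdist_comm]; exact nn _

/-- **FAST0 in family form.** -/
theorem fast0 (hW : Word ex ey p0 E w B θ) (hθ : 50 * θ ≤ 1) (hB : Blk ex ey p0)
    (hP : Pin ex ey p0 p X) (hF : Few Z X (w * E) m r ρ x) (f : ℕ) :
    ∃ 𝒮 : Finset (Finset (Fin T)),
      (∀ S ∈ 𝒮, ∀ s ∈ S, tdist x (ex s).1 ≤ ρ + r + 1 ∧ p s ≤ p0 s) ∧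
      ∑ S ∈ 𝒮, ∏ s ∈ S, 6 * p s ≤
        B * (n * (2 * (ρ : ℝ) + 1) ^ 3) * Real.exp (56 * θ * (w + 1 + m) - f) ∧
      ∀ ξ, Pw p ξ ≠ 0 → (∃ S ∈ 𝒮, ∀ s ∈ S, ξ s = true) ∨ Slw ex ey p Z (w * E) B f r ρ x ξ := by
  classical
  have h0 := th_nn hW
  have hT : T = B * (w * E) := by rw [hW.hT, mul_assoc]
  have hPn : ∀ S : Finset (Fin T), 0 ≤ ∏ s ∈ S, 6 * p s := fun S =>
    prod_nonneg fun s _ => by linarith [hP.nn s]
  choose A A1 A2 A3 A4 using clock hW
  choose! F F1 F2 F3 using fun (i a : ℕ) (y : Tor 3 L × Fin n) (h : a + 1 ≤ (i + 1) * (w * E))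
    (h' : i * (w * E) ≤ a + 1) => fam hW hθ hB hP (fun z => z ∉ Z ∧ tdist y.1 z ≤ r) i (A1 i) (A2 i)
      (A3 i) h h' f (swap (ex (tm T a)) (ey (tm T a)) y)
  let K : ℕ → Tor 3 L × Fin n → Finset ℕ := fun i y =>
    (Ico (i * (w * E)) ((i + 1) * (w * E))).filter fun a => p (tm T a) ≠ 1 ∧ Bd ex ey a y.1
  have mK : ∀ i y, ∀ a ∈ K i y, i * (w * E) ≤ a ∧ a < (i + 1) * (w * E) ∧ p (tm T a) ≠ 1 ∧
      Bd ex ey a y.1 := fun i y a ha => by simpa only [K, mem_filter, mem_Ico, and_assoc] using ha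
  refine ⟨(range B).biUnion fun i => (bl x ρ ×ˢ univ).biUnion fun y => (K i y).biUnion fun a =>
    (F i a y).image (insert (tm T a)), fun S hS s hs => ?_, ?_, fun ξ hξ => ?_⟩
  · simp only [mem_biUnion, mem_image, mem_product, mem_bl] at hS
    obtain ⟨i, -, y, ⟨hy, -⟩, a, ha, S, hS, rfl⟩ := hS
    obtain ⟨a1, a2, a3, a4⟩ := mK i y a ha
    have := tdist_triangle x y.1 (ex s).1
    rcases mem_insert.1 hs with rfl | hs
    · exact ⟨by have := a4.dist hW.nn; omega, hP.le hW a3⟩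
    · obtain ⟨k, -, -, rfl, b1, z, b2, b3⟩ := F1 i a y a2 (by omega) S hS s hs
      have := tdist_triangle y.1 z (ex (tm T k)).1
      exact ⟨by have := b3.dist hW.nn; omega, hP.le hW b1⟩
  · have key : ∀ i, ∀ y ∈ bl x ρ ×ˢ (univ : Finset (Fin n)), ∑ S ∈ (K i y).biUnion fun a =>
        (F i a y).image (insert (tm T a)), ∏ s ∈ S, 6 * p s ≤
        Real.exp (56 * θ * (w + 1 + m) - f) := fun i y hy => by
      have a1 : ∀ a ∈ K i y, ∑ S ∈ (F i a y).image (insert (tm T a)), ∏ s ∈ S, 6 * p s ≤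
          6 * (A i a y.1 - A i (a + 1) y.1) * Real.exp (50 * θ * (w + 1 + m) - f) := fun a ha => by
        obtain ⟨a1, a2, a3, a4⟩ := mK i y a ha
        have hn : ∀ S ∈ F i a y, tm T a ∉ S := fun S hS h => by
          obtain ⟨s, b1, b2, b3, -⟩ := F1 i a y a2 (by omega) S hS _ h
          have : w * E ≤ T := hT ▸ Nat.le_mul_of_pos_left _ (I.B_pos hT)
          rw [add_one_mul] at b2
          rw [show s = a + (s - a) by omega, eq_comm, ← add_zero a, add_assoc, zero_add,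
            tm_add_inj a (by omega) (NeZero.pos T)] at b3
          omega
        refine (sum_image_le_of_nonneg fun S _ => hPn S).trans ?_
        rw [sum_congr rfl fun S hS => prod_insert (hn S hS), ← mul_sum]
        have b1 := A1 i a y.1
        rw [gr, if_pos a4] at b1
        refine mul_le_mul (by linarith [hP.le hW a3]) ((F2 i a y a2 (by omega)).trans
          (Real.exp_le_exp.2 ?_)) (sum_nonneg fun S _ => hPn S) (by linarith [(hW.hp (tm T a)).1])
        have b2 := A4 i (a + 1) (swap (ex (tm T a)) (ey (tm T a)) y).1 (by omega)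
        have b3 := mul_le_mul_of_nonneg_left (Nat.cast_le (α := ℝ).2 ((pc_le (Z := Z) (r := r) hP hW
          (by omega : i * (w * E) ≤ a + 1) le_rfl).trans (hF y.1 (mem_bl.1 (mem_product.1 hy).1) i))) h0
        linarith
      refine (RR.FastP.sum_biUnion_le _ _ _ hPn).trans ((sum_le_sum a1).trans ?_)
      rw [← sum_mul, ← mul_sum]
      have a2 : ∑ a ∈ K i y, (A i a y.1 - A i (a + 1) y.1) ≤ θ * (w + 1) := by
        refine (sum_le_sum_of_subset_of_nonneg (filter_subset _ _) fun a _ _ => by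
          linarith [A1 i a y.1, gr_nn hW a y.1]).trans ?_
        rw [N337.A.Fast.tele (fun a => A i a y.1) _ _ (Nat.mul_le_mul_right _ (Nat.le_succ i))]
        linarith [A3 i _ y.1 le_rfl, A4 i _ y.1 le_rfl]
      have a3 := Real.add_one_le_exp (6 * θ * (w + 1 + m))
      have a4 : 0 ≤ θ * m := by positivity
      rw [show 56 * θ * (w + 1 + m) - f = 6 * θ * (w + 1 + m) + (50 * θ * (w + 1 + m) - f) by ring,
        Real.exp_add]
      exact mul_le_mul_of_nonneg_right (by linarith) (Real.exp_pos _).le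
    refine (RR.FastP.sum_biUnion_le _ _ _ hPn).trans ((sum_le_card_nsmul _ _ (n * (2 * (ρ : ℝ) + 1) ^ 3 *
      Real.exp (56 * θ * (w + 1 + m) - f)) fun i _ => ?_).trans (le_of_eq ?_))
    · refine (RR.FastP.sum_biUnion_le _ _ _ hPn).trans ((sum_le_card_nsmul _ _ _ (key i)).trans ?_)
      rw [nsmul_eq_mul, card_product, card_univ, Fintype.card_fin, Nat.cast_mul, mul_comm _ (n : ℝ)]
      exact mul_le_mul_of_nonneg_right (mul_le_mul_of_nonneg_left
        (by exact_mod_cast card_bl x ρ) n.cast_nonneg) (Real.exp_pos _).le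
    · rw [card_range, nsmul_eq_mul, mul_assoc (B : ℝ)]
  · refine or_iff_not_imp_right.2 fun h => ?_
    simp only [Slw, not_forall, not_le] at h
    obtain ⟨i, hi, u, a, b, h1, h2, h3, h4, h5, h6⟩ := h
    obtain ⟨a', b1, b2, b3, b4, b5⟩ := first h2 h6
    obtain ⟨S, hS, h7⟩ := F3 i a' (Fw ex ey ξ a' u) (by omega) (by omega) ξ hξ u b h3
      (by rw [Fw_succ, sg, if_pos (jump b3).1]) (fun s c1 c2 => ⟨(h5 s (by omega) c2).1,
        (dist_le hW.nn (by omega : a' ≤ s)).trans ((J_mono b1 c2.le).trans h4)⟩) b5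
    refine ⟨_, mem_biUnion.2 ⟨i, mem_range.2 hi, mem_biUnion.2 ⟨Fw ex ey ξ a' u, mem_product.2
      ⟨mem_bl.2 (h5 a' b1 b2).2, mem_univ _⟩, mem_biUnion.2 ⟨a', mem_filter.2 ⟨mem_Ico.2
        ⟨by omega, by omega⟩, b4, bd_of b3⟩, mem_image_of_mem _ hS⟩⟩⟩, fun s hs => ?_⟩
    exact (mem_insert.1 hs).elim (fun e => e ▸ (jump b3).1) (h7 s)

/-! ### off the family everything is read on the grid slices -/

section det
variable (hW : Word ex ey p0 E w B θ) (hP : Pin ex ey p0 p X) (hF : Few Z X D m r ρ x)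
  (hS : Slw ex ey p Z D B f r ρ x ξ) (hr : f + m + 1 ≤ r)
include hW hP hF hS hr

/-- an alive strand near `x` made at most `f + m` jumps since the start of the window. -/
theorem back (hi : i < B) (hu : ∀ s, st ex ey ξ u s ∉ Z) {k : ℕ} (h1 : i * D ≤ k)
    (h2 : k ≤ (i + 1) * D) (h3 : tdist x (st ex ey ξ u k) + (f + m + 1) ≤ ρ) :
    J ex ey ξ u (i * D) k ≤ f + m := by
  classical
  refine not_lt.1 fun e => ?_
  obtain ⟨a, a1, a2, a3⟩ := exists_J h1 (Nat.succ_le_of_lt e)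
  have a4 : ∀ s, a ≤ s → s < k → tdist (st ex ey ξ u k) (st ex ey ξ u s) ≤ f + m + 1 :=
    fun s c1 c2 => tdist_comm (st ex ey ξ u s) _ ▸
      (dist_le hW.nn c2.le).trans ((J_mono c1 le_rfl).trans a3.le)
  have a5 := hS i hi u a k a1 a2 h2 (a3.le.trans hr) fun s c1 c2 => ⟨hu s, by
    have := a4 s c1 c2
    have := tdist_triangle x (st ex ey ξ u k) (st ex ey ξ u s)
    omega⟩
  have a6 := (pc_le (Z := Z) (r := r) hP hW a1 h2).trans (hF (st ex ey ξ u k) (by omega) i)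
  have a7 : J ex ey ξ u a k ≤ Jf ex ey p ξ u a k +
      pc ex ey p (fun z => z ∉ Z ∧ tdist (st ex ey ξ u k) z ≤ r) a k := by
    rw [J, Jf, pc, ← sum_add_distrib]
    refine sum_le_sum fun s hs => ?_
    by_cases c1 : st ex ey ξ u (s + 1) ≠ st ex ey ξ u s
    · by_cases c2 : p (tm T s) = 1
      · rw [if_pos c1, if_neg fun c => c.2 c2, if_pos ⟨c2, _, ⟨hu s,
          (a4 s (mem_Ico.1 hs).1 (mem_Ico.1 hs).2).trans hr⟩, bd_of c1⟩]
      · rw [if_pos c1, if_pos ⟨c1, c2⟩]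
        exact Nat.le_add_right _ _
    · rw [if_neg c1]; exact Nat.zero_le _
  omega

variable (hT : T = B * D) (hR : ∀ v, Sg ex ey ξ v ∈ R ↔ v ∈ R) (hZ : ∀ v ∈ R, v.2.1 ∉ Z)
include hT hR hZ

/-- **grid slices.** -/
theorem grid {k : ℕ} (h1 : i * D ≤ k) (h2 : k ≤ (i + 1) * D) :
    ∃ φ : Perm (Tor 3 L × Fin n), ∀ y, (tm T k, y) ∈ R → tdist x y.1 + (f + m + 1) ≤ ρ →
      (tm T (i * D), φ y) ∈ R ∧ tdist y.1 (φ y).1 ≤ f + m := by
  have h3 := split_mod hT i
  rw [add_one_mul] at h2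
  obtain ⟨k, rfl⟩ : ∃ k', k = k' + i / B * T := ⟨k - i / B * T, by omega⟩
  rw [tm_add_mul, tm_mod hT]
  refine ⟨Fw ex ey ξ (i % B * D) * (Fw ex ey ξ k)⁻¹, fun y a1 a2 => ?_⟩
  have a3 : (tm T 0, (Fw ex ey ξ k)⁻¹ y) ∈ R := by rwa [← Fw_mem hR k, Fw_inv]
  have a4 : st ex ey ξ ((Fw ex ey ξ k)⁻¹ y) k = y.1 := by rw [st, Fw_inv]
  refine ⟨(Fw_mem hR _ _).2 a3, ?_⟩
  rw [tdist_comm, ← a4]
  exact (dist_le hW.nn (by omega)).trans (back hW hP hF hS hr (Nat.mod_lt _ (I.B_pos hT))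
    (fun s => hZ _ ((Fw_mem hR s _).2 a3)) (by omega) (by rw [add_one_mul]; omega) (by rwa [a4]))

theorem cnt_grid {k A : ℕ} {z : Tor 3 L} (h1 : i * D ≤ k) (h2 : k ≤ (i + 1) * D)
    (h3 : tdist x z + A + (f + m + 1) ≤ ρ) : cnt R k z A ≤ cnt R (i * D) z (A + (f + m)) := by
  obtain ⟨φ, h⟩ := grid hW hP hF hS hr hT hR hZ h1 h2
  refine card_le_card_of_injOn φ (fun y hy => ?_) φ.injective.injOn
  obtain ⟨a1, a2⟩ := (mem_filter.1 hy).2
  have a3 := h y a1 (by have := tdist_triangle x z y.1; omega)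
  exact mem_filter.2 ⟨mem_univ _, a3.1, (tdist_triangle _ y.1 _).trans (add_le_add a2 a3.2)⟩

/-- **new change points.** -/
theorem chg_new (hB : Blk ex ey p0) (hD : D = w * E) (hξ : Pw p ξ ≠ 0) (hi : i < B) {r' : ℕ}
    (h3 : r' + 2 + (f + m + 1) ≤ ρ) : chg D (acp ex ey ξ R \ X) i x r' ≤
      2 * (cnt R (i * D) x (r' + 1 + (f + m)) * (f + n ^ 2)) := by
  classical
  have hDT : D ≤ T := hT ▸ Nat.le_mul_of_pos_left _ (I.B_pos hT)
  let U : Finset (Tor 3 L × Fin n) := univ.filter fun u => (tm T 0, u) ∈ R ∧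
    tdist x (st ex ey ξ u (i * D)) ≤ r' + 1 + (f + m)
  have hU : U.card ≤ cnt R (i * D) x (r' + 1 + (f + m)) :=
    card_le_card_of_injOn (Fw ex ey ξ (i * D)) (fun u hu => mem_filter.2 ⟨mem_univ _,
      (Fw_mem hR _ _).2 (mem_filter.1 hu).2.1, (mem_filter.1 hu).2.2⟩) (Fw ex ey ξ _).injective.injOn
  let K1 : Tor 3 L × Fin n → Finset ℕ := fun u => (Ico (i * D) ((i + 1) * D)).filter fun k =>
    (st ex ey ξ u (k + 1) ≠ st ex ey ξ u k ∧ p (tm T k) ≠ 1) ∧ tdist x (st ex ey ξ u k) ≤ r' + 1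
  let K2 : Tor 3 L × Fin n → Finset ℕ := fun u => (Ico (i * D) ((i + 1) * D)).filter fun k =>
    (ex (tm T k)).1 = st ex ey ξ u k ∧ (ey (tm T k)).1 = st ex ey ξ u k ∧ p0 (tm T k) ≠ 0
  have k1 : ∀ u ∈ U, (K1 u).card ≤ f := fun u hu => by
    rcases (K1 u).eq_empty_or_nonempty with e | e
    · rw [e]; exact Nat.zero_le _
    have al : ∀ s, st ex ey ξ u s ∉ Z := fun s => hZ _ ((Fw_mem hR s _).2 (mem_filter.1 hu).2.1)
    obtain ⟨k, hk, a0⟩ := exists_max_image (K1 u) id e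
    obtain ⟨a1, -, a2⟩ := mem_filter.1 hk
    rw [mem_Ico] at a1
    have a3 := dist_le (ξ := ξ) (u := u) hW.nn (Nat.le_succ k)
    rw [J_top le_rfl, J_self] at a3
    have a4 : tdist x (st ex ey ξ u (k + 1)) ≤ r' + 2 := by
      have := tdist_triangle x (st ex ey ξ u k) (st ex ey ξ u (k + 1))
      split_ifs at a3 <;> simp only [Nat.succ_eq_add_one] at a3 <;> omega
    have a5 := back hW hP hF hS hr hi al (k := k + 1) (by omega) a1.2 (by omega)
    refine le_trans ?_ (hS i hi u (i * D) (k + 1) le_rfl (by omega) a1.2 (by omega) fun s c1 c2 =>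
      ⟨al s, ?_⟩)
    · rw [Jf, ← card_filter]
      exact card_le_card fun s hs => mem_filter.2 ⟨mem_Ico.2 ⟨(mem_Ico.1 (mem_filter.1 hs).1).1,
        Nat.lt_succ_of_le (a0 s hs)⟩, (mem_filter.1 hs).2.1⟩
    · have := (dist_le (ξ := ξ) (u := u) hW.nn c2.le).trans ((J_mono c1 le_rfl).trans a5)
      have := tdist_triangle x (st ex ey ξ u (k + 1)) (st ex ey ξ u s)
      rw [tdist_comm (st ex ey ξ u (k + 1))] at this
      omega
  have k2 : ∀ u, (K2 u).card ≤ n ^ 2 := fun u => by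
    rcases (K2 u).eq_empty_or_nonempty with e | e
    · rw [e]; exact Nat.zero_le _
    obtain ⟨k, hk, a0⟩ := exists_min_image (K2 u) id e
    obtain ⟨a1, a2, a3, a4⟩ := mem_filter.1 hk
    refine le_trans (card_le_card fun s hs => ?_) ((card_win hDT (i * D) _).trans
      (hW.few (st ex ey ξ u k)))
    obtain ⟨b1, b2, b3, b4⟩ := mem_filter.1 hs
    have b5 : ∀ s, k ≤ s → s ≤ (i + 1) * D → st ex ey ξ u s = st ex ey ξ u k := fun s c1 c2 => by
      induction s, c1 using Nat.le_induction with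
      | base => rfl
      | succ s c1 ih =>
        rw [← ih (by omega)]
        exact frozen (hD ▸ hT) hB (hD ▸ (mem_Ico.1 a1).1) c1 (hD ▸ c2) (a2.trans a3.symm) a4
    rw [b5 s (a0 s hs) (mem_Ico.1 b1).2.le] at b2 b3
    exact mem_filter.2 ⟨by rwa [← add_one_mul], mem_filter.2 ⟨mem_univ _, b2, b3, b4⟩⟩
  have key : ∀ k ∈ Ico (i * D) ((i + 1) * D), cnt (acp ex ey ξ R \ X) k x r' ≤
      if k ∈ U.biUnion fun u => K1 u ∪ K2 u then 2 else 0 := fun k hk => by
    split_ifs with c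
    · refine le_trans (card_le_card (t := {ex (tm T k), ey (tm T k)}) fun y hy => ?_) card_le_two
      have := (I.mem_acp.1 (mem_sdiff.1 (mem_filter.1 hy).2.1).1).2.2.2
      simpa using this
    refine (I.cnt_zero fun y hy => lt_of_not_ge fun a2 => c ?_).le
    obtain ⟨a0, a1⟩ := mem_sdiff.1 hy
    obtain ⟨a3, a4, a5, a6⟩ := I.mem_acp.1 a0
    have a7 : p (tm T k) ≠ 1 := fun e => by
      have := ((hP (tm T k)).resolve_left fun a => by
        have := (hW.hp (tm T k)).2; linarith [a.2]).2 a4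
      rcases a6 with rfl | rfl
      exacts [a1 this.1, a1 this.2]
    obtain ⟨v, b1, b2⟩ : ∃ v, (v = ex (tm T k) ∨ v = ey (tm T k)) ∧ (tm T k, v) ∈ R :=
      a5.elim (fun h => ⟨_, Or.inl rfl, h⟩) fun h => ⟨_, Or.inr rfl, h⟩
    have b3 : tdist y.1 v.1 ≤ 1 := by
      have := hW.nn (tm T k)
      rcases a6 with e | e <;> rcases b1 with e' | e' <;> rw [e, e']
      · rw [tdist_self]; omega
      · exact this
      · rwa [tdist_comm]
      · rw [tdist_self]; omega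
    have b4 : (tm T 0, (Fw ex ey ξ k)⁻¹ v) ∈ R := by rwa [← Fw_mem hR k, Fw_inv]
    have b5 : st ex ey ξ ((Fw ex ey ξ k)⁻¹ v) k = v.1 := by rw [st, Fw_inv]
    have b6 : tdist x v.1 ≤ r' + 1 := (tdist_triangle _ y.1 _).trans (add_le_add a2 b3)
    have b7 := (dist_le hW.nn (mem_Ico.1 hk).1).trans (back hW hP hF hS hr hi
      (fun s => hZ _ ((Fw_mem hR s _).2 b4)) (mem_Ico.1 hk).1 (mem_Ico.1 hk).2.le (by rw [b5]; omega))
    rw [b5, tdist_comm] at b7
    refine mem_biUnion.2 ⟨_, mem_filter.2 ⟨mem_univ _, b4,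
      (tdist_triangle _ v.1 _).trans (add_le_add b6 b7)⟩, ?_⟩
    by_cases b8 : (ex (tm T k)).1 = (ey (tm T k)).1
    · refine mem_union_right _ (mem_filter.2 ⟨hk, ?_, ?_, fun e => xi_zero hξ a3
        (le_antisymm (e ▸ hP.le hW a7) (hP.nn _))⟩) <;> rw [b5] <;> rcases b1 with e | e <;> rw [e]
      exacts [b8, b8.symm]
    · refine mem_union_left _ (mem_filter.2 ⟨hk, ⟨?_, a7⟩, by rwa [b5]⟩)
      rw [b5, st, Fw_succ, Fw_inv, sg, if_pos a3]
      rcases b1 with e | e <;> rw [e]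
      · rw [swap_apply_left]; exact Ne.symm b8
      · rw [swap_apply_right]; exact b8
  refine (sum_le_sum key).trans ?_
  rw [← sum_filter, sum_const, smul_eq_mul, mul_comm]
  refine Nat.mul_le_mul_left 2 (le_trans (card_le_card fun k hk => (mem_filter.1 hk).2)
    ((card_biUnion_le_card_mul _ _ (f + n ^ 2) fun u hu => (card_union_le _ _).trans
      (add_le_add (k1 u hu) (k2 u))).trans (Nat.mul_le_mul_right _ hU)))

end det

end Crest.Agent.N337.G4.Fs
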