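import Crest.Agent.N337.G4.RDefs
import Crest.Agent.N337.G4.Fst
import Crest.Agent.N337.I.Geom

/-!
# Row 337, G4 (helper76): the pairs of the claims, the additional bad event, the leaf numbers
-/

set_option autoImplicit false
set_option linter.unusedSectionVars false

namespace Crest.Agent.N337.G4.Le

open Finset Free KV Geo Rep
open Crest.Agent.N337.I (V Ev vis cnt chg acp evp Cl W0 G0 Rp)
open Crest.Agent.N337.G1 (lag)

/-- numbers of the leaves at `θ = 2`. -/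
structure Ln where
  /-- pins per window, shadow of the environment, free jumps per window -/
  m : ℕ
  j : ℕ
  f : ℕ
  /-- exposed radius, exposed windows of a short pair, windows of a label, long lag -/
  d : ℕ
  τ : ℕ
  k : ℕ
  Lg : ℕ
  /-- offset of the short pairs -/
  o : ℝ

variable {L n T : ℕ} [NeZero L] [NeZero T] (ex ey : Fin T → Tor 3 L × Fin n) (F : I.Lf) (N : Ln)
  (E : Ev L n T) (Z : Finset (Tor 3 L))

/-- short pairs: the lag contains the windows `S`, exposed for `E` within `r` of `y`. -/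
structure Short (y : Tor 3 L) (v u : V L n T) (r : ℕ) (S : Finset ℕ) : Prop where
  lag_le : lag u.1 v.1 ≤ F.l * F.D
  near : tdist y v.2.1 + N.d ≤ r
  rad : r + F.A ≤ F.r0
  card : N.τ ≤ S.card
  win : ∀ i ∈ S, ¬ Cl F r (vis Z E.1) y i ∧ u.1.val ≤ i * F.D ∧
    (i + 1) * F.D ≤ u.1.val + lag u.1 v.1

/-- **the pairs** (`al` = alive): far pairs, long lags, short pairs. -/
def Pr (al : V L n T → Prop) (ρ0 : ℕ) (dd : ℕ → ℕ) (l : ℕ) (y : Tor 3 L) (v u : V L n T) (o : ℝ) :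
    Prop :=
  tdist y v.2.1 ≤ ρ0 ∧ al v ∧ al u ∧ ((dd l ≤ tdist v.2.1 u.2.1 ∧ o = 0) ∨
    (l = 0 ∧ N.Lg * F.D ≤ lag u.1 v.1 ∧ o = 0) ∨ (l = 0 ∧ o = N.o ∧ ∃ r S, Short F N E Z y v u r S))

open Classical in
/-- half of the windows `S` contain a cluster. -/
def Bad (y : Tor 3 L) (r : ℕ) (S : Finset ℕ) (ω : CR T (Tor 3 L × Fin n)) : Prop :=
  S.card ≤ 2 * (S.filter fun i => Cl F r (vis Z (E.1 ∪ ω.2)) y i).card

/-- the leaves of the red set. -/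
def Lw (ω : CR T (Tor 3 L × Fin n)) (y : Tor 3 L) : Prop := W0 F (evp ex ey ω.1 ω.2) E Z y

open Classical in
/-- the shadow of the environment in the window `i`. -/
noncomputable def Sh (y : Tor 3 L) (i : ℕ) : Finset (Tor 3 L × Fin n) :=
  univ.filter fun e => tdist y e.1 ≤ F.r0 ∧
    ∃ k ∈ Ico (i * F.D) ((i + 1) * F.D), (tm T k, e) ∈ vis Z E.1

/-- the environment is tame near `y`. -/
structure Tm (y : Tor 3 L) : Prop where
  few : Fs.Few Z E.2 F.D N.m F.r0 (2 * F.r0 + 2) y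
  sh : ∀ i, (Sh F E Z y i).card ≤ N.j

/-- cost of the coin family. -/
noncomputable def cC (n B w : ℕ) (θ : ℝ) : ℝ :=
  B * (n * (2 * ((2 * F.r0 + 2 : ℕ) : ℝ) + 1) ^ 3) * Real.exp (56 * θ * (w + 1 + N.m) - N.f)

/-- cost of a new cluster in one window, `lam` = price of a point. -/
noncomputable def cW (n : ℕ) (lam : ℝ) : ℝ :=
  N.j * (n * (2 * (2 * F.A + (N.f + N.m)) + 1) ^ 3 : ℕ) * lam +
    (2 * F.r0 + 1) ^ 3 * ((n * (2 * (F.A + (N.f + N.m)) + 1) ^ 3 : ℕ) * lam) ^ 6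

/-- cost of the point families (`g` = bound for long lags). -/
noncomputable def cP (n B : ℕ) (g cF : ℝ) : ℝ :=
  B * ((n * (4 * F.r0 + 1) ^ 3 : ℕ) * (2 * Real.exp 1 * ((F.n1 + 1 : ℕ) * g + cF))) ^ (F.n1 + 1) +
    (F.sm * B * N.τ * 2 ^ (F.l / N.τ + 1) : ℕ) *
      cW F N n (2 * Real.exp 1 * ((6 * N.k : ℕ) * (g + N.o) + cF)) ^ N.k

/-- the word and the integer side conditions. -/
structure Ok (p0 : Fin T → ℝ) (Es w B : ℕ) (θ : ℝ) (ρ0 : ℕ) : Prop where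
  hW : RR.Word ex ey p0 Es w B θ
  hθ : 50 * θ ≤ 1
  blk : Fs.Blk ex ey p0
  hD : F.D = w * Es
  hr : N.f + N.m + 1 ≤ F.r0
  j1 : 2 * (F.n1 * (N.f + n ^ 2)) ≤ F.j1
  dl : F.A + (N.f + N.m) + N.d ≤ F.dl
  τ : 1 ≤ N.τ ∧ N.τ * N.k ≤ F.l1
  Lg : N.Lg + F.l ≤ B
  ρ0 : 3 * F.r0 + 3 ≤ ρ0
  o : 0 ≤ N.o

variable {ex ey F N E Z} {Z' : Finset (Tor 3 L)} {y : Tor 3 L} {v u : V L n T} {r : ℕ}
  {S : Finset ℕ} {al al' : V L n T → Prop} {ρ0 l : ℕ} {dd : ℕ → ℕ} {o : ℝ} {ξ : Fin T → Bool}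
  {R R' : Finset (V L n T)}

lemma Short.mono (h : Short F N E Z y v u r S) (hZ : Z ⊆ Z') : Short F N E Z' y v u r S :=
  ⟨h.lag_le, h.near, h.rad, h.card, fun i hi =>
    ⟨fun k => (h.win i hi).1 (k.mono le_rfl (I.vis_mono Subset.rfl hZ)), (h.win i hi).2⟩⟩

lemma Pr.mono (h : Pr F N E Z al ρ0 dd l y v u o) (hZ : Z ⊆ Z') (hv : al' v) (hu : al' u) :
    Pr F N E Z' al' ρ0 dd l y v u o :=
  ⟨h.1, hv, hu, h.2.2.2.imp id (Or.imp id fun ⟨a, b, r, S, c⟩ => ⟨a, b, r, S, c.mono hZ⟩)⟩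

lemma Pr.far (h1 : tdist y v.2.1 ≤ ρ0) (hv : al v) (hu : al u) (h2 : dd l ≤ tdist v.2.1 u.2.1) :
    Pr F N E Z al ρ0 dd l y v u 0 := ⟨h1, hv, hu, .inl ⟨h2, rfl⟩⟩

lemma Bad.mono (hR : R ⊆ R') (h : Bad F E Z y r S (ξ, R)) : Bad F E Z y r S (ξ, R') := by
  classical
  exact h.trans (Nat.mul_le_mul_left 2 (card_le_card (monotone_filter_right _ fun _ _ k =>
    k.mono le_rfl (I.vis_mono (union_subset_union_right hR) Subset.rfl))))

/-- off the bad event half of the windows are free of clusters near the target. -/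
theorem Short.good {ω : CR T (Tor 3 L × Fin n)} (h : Short F N E Z y v u r S)
    (hB : ¬ Bad F E Z y r S ω) : ∃ S' : Finset ℕ, N.τ < 2 * S'.card ∧ ∀ i ∈ S',
      G1.NoCl (vis Z (E.1 ∪ ω.2)) F.D F.A N.d v.2.1 i ∧ u.1.val ≤ i * F.D ∧
        (i + 1) * F.D ≤ u.1.val + lag u.1 v.1 := by
  classical
  refine ⟨S.filter fun i => ¬ Cl F r (vis Z (E.1 ∪ ω.2)) y i, ?_, fun i hi =>
    ⟨I.noCl (mem_filter.1 hi).2 Subset.rfl h.near, (h.win i (mem_filter.1 hi).1).2⟩⟩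
  have := card_filter_add_card_filter_not (s := S) fun i => Cl F r (vis Z (E.1 ∪ ω.2)) y i
  have := h.card
  rw [Bad, not_le] at hB
  omega

lemma Lw.mono (hR : R ⊆ R') (h : Lw ex ey F E Z (ξ, R) y) : Lw ex ey F E Z (ξ, R') y :=
  W0.mono h (I.evp_mono hR)

lemma Lw.zero : ¬ Lw ex ey F E Z (ξ, ∅) y := by
  classical
  rw [Lw, I.evp_empty]
  rintro (⟨k, h⟩ | ⟨i, h⟩ | ⟨s, -, i, h⟩)
  · exact absurd (h.trans_eq (I.cnt_zero fun _ h => absurd (I.vis_sub h) (notMem_empty _)))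
      (Nat.not_lt_zero _)
  · exact absurd (h.trans_eq (sum_eq_zero fun k _ => I.cnt_zero fun _ h =>
      absurd (mem_sdiff.1 (I.vis_sub h)).1 (notMem_empty _))) (Nat.not_lt_zero _)
  · exact absurd (h.trans_eq (card_eq_zero.2 (filter_eq_empty_iff.2 fun _ _ k => k.2 (k.1.mono
      (F.rr_anti (Nat.le_succ s)) (I.vis_mono (union_subset Subset.rfl (empty_subset _))
        Subset.rfl))))) (Nat.not_lt_zero _)

/-- tame environments from the rung. -/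
theorem Tm.of {p : Fin T → ℝ} {t B x0 : ℕ} {X X0 : Finset (V L n T)} (hT : T = B * F.D)
    (hl : 1 ≤ F.l) (hp : Rp ex ey p E.1 X) (hX : X ⊆ E.2 ∪ X0) (h0 : X0.card ≤ x0)
    (hm : 2 * t * F.j1 ≤ N.m) (hj : 2 * t * F.n1 + 2 * (2 * t * F.j1 + x0) ≤ N.j)
    (h : ∀ z, tdist y z ≤ 2 * F.r0 + 2 → G0 F t E Z z) : Tm F N E Z y := by
  classical
  refine ⟨fun z hz i => ((h z hz).chg_le hl i).trans hm, fun i => le_trans (card_le_card fun e he => ?_)
    (((h y (by rw [tdist_self]; omega)).leaf hT hl hp Subset.rfl hX h0 le_rfl hj (x := y) (r := F.r0)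
      (by rw [tdist_self, zero_add])).shd i)⟩
  simp only [Sh, mem_filter, mem_univ, true_and] at he ⊢
  obtain ⟨h1, k, h2, h3⟩ := he
  exact ⟨h1, k, Ico_subset_Ico le_rfl (Nat.mul_le_mul_right _ (by omega)) h2, h3⟩

end Crest.Agent.N337.G4.Le
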