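import Crest.Agent.N337.G4.RStep
import Crest.Agent.N337.G4.Inst
import Crest.Agent.N337.Ld.Jnk
import Crest.Agent.N337.G4.LDefs

/-!
# Row 337, G4 (helper50): failing trees of the down loops are rare (`F1`, `N1`)
-/

set_option autoImplicit false
set_option linter.unusedSectionVars false

namespace Crest.Agent.N337.G4.Rs

open Finset Crest.Agent.N337.Rep Crest.Agent.N337.Free Crest.Agent.N337.Rg Crest.Agent.N337.Tr
  Crest.Agent.N337.G4.Sp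
open Crest.Agent.N337.Arc (Fld)

variable {L n T : ℕ} [NeZero L] [NeZero T] {ex ey : Fin T → Tor 3 L × Fin n}

section gen
variable {α κ : Type} [SemilatticeSup α] [Preorder κ] {S S' : Sys (Tor 3 L) α κ} {G : Eg} {Q : Gp}
  {P : Pz} {N : Np} {p : Fin T → ℝ} {b0 b' : Pt L n T → ℝ} {Z0 : Finset (Tor 3 L)}
  {U : Finset (Tor 3 L) → ℕ → Tor 3 L → Prop}
  {Pr : Finset (Tor 3 L) → ℕ → Tor 3 L → Pt L n T → Pt L n T → ℝ → Prop}
  {Lf : CR T (Tor 3 L × Fin n) → Tor 3 L → Prop} {m : ℕ}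

/-- a point with a datum at every level is a good leaf. -/
theorem gl_pt (h : GIn ex ey S' G Q P N p b0 Z0 U Pr) {M : Mem Prod.fst b0 Z0}
    (I : RIn ex ey S' G Q p M.b P b' (U M.Z) Lf (Pr M.Z)) (hρ : S.ρ 0 = S'.ρ 0) (hm : m ≤ G.mt)
    {y : Tor 3 L} (hy : ∀ i < G.mt, ∃ D, Val Q (U M.Z) i D ∧ Cd Q (U M.Z) i D (Q.sg i) y) :
    Gl ex ey S p M.b P Lf (m + 1) y := by
  obtain ⟨D, -, h0⟩ := hy 0 I.ng.mt
  have a1 := (h.np.ρ 0 I.ng.mt).1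
  obtain ⟨a2, a3⟩ := h.np.σ 0 I.ng.mt
  have a4 := Nat.mul_le_mul_right (Q.un 0) ((Nat.le_add_right _ _).trans a2)
  have := I.gl (m := m) (h0.fr.near (by rw [tdist_self]; omega)) fun k hk v u o hv =>
    (g4_pt h M (hk.trans hm) (fun i _ => hy i) v u o hv).trans
      (by have := (h.np.γ k).1; linarith)
  unfold Gl at this ⊢
  rwa [hρ]

/-- numerics of the data of isolated cells below the level `m`. -/
structure NI (S : Sys (Tor 3 L) α κ) (Q : Gp) (m : ℕ) : Prop where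
  N : S.N ≤ Q.N
  Lam : 4 * (2 * Q.c + 2) ^ Q.N + 1 ≤ S.Lam
  sep : ∀ l < m, Q.sg l + S.loc l ≤ S.sep l
  Rm : ∀ l < m, (2 * Q.c + 2) ^ Q.N * (S.Sx l + Q.sg l) ≤ Q.Rm l
  H : ∀ l < m, (Q.N + 1) * (2 * Q.Rm l + Q.W l + 2 * Q.dc l + Q.sg l + S.loc l) ≤ S.H l

lemma dat_empty {V : ℕ → Tor 3 L → Prop} {i r : ℕ} (h : ∀ u, ¬ V i u) (y : Tor 3 L) :
    ∃ D, Val Q V i D ∧ Cd Q V i D r y :=
  ⟨∅, ⟨by simp, by simp, by simp, fun u hu => absurd hu (h u)⟩, by simp [In],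
    fun u hu => absurd hu (h u)⟩

/-- **trees of isolated cells**: `J` contains the junk below the level `c`, the junk of level `c`
lies in the balls `(F, R0)`, no junk above. -/
theorem pr_iso (h : GIn ex ey S' G Q P N p b0 Z0 U Pr) {M : Mem Prod.fst b0 Z0}
    (I : RIn ex ey S' G Q p M.b P b' (U M.Z) Lf (Pr M.Z)) (hρ : S.ρ 0 = S'.ρ 0) (hm : m ≤ G.mt)
    (nt : NT S P (m + 1)) {J : ℕ → Tor 3 L → Prop} {c R0 R k t : ℕ} (ni : NI S Q c) (hc : m ≤ c)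
    {F A : Finset (Tor 3 L)} (hF : F.card ≤ Q.N) (u1 : ∀ l < c, ∀ u, U M.Z l u → J l u)
    (u2 : ∀ u, U M.Z c u → ∃ f ∈ F, tdist f u ≤ R0) (u3 : ∀ l, c < l → ∀ u, ¬ U M.Z l u)
    (hR : F.Nonempty → c = m ∧ (2 * Q.c + 2) ^ Q.N * (R0 + Q.sg m) ≤ R ∧ R ≤ Q.Rm m ∧
      ∀ f ∈ F, ∀ y ∈ A, 2 * R + Q.sg m + S.loc m < tdist y f)
    (hI : ∀ y ∈ A, ∀ i, m ≤ i → i < c → i = m ∧ S.Iso J m y) {x : Tor 3 L} (hk : k ≤ S.a1)
    (ht : A.card ≤ t) (hA : ∀ y ∈ A, tdist x y ≤ S.ρ (m + 1)) :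
    PR ex ey p M.b (fun ω => FT S (S.Iso J) (Lf ω) A k m) ≤ (t * P.ε m) ^ (k + 1) := by
  refine tree h.hp (M.fld h.hb) nt hk ht hA fun z hz h1 h2 => gl_pt h I hρ hm fun i _ => ?_
  have iso : ∀ i ≤ m, i < c → S.Iso J i (z i) →
      ∃ D, Val Q (U M.Z) i D ∧ Cd Q (U M.Z) i D (Q.sg i) (z 0) := fun i a b k =>
    (pick_iso nt.d (e := S.loc i) (U := U M.Z) (by
      obtain ⟨s, F, a1, a2, a3, a4, a5⟩ := k
      exact ⟨s, F, a1, a2, a3, fun u hu => a4 u (u1 i b u hu), a5⟩) ni.N (ni.sep i b) ni.Lam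
      (ni.Rm i b) (ni.H i b)).imp fun D hD => ⟨hD.1, hD.2 _ (by have := h2 i a; omega)⟩
  rcases lt_or_ge i m with a | a
  · exact iso i a.le (by omega) (h1 i a)
  rcases lt_trichotomy i c with b | rfl | b
  · obtain ⟨rfl, k⟩ := hI _ hz i a b
    exact iso i le_rfl b k
  · rcases F.eq_empty_or_nonempty with rfl | e
    · exact dat_empty (fun u hu => by simpa using u2 u hu) _
    obtain ⟨rfl, b1, b2, b3⟩ := hR e
    exact (pick_gen (e := S.loc i) hF (fun u hu _ => u2 u hu) b1 b2 (fun f hf => b3 f hf _ hz)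
      le_rfl).imp fun D hD => ⟨hD.1, hD.2 _ (by have := h2 i a; omega)⟩
  · exact dat_empty (u3 i b) _

/-- one failing cell off the balls. -/
theorem pr_fl (h : GIn ex ey S' G Q P N p b0 Z0 U Pr) {M : Mem Prod.fst b0 Z0}
    (I : RIn ex ey S' G Q p M.b P b' (U M.Z) Lf (Pr M.Z)) (hρ : S.ρ 0 = S'.ρ 0) (hm : m ≤ G.mt)
    (nt : NT S P (m + 1)) {J : ℕ → Tor 3 L → Prop} {R0 R1 R : ℕ} (ni : NI S Q m)
    {F : Finset (Tor 3 L)} (hF : F.card ≤ Q.N) (u1 : ∀ l < m, ∀ u, U M.Z l u → J l u)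
    (u2 : ∀ u, U M.Z m u → ¬ S.Off F R0 u) (u3 : ∀ l, m < l → ∀ u, ¬ U M.Z l u)
    (hR : F.Nonempty → (2 * Q.c + 2) ^ Q.N * (R0 + Q.sg m) ≤ R ∧ R ≤ Q.Rm m ∧
      2 * R + Q.sg m + S.loc m ≤ R1) {x : Tor 3 L} (hx : S.Off F R1 x) :
    PR ex ey p M.b (fun ω => S.Fl J (Lf ω) m x) ≤ P.ε m := by
  refine (PR_mono h.hp (M.fld h.hb).mem fun ω _ k => ?_).trans ((pr_iso h I hρ hm nt ni le_rfl
    (A := {x}) (R0 := R0) (R := R) (k := 0) (t := 1) (x := x) hF u1 (fun u hu => ?_) u3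
    (fun e => ⟨rfl, (hR e).1, (hR e).2.1, fun f hf y hy => ?_⟩) (fun _ _ i a b => by omega)
    (Nat.zero_le _) (by simp) (by simp [tdist_self])).trans (by simp))
  · exact ⟨{x}, rfl, by simpa using fl_iff.1 k, by simp⟩
  · simpa [Sys.Off, nt.d] using u2 u hu
  · have := hx f hf
    have := (hR e).2.2
    rw [mem_singleton.1 hy, tdist_comm, ← nt.d]
    omega

/-- one isolated failing child; no junk above. -/
theorem pr_fn (h : GIn ex ey S' G Q P N p b0 Z0 U Pr) {M : Mem Prod.fst b0 Z0}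
    (I : RIn ex ey S' G Q p M.b P b' (U M.Z) Lf (Pr M.Z)) (hρ : S.ρ 0 = S'.ρ 0) (hm : m ≤ G.mt)
    (nt : NT S P (m + 1)) {J : ℕ → Tor 3 L → Prop} (ni : NI S Q (m + 1))
    (u1 : ∀ l ≤ m, ∀ u, U M.Z l u → J l u) (u3 : ∀ l, m < l → ∀ u, ¬ U M.Z l u) (x : Tor 3 L) :
    PR ex ey p M.b (fun ω => S.Fn J (Lf ω) 0 m x) ≤ (2 * S.ρ (m + 1) + 1 : ℕ) ^ 3 * P.ε m := by
  classical
  refine (PR_mono h.hp (M.fld h.hb).mem fun ω _ k => ?_).trans ((pr_iso h I hρ hm nt ni (Nat.le_succ m)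
    (A := univ.filter fun y => tdist x y ≤ S.ρ (m + 1) ∧ S.Iso J m y) (F := ∅) (R0 := 0) (R := 0)
    (k := 0) (t := (2 * S.ρ (m + 1) + 1) ^ 3) (x := x) (by simp) (fun l hl => u1 l (by omega))
    (fun u hu => absurd hu (u3 _ (by omega) u)) (fun l hl => u3 l (by omega)) (by simp)
    (fun y hy i a b => ⟨by omega, (mem_filter.1 hy).2.2⟩) (Nat.zero_le _)
    ((card_le_card fun y hy => mem_filter.2 ⟨mem_univ _, (mem_filter.1 hy).2.1⟩).trans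
      (card_ball_le x _)) fun y hy => (mem_filter.1 hy).2.1).trans (by simp))
  exact Sys.Sepd.mono k fun y hy => ⟨mem_filter.2 ⟨mem_univ _, nt.d x y ▸ hy.1, hy.2.1⟩,
    fl_iff.1 hy.2.2⟩

end gen

/-! ### the claims `F1`, `N1` on the torus rung -/

section ins
open Crest.Agent.N337.M (Bs Cfg yw)
open Crest.Agent.N337.I (V Ev kil ins sys)

/-- the field of the down loops of `s` with the extra killed points `W`. -/
def bK (y : ℝ) (s : Cfg T (Tor 3 L × Fin n)) (W : Finset (V L n T)) : V L n T → ℝ :=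
  Gas.kill (Top.bt y) (s.rev ∅ W).K

variable (Gb : Bs T (Tor 3 L × Fin n)) (P0 : I.Num) (z0 : Tor 3 L)
  (S' : Sys (Tor 3 L) (Ev L n T) (Finset (Tor 3 L))) (G : Eg) (Q : Gp) (P : Pz)

/-- **all inputs of G4** in the configuration `s`, class of level `c` (`S'` = internal system). -/
def Has (y : ℝ) (d c : ℕ) (s : Cfg T (Tor 3 L × Fin n)) (W : Finset (V L n T)) : Prop :=
  ∃ N U Pr, GIn Gb.ex Gb.ey S' G Q P N (Gb.pn s) (bK y s W) (kil s.Z) U Pr ∧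
    (∀ M : Mem Prod.fst (bK y s W) (kil s.Z), ∃ b', RIn Gb.ex Gb.ey S' G Q (Gb.pn s) M.b P b' (U M.Z)
      (Le.Lw Gb.ex Gb.ey P0.toLf (I.ev Gb.ex Gb.ey s.e) M.Z) (Pr M.Z)) ∧
    ∀ l u, U (kil s.Z) l u → (l < c ∧ (sys n T P0 z0).Jk d (I.ev Gb.ex Gb.ey s.e) (kil s.Z) l u) ∨
      (l = c ∧ ¬ (sys n T P0 z0).Good d (I.ev Gb.ex Gb.ey s.e) (kil s.Z) c P0.tm u)

variable {Gb P0 z0 S' G Q P} {y ε : ℝ} {d m nc R0 R1 R : ℕ} {s : Cfg T (Tor 3 L × Fin n)}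
  {W : Finset (V L n T)} {Sd : Finset (V L n T) → Prop}

/-- the member with nothing more killed. -/
def M0 (h : Fld (bK y s W)) : Mem Prod.fst (bK y s W) (kil s.Z) :=
  ⟨kil s.Z, bK y s W, Subset.rfl, fun v => (h.mem v).1, fun _ => le_rfl, fun _ hv =>
    if_pos (mem_union_left _ (mem_union_left _ (I.mem_of_kil hv)))⟩

/-- from the red set to the gas. -/
theorem pb_le (hp : ∀ r, 0 ≤ Gb.pn s r ∧ Gb.pn s r ≤ 1) (hb : Fld (bK y s W))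
    {A : (Tor 3 L → Prop) → Prop} (hA : ∀ f g, (∀ x, f x → g x) → A f → A g) {Z : Finset (Tor 3 L)}
    {E : Ev L n T} : Ld.pb (Op.ex (Gb.gs (yw y) (s.rev ∅ W)))
      (fun w => A (I.W0 P0.toLf (I.ev Gb.ex Gb.ey w) E Z)) ≤
      PR Gb.ex Gb.ey (Gb.pn s) (bK y s W) fun ω => A (Le.Lw Gb.ex Gb.ey P0.toLf E Z ω) := by
  classical
  have e : Gb.gs (yw y) (s.rev ∅ W) =
      Gas.nu (Gas.qq Gb.ex Gb.ey (Gb.pn s)) (Gas.ub (bK y s W)) := by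
    rw [bK, Gas.ub_kill]
    simp only [Bs.gs, Bs.q, Bs.pn, Cfg.u, yw, Cfg.rev, union_empty]
  rw [Ld.pb_eq, e]
  exact gas_le_PR hp hb.mem fun ω w _ h1 h2 => hA _ _ fun x k =>
    I.W0.mono k (I.ev_eq h1 ▸ I.evp_mono h2)

/-- **F1.** -/
theorem f1 (nt : NT (sys n T P0 z0) P (m + 1)) (ni : NI (sys n T P0 z0) Q m)
    (hρ : P0.ρ 0 = S'.ρ 0) (hm : m ≤ G.mt) (hn : nc ≤ Q.N)
    (hR : nc ≠ 0 → (2 * Q.c + 2) ^ Q.N * (R0 + Q.sg m) ≤ R ∧ R ≤ Q.Rm m ∧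
      2 * R + Q.sg m + (sys n T P0 z0).loc m ≤ R1) (hε : P.ε m ≤ ε)
    (H : ∀ s F W, Ld.Ad (ins Gb.ex Gb.ey P0 z0) Gb Sd d m nc R0 s F → Has Gb P0 z0 S' G Q P y d m s W) :
    Ld.F1 (ins Gb.ex Gb.ey P0 z0) Gb Sd y d m nc R0 R1 ε := fun s F x W a hx => by
  obtain ⟨N, U, Pr, h, hI, hU⟩ := H s F W a
  obtain ⟨b', I⟩ := hI (M0 h.hb)
  refine (pb_le h.hp h.hb (A := fun f => (sys n T P0 z0).Fl _ f m x)
    fun f g k k' => k'.mono (fun _ _ h => h) k).trans ((pr_fl h I hρ hm nt ni (a.card.trans hn)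
      (fun l hl u hu => ?_) (fun u hu k => ?_) (fun l hl u hu => ?_)
      (fun e => hR (by have := card_pos.2 e; have := a.card; omega)) hx).trans hε)
  · exact (hU l u hu).elim (·.2) fun k => absurd k.1 hl.ne
  · exact (hU m u hu).elim (fun k => absurd k.1 (lt_irrefl _)) fun k' => k'.2 (a.cl u k)
  · exact (hU l u hu).elim (fun k => absurd k.1 (by omega)) fun k => absurd k.1 hl.ne'

/-- **N1.** -/
theorem n1 (nt : NT (sys n T P0 z0) P (m + 1)) (ni : NI (sys n T P0 z0) Q (m + 1))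
    (hρ : P0.ρ 0 = S'.ρ 0) (hm : m ≤ G.mt)
    (hε : (2 * P0.ρ (m + 1) + 1 : ℕ) ^ 3 * P.ε m ≤ ε)
    (H : ∀ s, Ld.Ad (ins Gb.ex Gb.ey P0 z0) Gb Sd d (m + 1) 0 0 s ∅ →
      Has Gb P0 z0 S' G Q P y d (m + 1) s ∅) :
    Ld.N1 (ins Gb.ex Gb.ey P0 z0) Gb Sd y d m ε := fun s x a => by
  obtain ⟨N, U, Pr, h, hI, hU⟩ := H s a
  obtain ⟨b', I⟩ := hI (M0 h.hb)
  have := (pb_le (W := ∅) h.hp h.hb (P0 := P0) (A := fun f => (sys n T P0 z0).Fn _ f 0 m x)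
    fun f g k k' => Sys.Sepd.mono k' fun y hy =>
      ⟨hy.1, hy.2.1, hy.2.2.mono (fun _ _ h => h) k⟩).trans ((pr_fn h I hρ hm nt ni
      (fun l hl u hu => (hU l u hu).elim (·.2) fun k => absurd k.1 (by omega))
      (fun l hl u hu => (hU l u hu).elim (fun k => absurd k.1 (by omega))
        fun k => k.2 (a.cl.all u)) x).trans hε)
  rwa [Ld.rev_empty] at this

end ins

end Crest.Agent.N337.G4.Rs
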