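import Crest.Agent.N337.G4.LDefs
import Crest.Agent.N337.R.Pt
import Crest.Agent.N337.Top.BWord

/-!
# Row 337, G4 (helper76): the leaves of the red set are dominated by coin and point families
-/

set_option autoImplicit false
set_option linter.unusedSectionVars false

namespace Crest.Agent.N337.G4.Le

open Finset Free KV Geo Rep
open Crest.Agent.N337.I (V Ev vis cnt chg acp evp Cl W0 G0 Rp)
open Crest.Agent.N337.G1 (lag)
open Crest.Agent.N337.Arc (Fld)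

variable {L n T : ℕ} [NeZero L] [NeZero T] (ex ey : Fin T → Tor 3 L × Fin n) (p : Fin T → ℝ)
  (b : V L n T → ℝ)

/-- point families. -/
def PF (ρ0 k0 : ℕ) (cF ε : ℝ) (y : Tor 3 L) (A : Finset (V L n T) → Prop) : Prop :=
  ∃ (𝒳 : Finset (Finset (V L n T))) (r : Finset (V L n T) → ℝ),
    (∀ X ∈ 𝒳, 0 ≤ r X ∧ X.card ≤ k0 ∧ (∀ v ∈ X, tdist y v.2.1 ≤ ρ0) ∧
      ((∀ v ∈ X, b v ≠ 0) → ∀ v ∈ X, ∑ u ∈ X, Sp.GA ex ey p b v u ≤ r X)) ∧
    ∑ X ∈ 𝒳, (2 * Real.exp 1 * (r X + cF)) ^ X.card ≤ ε ∧ ∀ R, A R → ∃ X ∈ 𝒳, X ⊆ R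

variable {ex ey p b} {ρ0 k0 D B : ℕ} {cF ε ε' g : ℝ} {y : Tor 3 L} {A A' : Finset (V L n T) → Prop}

lemma PF.mono (h : PF ex ey p b ρ0 k0 cF ε y A) (h1 : ε ≤ ε') (h2 : ∀ R, A' R → A R) :
    PF ex ey p b ρ0 k0 cF ε' y A' := by
  obtain ⟨𝒳, r, a1, a2, a3⟩ := h
  exact ⟨𝒳, r, a1, a2.trans h1, fun R k => a3 R (h2 R k)⟩

lemma PF.union (hc : 0 ≤ cF) {ι : Type} (I : Finset ι) {A : ι → Finset (V L n T) → Prop}
    {ε : ι → ℝ} (h : ∀ i ∈ I, PF ex ey p b ρ0 k0 cF (ε i) y (A i)) :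
    PF ex ey p b ρ0 k0 cF (∑ i ∈ I, ε i) y fun R => ∃ i ∈ I, A i R := by
  classical
  choose! 𝒳 r a1 a2 a3 using h
  have h1 : ∀ X ∈ I.biUnion 𝒳, ∃ i ∈ I, X ∈ 𝒳 i := fun X hX => mem_biUnion.1 hX
  rcases I.eq_empty_or_nonempty with rfl | ⟨i0, -⟩
  · exact ⟨∅, fun _ => 0, by simp, by simp, by simp⟩
  haveI : Nonempty ι := ⟨i0⟩
  choose! c c1 c2 using h1
  refine ⟨I.biUnion 𝒳, fun X => r (c X) X, fun X hX => a1 _ (c1 X hX) X (c2 X hX), ?_,
    fun R ⟨i, hi, k⟩ => ?_⟩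
  · rw [← sum_fiberwise_of_maps_to c1]
    refine sum_le_sum fun i hi => le_trans ?_ (a2 i hi)
    rw [sum_congr rfl (g := fun X => (2 * Real.exp 1 * (r i X + cF)) ^ X.card) fun X hX => by
      simp only [(mem_filter.1 hX).2]]
    exact sum_le_sum_of_subset_of_nonneg (fun X hX => (mem_filter.1 hX).2 ▸ c2 X (mem_filter.1 hX).1)
      fun X hX _ => by have := (a1 i hi X hX).1; positivity
  · obtain ⟨X, h1, h2⟩ := a3 i hi R k
    exact ⟨X, mem_biUnion.2 ⟨i, hi, h1⟩, h2⟩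

lemma PF.union_le (hc : 0 ≤ cF) (h0 : 0 ≤ ε) {ι : Type} (I : Finset ι) {M : ℕ} (hM : I.card ≤ M)
    {A : ι → Finset (V L n T) → Prop} (h : ∀ i ∈ I, PF ex ey p b ρ0 k0 cF ε y (A i)) :
    PF ex ey p b ρ0 k0 cF (M * ε) y fun R => ∃ i ∈ I, A i R :=
  (PF.union hc I h).mono (by
    rw [sum_const, nsmul_eq_mul]; exact mul_le_mul_of_nonneg_right (Nat.cast_le.2 hM) h0)
    fun _ k => k

lemma PF.or (hc : 0 ≤ cF) (h : PF ex ey p b ρ0 k0 cF ε y A) (h' : PF ex ey p b ρ0 k0 cF ε' y A') :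
    PF ex ey p b ρ0 k0 cF (ε + ε') y fun R => A R ∨ A' R :=
  (PF.union hc univ (A := fun c : Bool => bif c then A else A') (ε := fun c => bif c then ε else ε')
    fun c _ => by cases c; exacts [h', h]).mono (by simp) fun _ k =>
      k.elim (fun k => ⟨true, mem_univ _, k⟩) fun k => ⟨false, mem_univ _, k⟩

lemma PF.le (hp : ∀ s, 0 ≤ p s ∧ p s ≤ 1) (hb : Fld b) (hc : 0 < cF)
    (h : PF ex ey p b ρ0 k0 cF ε y A) : PR ex ey p b (fun ω => A ω.2) ≤ ε := by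
  obtain ⟨𝒳, r, a1, a2, a3⟩ := h
  refine (PR_union hp hb.mem 𝒳 (fun X ω => X ⊆ ω.2) fun ω _ k => a3 _ k).trans
    (le_trans (sum_le_sum fun X hX => ?_) a2)
  rw [← prod_const]
  exact PR_red hp hb X (fun _ => r X + cF) (fun _ _ => by linarith [(a1 X hX).1])
    fun k v hv => ((a1 X hX).2.2.2 k v hv).trans (by linarith)

/-- one family of slots on each of the grid slices `K`. -/
theorem pf_prod (K : Finset ℕ) (P : ℕ → Finset (Finset (Tor 3 L × Fin n))) {h : ℕ} {π : ℝ}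
    (hg : 0 ≤ g) (hc : 0 ≤ cF) (hk : h * K.card ≤ k0)
    (inj : ∀ a ∈ K, ∀ a' ∈ K, tm T (a * D) = tm T (a' * D) → a = a')
    (hP : ∀ a ∈ K, ∀ Y ∈ P a, Y.card ≤ h ∧ ∀ z ∈ Y, tdist y z.1 ≤ ρ0)
    (hG : ∀ a ∈ K, ∀ a' ∈ K, ∀ Y ∈ P a, ∀ Y' ∈ P a', ∀ z ∈ Y, ∀ z' ∈ Y', b (tm T (a * D), z) ≠ 0 →
      b (tm T (a' * D), z') ≠ 0 → Sp.GA ex ey p b (tm T (a * D), z) (tm T (a' * D), z') ≤ g)
    (hπ : ∀ a ∈ K, ∑ Y ∈ P a, (2 * Real.exp 1 * ((h * K.card : ℕ) * g + cF)) ^ Y.card ≤ π) :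
    PF ex ey p b ρ0 k0 cF (π ^ K.card) y
      fun R => ∀ a ∈ K, ∃ Y ∈ P a, ∀ z ∈ Y, (tm T (a * D), z) ∈ R := by
  classical
  let X : (K → Finset (Tor 3 L × Fin n)) → Finset (V L n T) :=
    fun Y => univ.biUnion fun a => (Y a).image (Prod.mk (tm T (a * D)))
  have mX : ∀ Y v, v ∈ X Y ↔ ∃ a : K, ∃ z ∈ Y a, (tm T (a * D), z) = v := fun Y v => by simp [X]
  have cX : ∀ Y, (X Y).card = ∑ a, (Y a).card := fun Y => by
    rw [card_biUnion, sum_congr rfl fun a _ => card_image_of_injective _ (Prod.mk_right_injective _)]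
    intro a _ a' _ ha
    refine disjoint_left.2 fun v hv hv' => ha (Subtype.ext (inj _ a.2 _ a'.2 ?_))
    obtain ⟨z, -, rfl⟩ := mem_image.1 hv
    obtain ⟨z', -, e⟩ := mem_image.1 hv'
    exact (congrArg Prod.fst e).symm
  refine ⟨(Fintype.piFinset fun a : K => P a).image X, fun _ => (h * K.card : ℕ) * g,
    fun X' hX => ?_, ?_, fun R hR => ?_⟩
  · obtain ⟨Y, hY, rfl⟩ := mem_image.1 hX
    have hY := Fintype.mem_piFinset.1 hY
    have c1 : (X Y).card ≤ h * K.card := by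
      rw [cX, mul_comm]
      exact (sum_le_card_nsmul _ _ _ fun a _ => (hP _ a.2 _ (hY a)).1).trans (by simp)
    refine ⟨by positivity, c1.trans hk, fun v hv => ?_, fun al v hv => ?_⟩
    · obtain ⟨a, z, hz, rfl⟩ := (mX Y v).1 hv
      exact (hP _ a.2 _ (hY a)).2 z hz
    · refine (sum_le_card_nsmul _ _ g fun u hu => ?_).trans (by
        rw [nsmul_eq_mul]; exact mul_le_mul_of_nonneg_right (Nat.cast_le.2 c1) hg)
      obtain ⟨a, z, hz, e⟩ := (mX Y v).1 hv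
      obtain ⟨a', z', hz', e'⟩ := (mX Y u).1 hu
      have := hG _ a.2 _ a'.2 _ (hY a) _ (hY a') z hz z' hz' (e ▸ al v hv) (e' ▸ al u hu)
      rwa [e, e'] at this
  · refine (sum_image_le_of_nonneg fun _ _ => by positivity).trans ?_
    simp only [cX, ← prod_pow_eq_pow_sum]
    rw [← prod_univ_sum (fun a : K => P a) fun _ Y =>
      (2 * Real.exp 1 * ((h * K.card : ℕ) * g + cF)) ^ Y.card]
    refine (prod_le_prod (fun a _ => sum_nonneg fun _ _ => by positivity)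
      fun a _ => hπ _ a.2).trans (by simp)
  · choose Y h1 h2 using fun a : K => hR _ a.2
    refine ⟨X Y, mem_image_of_mem _ (Fintype.mem_piFinset.2 h1), fun v hv => ?_⟩
    obtain ⟨a, z, hz, rfl⟩ := (mX Y v).1 hv
    exact h2 a z hz

/-! ### families of slots -/

/-- `h` slots within `A` of `z`. -/
def Pk (n h : ℕ) (z : Tor 3 L) (A : ℕ) : Finset (Finset (Tor 3 L × Fin n)) :=
  powersetCard h (bl z A ×ˢ univ)

lemma cb (u : Tor 3 L) (a : ℕ) : (bl u a).card ≤ (2 * a + 1) ^ 3 := by exact_mod_cast card_bl u a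

lemma mem_Pk {h A : ℕ} {z : Tor 3 L} {Y : Finset (Tor 3 L × Fin n)} (hY : Y ∈ Pk n h z A) :
    Y.card = h ∧ ∀ e ∈ Y, tdist z e.1 ≤ A :=
  ⟨(mem_powersetCard.1 hY).2, fun _ he => mem_bl.1 (mem_product.1 ((mem_powersetCard.1 hY).1 he)).1⟩

lemma sum_Pk (h A : ℕ) (z : Tor 3 L) {lam : ℝ} (h0 : 0 ≤ lam) :
    ∑ Y ∈ Pk n h z A, lam ^ Y.card ≤ ((n * (2 * A + 1) ^ 3 : ℕ) * lam) ^ h := by
  rw [sum_congr rfl fun Y hY => by rw [(mem_Pk hY).1], sum_const, nsmul_eq_mul, mul_pow,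
    ← Nat.cast_pow]
  refine mul_le_mul_of_nonneg_right (Nat.cast_le.2 ?_) (by positivity)
  rw [Pk, card_powersetCard, card_product, card_univ, Fintype.card_fin, mul_comm]
  exact (Nat.choose_le_pow _ _).trans (Nat.pow_le_pow_left (Nat.mul_le_mul_left _ (cb z A)) _)

lemma ex_Pk {h k A : ℕ} {z : Tor 3 L} {R : Finset (V L n T)} (hR : h ≤ cnt R k z A) :
    ∃ Y ∈ Pk n h z A, ∀ e ∈ Y, (tm T k, e) ∈ R := by
  obtain ⟨Y, h2, h3⟩ := exists_subset_card_eq hR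
  exact ⟨Y, mem_powersetCard.2 ⟨fun e he => mem_product.2
    ⟨mem_bl.2 (mem_filter.1 (h2 he)).2.2, mem_univ _⟩, h3⟩, fun e he => (mem_filter.1 (h2 he)).2.1⟩

variable (F : I.Lf) (N : Ln) (E : Ev L n T) (Z : Finset (Tor 3 L))

/-- witnesses of a new cluster: one point next to the shadow of `E`, or six points. -/
noncomputable def Pw6 (y : Tor 3 L) (r i : ℕ) : Finset (Finset (Tor 3 L × Fin n)) :=
  (((Sh F E Z y i).biUnion fun e => Pk n 1 e.1 (2 * F.A + (N.f + N.m))) ∪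
    (bl y F.r0).biUnion fun z => Pk n 6 z (F.A + (N.f + N.m))).filter
      fun Y => ∀ e ∈ Y, tdist y e.1 ≤ r + F.A + (N.f + N.m)

variable {F N E Z} {r i Es w : ℕ} {θ : ℝ} {p0 : Fin T → ℝ} {ξ : Fin T → Bool} {R : Finset (V L n T)}

lemma mem_Pw6 {Y : Finset (Tor 3 L × Fin n)} (h : Y ∈ Pw6 F N E Z y r i) :
    Y.card ≤ 6 ∧ ∀ e ∈ Y, tdist y e.1 ≤ r + F.A + (N.f + N.m) := by
  refine ⟨?_, (mem_filter.1 h).2⟩
  rcases mem_union.1 (mem_filter.1 h).1 with k | k <;> obtain ⟨_, -, k⟩ := mem_biUnion.1 k <;>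
    rw [(mem_Pk k).1]
  omega

lemma cW_nn {lam : ℝ} (h0 : 0 ≤ lam) : 0 ≤ cW F N n lam := by unfold cW; positivity

lemma sum_Pw6 (hE : Tm F N E Z y) {lam : ℝ} (h0 : 0 ≤ lam) :
    ∑ Y ∈ Pw6 F N E Z y r i, lam ^ Y.card ≤ cW F N n lam := by
  have nn : ∀ Y : Finset (Tor 3 L × Fin n), 0 ≤ lam ^ Y.card := fun _ => by positivity
  refine (sum_le_sum_of_subset_of_nonneg (filter_subset _ _) fun Y _ _ => nn Y).trans
    (le_trans (le_add_of_nonneg_right (sum_nonneg fun Y _ => nn Y))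
      (sum_union_inter.le.trans (add_le_add ?_ ?_)))
  · refine (RR.FastP.sum_biUnion_le _ _ _ nn).trans ((sum_le_card_nsmul _ _ _ fun e _ =>
      sum_Pk _ _ _ h0).trans ?_)
    rw [nsmul_eq_mul, pow_one, mul_assoc]
    exact mul_le_mul_of_nonneg_right (Nat.cast_le.2 (hE.sh i)) (by positivity)
  · refine (RR.FastP.sum_biUnion_le _ _ _ nn).trans ((sum_le_card_nsmul _ _ _ fun e _ =>
      sum_Pk _ _ _ h0).trans ?_)
    rw [nsmul_eq_mul]
    exact mul_le_mul_of_nonneg_right (by exact_mod_cast cb y F.r0) (by positivity)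

lemma Ok.hT (h : Ok ex ey F N p0 Es w B θ ρ0) : T = B * F.D := by rw [h.hW.hT, h.hD, mul_assoc]

section det
variable (hO : Ok ex ey F N p0 Es w B θ ρ0) (hP : Fs.Pin ex ey p0 p E.2) (hE : Tm F N E Z y)
  (hS : Fs.Slw ex ey p Z F.D B N.f F.r0 (2 * F.r0 + 2) y ξ) (hR : ∀ v, Sg ex ey ξ v ∈ R ↔ v ∈ R)
  (hZ : ∀ v ∈ R, v.2.1 ∉ Z)
include hO hP hE hS hR hZ

/-- a new cluster is seen on the first slice of its window. -/
theorem new_cl (hr : r + F.A ≤ F.r0) (h1 : Cl F r (vis Z (E.1 ∪ R)) y i)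
    (h2 : ¬ Cl F r (vis Z E.1) y i) : ∃ Y ∈ Pw6 F N E Z y r i, ∀ e ∈ Y, (tm T (i * F.D), e) ∈ R := by
  obtain ⟨k, hk, z, hz, h3⟩ := h1
  have h4 : cnt (vis Z E.1) k z F.A < 6 := not_le.1 fun h => h2 ⟨k, hk, z, hz, h⟩
  rw [I.vis_union] at h3
  have h5 := h3.trans (I.cnt_union.trans (Nat.add_le_add_left ((I.cnt_mono I.vis_sub).trans
    (Fs.cnt_grid hO.hW hP hE.few hS hO.hr hO.hT hR hZ (mem_Ico.1 hk).1 (mem_Ico.1 hk).2.le
      (by have := hO.hr; omega))) _))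
  have key : ∀ {h : ℕ} {Y}, Y ∈ Pk n h z (F.A + (N.f + N.m)) →
      ∀ e ∈ Y, tdist y e.1 ≤ r + F.A + (N.f + N.m) := fun hY e he => by
    have := (mem_Pk hY).2 e he
    have := tdist_triangle y z e.1
    omega
  rcases Nat.eq_zero_or_pos (cnt (vis Z E.1) k z F.A) with h6 | h6
  · obtain ⟨Y, a1, a2⟩ := ex_Pk (h := 6) (by omega : 6 ≤ cnt R (i * F.D) z (F.A + (N.f + N.m)))
    exact ⟨Y, mem_filter.2 ⟨mem_union_right _ (mem_biUnion.2 ⟨z, mem_bl.2 (by omega), a1⟩),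
      key a1⟩, a2⟩
  · obtain ⟨Y, a1, a2⟩ := ex_Pk (h := 1) (by omega : 1 ≤ cnt R (i * F.D) z (F.A + (N.f + N.m)))
    obtain ⟨e, he⟩ := card_pos.1 h6
    obtain ⟨a3, a4⟩ := (mem_filter.1 he).2
    refine ⟨Y, mem_filter.2 ⟨mem_union_left _ (mem_biUnion.2 ⟨e, ?_, mem_powersetCard.2
      ⟨fun e' he' => mem_product.2 ⟨mem_bl.2 ?_, mem_univ _⟩, (mem_Pk a1).1⟩⟩), key a1⟩, a2⟩
    · simp only [Sh, mem_filter, mem_univ, true_and]
      exact ⟨by have := tdist_triangle y z e.1; omega, k, hk, a3⟩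
    · have := (mem_Pk a1).2 e' he'
      have := tdist_triangle e.1 z e'.1
      rw [tdist_comm e.1 z] at this
      omega

/-- the leaves J1 and J2 are seen on a grid slice. -/
theorem j12 (hξ : Pw p ξ ≠ 0) (h : I.J1 F (evp ex ey ξ R) Z y ∨ I.J2 F (evp ex ey ξ R) E Z y) :
    ∃ i ∈ range B, F.n1 + 1 ≤ cnt R (i * F.D) y (2 * F.r0) := by
  have hr := hO.hr
  have rad : ∀ {k a}, a ≤ 2 * F.r0 → cnt R k y a ≤ cnt R k y (2 * F.r0) := fun h =>
    I.cnt_le fun _ h1 h2 => ⟨h1, h2.trans h⟩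
  rcases h with h | h
  · obtain ⟨s, h⟩ := h.fin
    have hD := I.D_pos hO.hT
    refine ⟨s / F.D, mem_range.2 ((Nat.div_lt_iff_lt_mul hD).2 (hO.hT ▸ s.2)), h.trans_le
      ((I.cnt_mono I.vis_sub).trans ((Fs.cnt_grid hO.hW hP hE.few hS hr hO.hT hR hZ
        (Nat.div_mul_le_self _ _) ?_ ?_).trans (rad (by omega))))⟩
    · rw [add_one_mul]; exact (Nat.lt_div_mul_add hD).le
    · rw [tdist_self]; omega
  · obtain ⟨i, hi, h⟩ := h.fin hO.hT
    refine ⟨i, mem_range.2 hi, le_trans (Nat.succ_le_of_lt (not_le.1 fun k => ?_)) (rad (a := F.r0 + 1 + (N.f + N.m))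
      (by omega))⟩
    have h1 := (h.trans_le (I.chg_mono I.vis_sub)).trans_le
      (Fs.chg_new hO.hW hP hE.few hS hr hO.hT hR hZ hO.blk hO.hD hξ hi (by omega))
    have h2 := hO.j1
    have h3 := Nat.mul_le_mul_right (N.f + n ^ 2) k
    omega

end det

/-! ### spaced windows -/

/-- rank in a list of windows. -/
def rk (Ex : Finset ℕ) (a : ℕ) : ℕ := (Ex.filter (· < a)).card

lemma rk_add (Ex : Finset ℕ) {a a' : ℕ} (h : a ≤ a') :
    rk Ex a + (Ex.filter fun c => a ≤ c ∧ c < a').card = rk Ex a' := by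
  rw [rk, rk, ← card_union_of_disjoint (disjoint_filter.2 fun c _ h1 h2 => by omega),
    ← filter_or]
  exact congrArg card (filter_congr fun c _ => by omega)

lemma rk_lt {Ex : Finset ℕ} {a a' : ℕ} (ha : a ∈ Ex) (h : a < a') : rk Ex a < rk Ex a' := by
  have := card_pos.2 ⟨a, (mem_filter (p := fun c => a ≤ c ∧ c < a')).2 ⟨ha, le_rfl, h⟩⟩
  have := rk_add Ex h.le
  omega

lemma rk_gap {Ex : Finset ℕ} {a a' τ : ℕ} (ha : a ∈ Ex) (h : a < a')
    (e : rk Ex a % τ = rk Ex a' % τ) : τ ≤ (Ex.filter fun c => a ≤ c ∧ c < a').card := by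
  have h1 := rk_lt ha h
  have h2 := Nat.le_of_dvd (by omega) ((Nat.modEq_iff_dvd' h1.le).1 e)
  have := rk_add Ex h.le
  omega

lemma card_cls (Ex : Finset ℕ) (τ c : ℕ) {l : ℕ} (h : Ex.card ≤ l) :
    (Ex.filter fun a => rk Ex a % τ = c).card ≤ l / τ + 1 := by
  refine le_trans (card_le_card_of_injOn (fun a => rk Ex a / τ) (t := range (l / τ + 1))
    (fun a _ => mem_coe.2 (mem_range.2 (Nat.lt_succ_of_le (Nat.div_le_div_right
      ((card_filter_le _ _).trans h))))) fun a ha a' ha' e => ?_) (card_range _).le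
  obtain ⟨h1, h2⟩ := mem_filter.1 ha
  obtain ⟨h3, h4⟩ := mem_filter.1 ha'
  have h5 : rk Ex a = rk Ex a' := by
    rw [← Nat.div_add_mod (rk Ex a) τ, ← Nat.div_add_mod (rk Ex a') τ, h2, h4]
    exact congrArg (τ * · + c) e
  rcases lt_trichotomy a a' with k | k | k
  exacts [absurd h5 (rk_lt h1 k).ne, k, absurd h5 (rk_lt h3 k).ne']

section lags
variable {l Lg a a' : ℕ} (hT : T = B * D) (hL : Lg + l ≤ B) (ha : a ∈ Ico i (i + l))
  (ha' : a' ∈ Ico i (i + l))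
include hT hL ha ha'

lemma tm_inj (e : tm T (a * D) = tm T (a' * D)) : a = a' := by
  rw [mem_Ico] at ha ha'
  obtain ⟨a, rfl⟩ := Nat.exists_eq_add_of_le ha.1
  obtain ⟨a', rfl⟩ := Nat.exists_eq_add_of_le ha'.1
  have hD := I.D_pos hT
  rw [add_mul, add_mul, tm_add_inj _ (hT ▸ Nat.mul_lt_mul_of_lt_of_le (by omega) le_rfl hD)
    (hT ▸ Nat.mul_lt_mul_of_lt_of_le (by omega) le_rfl hD)] at e
  rw [Nat.eq_of_mul_eq_mul_right hD e]

lemma long_lag (h : a ≤ a') : Lg * D ≤ lag (tm T (a' * D)) (tm T (a * D)) := by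
  rw [mem_Ico] at ha ha'
  have h1 : a' * D < (a + l) * D := Nat.mul_lt_mul_of_lt_of_le (by omega) le_rfl (I.D_pos hT)
  have h2 : (Lg + l) * D ≤ T := hT ▸ Nat.mul_le_mul_right D hL
  have h3 := Nat.mul_le_mul_right D h
  rw [add_mul] at h1 h2
  rw [← tm_add_self (a * D), show T + a * D = a' * D + (T + a * D - a' * D) by omega,
    RR.PtP.lag_tm _ (by omega) (by omega)]
  omega

lemma short_lag (h : a < a') : lag (tm T (a * D)) (tm T (a' * D)) + a * D = a' * D ∧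
    lag (tm T (a * D)) (tm T (a' * D)) ≤ l * D := by
  rw [mem_Ico] at ha ha'
  have h1 : a' * D ≤ (a + l) * D := Nat.mul_le_mul_right D (by omega)
  have h2 : (Lg + l) * D ≤ T := hT ▸ Nat.mul_le_mul_right D hL
  have h3 : a * D < a' * D := Nat.mul_lt_mul_of_lt_of_le h le_rfl (I.D_pos hT)
  rw [add_mul] at h1 h2
  have h4 := RR.PtP.lag_tm (T := T) (a * D) (m := a' * D - a * D) (by omega) (by omega)
  rw [show a * D + (a' * D - a * D) = a' * D by omega] at h4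
  omega

end lags

variable (F E Z) in
open Classical in
/-- the exposed windows of a unit. -/
noncomputable def Xp (y : Tor 3 L) (s i : ℕ) : Finset ℕ :=
  (Ico i (i + F.l)).filter fun a => ¬ Cl F (F.rr s) (vis Z E.1) y a

lemma mem_Xp {s a : ℕ} : a ∈ Xp F E Z y s i ↔ a ∈ Ico i (i + F.l) ∧ ¬ Cl F (F.rr s) (vis Z E.1) y a := by
  classical
  unfold Xp; exact mem_filter

/-- two exposed windows of the same class give a short pair. -/
lemma short_of (hO : Ok ex ey F N p0 Es w B θ ρ0) {s a a' : ℕ} (hs : s < F.sm)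
    (ha : a ∈ Xp F E Z y s i) (ha' : a' ∈ Xp F E Z y s i) (h : a < a')
    (e : rk (Xp F E Z y s i) a % N.τ = rk (Xp F E Z y s i) a' % N.τ) {z z' : Tor 3 L × Fin n}
    (hz : tdist y z'.1 ≤ F.rr (s + 1) + F.A + (N.f + N.m)) :
    ∃ r S, Short F N E Z y (tm T (a' * F.D), z') (tm T (a * F.D), z) r S := by
  have hT := hO.hT
  obtain ⟨h1, h2⟩ := short_lag hT hO.Lg (mem_Xp.1 ha).1 (mem_Xp.1 ha').1 h
  have h3 := Nat.div_mul_le_self a B
  have h4 := RR.Dt.split_mod hT a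
  have h5 : (tm T (a * F.D)).val = a % B * F.D := by
    rw [RR.Dt.tm_mod hT, tm_val_of_lt (hT ▸ Nat.mul_lt_mul_of_lt_of_le
      (Nat.mod_lt _ (I.B_pos hT)) le_rfl (I.D_pos hT))]
  refine ⟨F.rr s, ((Xp F E Z y s i).filter fun c => a ≤ c ∧ c < a').image (· - a / B * B), h2,
    by have := F.rr_succ hs; have := hO.dl; dsimp only; omega, F.rr_le s, ?_, fun c hc => ?_⟩
  · rw [card_image_of_injOn fun c hc c' hc' e => by
      have := (mem_filter.1 hc).2.1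
      have := (mem_filter.1 hc').2.1
      omega]
    exact rk_gap ha h e
  · obtain ⟨c, hc', rfl⟩ := mem_image.1 hc
    obtain ⟨a1, a2, a3⟩ := mem_filter.1 hc'
    clear hc hc'
    obtain ⟨c, rfl⟩ : ∃ c', c = c' + a / B * B := ⟨c - a / B * B, by omega⟩
    have a4 := Nat.mul_le_mul_right F.D a2
    have a5 := Nat.mul_le_mul_right F.D (Nat.succ_le_of_lt a3)
    have a6 : (c + a / B * B) * F.D = c * F.D + a / B * T := by rw [hT]; ring
    rw [Nat.succ_mul] at a5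
    rw [Nat.add_sub_cancel, add_one_mul]
    exact ⟨fun k => (mem_Xp.1 a1).2 ((I.cl_add hT _).2 k), by dsimp only; omega, by dsimp only; omega⟩

variable {al : V L n T → Prop} {dd : ℕ → ℕ}

section main
variable (hO : Ok ex ey F N p0 Es w B θ ρ0) (hE : Tm F N E Z y) (hal : ∀ v, b v ≠ 0 → al v)
  (hg : 0 ≤ g) (hc : 0 ≤ cF) (H : Rs.Bd ex ey p b (Pr F N E Z al ρ0 dd) 0 y g)
include hO hE hal hg hc H

lemma pf_one {h : ℕ} {P : Finset (Finset (Tor 3 L × Fin n))} {π : ℝ} (hk : h ≤ k0)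
    (hP : ∀ Y ∈ P, Y.card ≤ h ∧ ∀ z ∈ Y, tdist y z.1 ≤ ρ0)
    (hπ : ∑ Y ∈ P, (2 * Real.exp 1 * (h * g + cF)) ^ Y.card ≤ π) :
    PF ex ey p b ρ0 k0 cF π y fun R => ∃ Y ∈ P, ∀ z ∈ Y, (tm T (i * F.D), z) ∈ R := by
  refine (pf_prod (D := F.D) {i} (fun _ => P) (h := h) (π := π) hg hc (by simpa using hk) (by simp)
    (fun _ _ => hP) (fun a ha a' ha' Y hY Y' _ z hz z' _ h1 h2 => ?_) fun _ _ => by
      simpa using hπ).mono (by simp) (by simp)
  rw [mem_singleton.1 ha, mem_singleton.1 ha'] at *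
  refine (H _ _ 0 ⟨(hP Y hY).2 z hz, hal _ h1, hal _ h2, .inr (.inl ⟨rfl, ?_, rfl⟩)⟩).trans_eq
    (add_zero _)
  rw [lag, if_pos rfl, hO.hT]
  exact Nat.mul_le_mul_right _ (by have := hO.Lg; omega)

lemma pf_three (hk : 6 * N.k ≤ k0) : PF ex ey p b ρ0 k0 cF
    ((F.sm * B * N.τ * 2 ^ (F.l / N.τ + 1) : ℕ) *
      cW F N n (2 * Real.exp 1 * ((6 * N.k : ℕ) * (g + N.o) + cF)) ^ N.k) y
    fun R => ∃ s < F.sm, ∃ i < B, ∃ K ⊆ Xp F E Z y s i, F.l1 < K.card ∧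
      ∀ a ∈ K, ∃ Y ∈ Pw6 F N E Z y (F.rr (s + 1)) a, ∀ z ∈ Y, (tm T (a * F.D), z) ∈ R := by
  classical
  have ho := hO.o
  refine (PF.union_le hc (pow_nonneg (cW_nn (by positivity)) _)
    ((range F.sm ×ˢ range B ×ˢ range N.τ).sigma fun t => powersetCard N.k
      ((Xp F E Z y t.1 t.2.1).filter fun a => rk (Xp F E Z y t.1 t.2.1) a % N.τ = t.2.2)) ?_
    (A := fun t R => ∀ a ∈ t.2, ∃ Y ∈ Pw6 F N E Z y (F.rr (t.1.1 + 1)) a,
      ∀ z ∈ Y, (tm T (a * F.D), z) ∈ R) ?_).mono le_rfl ?_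
  · rw [card_sigma]
    refine (sum_le_card_nsmul _ _ (2 ^ (F.l / N.τ + 1)) fun t _ => ?_).trans (by simp [mul_assoc])
    rw [card_powersetCard]
    exact (Nat.choose_le_two_pow _ _).trans (Nat.pow_le_pow_right two_pos
      (card_cls _ _ _ ((card_filter_le _ _).trans (by simp))))
  · rintro ⟨⟨s, i, c⟩, K⟩ ht
    simp only [mem_sigma, mem_product, mem_range, mem_powersetCard] at ht
    obtain ⟨⟨h1, -⟩, h2, h3⟩ := ht
    have near : ∀ a, ∀ Y ∈ Pw6 F N E Z y (F.rr (s + 1)) a, ∀ z ∈ Y, tdist y z.1 ≤ ρ0 :=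
      fun a Y hY z hz => by
        have := (mem_Pw6 hY).2 z hz
        have := F.rr_le (s + 1)
        have := hO.hr
        have := hO.ρ0
        omega
    have := pf_prod (ex := ex) (ey := ey) (p := p) (b := b) (D := F.D) (y := y) (ρ0 := ρ0) K
      (Pw6 F N E Z y (F.rr (s + 1))) (h := 6) (g := g + N.o) (by positivity) hc (h3 ▸ hk)
      (fun a ha a' ha' => tm_inj hO.hT hO.Lg (mem_Xp.1 (mem_filter.1 (h2 ha)).1).1
        (mem_Xp.1 (mem_filter.1 (h2 ha')).1).1)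
      (fun a _ Y hY => ⟨(mem_Pw6 hY).1, near a Y hY⟩)
      (fun a ha a' ha' Y hY Y' _ z hz z' _ k1 k2 => ?_) fun a _ => sum_Pw6 hE (by positivity)
    · rwa [h3] at this
    obtain ⟨a1, a2⟩ := mem_filter.1 (h2 ha)
    obtain ⟨a3, a4⟩ := mem_filter.1 (h2 ha')
    rcases le_or_gt a a' with k | k
    · exact (H _ _ 0 ⟨near a Y hY z hz, hal _ k1, hal _ k2, .inr (.inl ⟨rfl,
        long_lag hO.hT hO.Lg (mem_Xp.1 a1).1 (mem_Xp.1 a3).1 k, rfl⟩)⟩).trans (by linarith)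
    · exact H _ _ _ ⟨near a Y hY z hz, hal _ k1, hal _ k2, .inr (.inr ⟨rfl, rfl,
        short_of hO h1 a3 a1 k (a4.trans a2.symm) ((mem_Pw6 hY).2 z hz)⟩)⟩
  · rintro R ⟨s, hs, i, hi, K, h1, h2, h3⟩
    obtain ⟨c, hc, h4⟩ := exists_lt_card_fiber_of_mul_lt_card_of_maps_to (s := K) (t := range N.τ)
      (f := fun a => rk (Xp F E Z y s i) a % N.τ) (n := N.k)
      (fun a _ => mem_range.2 (Nat.mod_lt _ hO.τ.1)) (by rw [card_range]; exact hO.τ.2.trans_lt h2)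
    obtain ⟨K', h5, h6⟩ := exists_subset_card_eq h4.le
    exact ⟨⟨(s, i, c), K'⟩, mem_sigma.2 ⟨mem_product.2 ⟨mem_range.2 hs, mem_product.2
      ⟨mem_range.2 hi, hc⟩⟩, mem_powersetCard.2 ⟨fun a ha => mem_filter.2
        ⟨h1 (mem_filter.1 (h5 ha)).1, (mem_filter.1 (h5 ha)).2⟩, h6⟩⟩,
      fun a ha => h3 a (mem_filter.1 (h5 ha)).1⟩

variable (hP : Fs.Pin ex ey p0 p E.2) (hZ : ∀ v, b v ≠ 0 → v.2.1 ∉ Z)
include hP hZ

/-- **LEAF.** -/
theorem lfD {η : ℝ} (hk1 : F.n1 + 1 ≤ k0) (hk3 : 6 * N.k ≤ k0) (c1 : cC F N n B w θ ≤ η ^ 2)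
    (c2 : cP F N n B g cF ≤ η ^ 2) :
    Rs.LfD ex ey p b ρ0 k0 η cF y fun ω => Lw ex ey F E Z ω y := by
  classical
  obtain ⟨𝒮, s1, s2, s3⟩ := Fs.fast0 hO.hW hO.hθ hO.blk hP (hO.hD ▸ hE.few) N.f
  have hr := hO.ρ0
  obtain ⟨𝒳, r, a1, a2, a3⟩ := (PF.union_le hc (by positivity) (range B) (card_range B).le
    fun i _ => pf_one (i := i) hO hE hal hg hc H (P := Pk n (F.n1 + 1) y (2 * F.r0)) hk1
      (fun Y hY => ⟨(mem_Pk hY).1.le, fun z hz => ((mem_Pk hY).2 z hz).trans (by omega)⟩)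
      (sum_Pk _ _ _ (by positivity))).or hc (pf_three hO hE hal hg hc H hk3)
  refine ⟨𝒮, 𝒳, fun _ => 1, r, fun I hI s hs => ⟨(s1 I hI s hs).1.trans (by omega),
    (s1 I hI s hs).2.trans (hO.hW.hp s).2⟩, s2.trans c1, fun X hX => ⟨zero_le_one, a1 X hX⟩, ?_,
    fun ω hω hL => (s3 ω.1 hω.1.1).imp id fun hS => ?_⟩
  · simp only [one_mul]
    refine a2.trans (le_trans (le_of_eq ?_) c2)
    rw [cP, show 2 * (2 * F.r0) = 4 * F.r0 by ring]
  rw [← hO.hD] at hS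
  have hZ' : ∀ v ∈ ω.2, v.2.1 ∉ Z := fun v hv => hZ v (hω.2 v hv)
  obtain ⟨X, h1, h2⟩ := a3 ω.2 (by
    rcases or_assoc.2 hL with h | h
    · obtain ⟨i, hi, h⟩ := j12 hO hP hE hS hω.1.2 hZ' hω.1.1 h
      exact .inl ⟨i, hi, ex_Pk h⟩
    · obtain ⟨s, hs, i, hi, h⟩ := h.fin hO.hT
      refine .inr ⟨s, hs, i, hi, _, fun a ha => mem_Xp.2 ⟨(mem_filter.1 ha).1,
        (mem_filter.1 ha).2.2⟩, h, fun a ha => new_cl hO hP hE hS hω.1.2 hZ' (F.rr_le _)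
          (mem_filter.1 ha).2.1 fun k => (mem_filter.1 ha).2.2
            (k.mono (F.rr_anti (Nat.le_succ s)) Subset.rfl)⟩)
  rw [sum_const, nsmul_one, Nat.one_le_cast]
  exact card_pos.2 ⟨X, mem_filter.2 ⟨h1, h2⟩⟩

end main

variable {v u : V L n T} {S : Finset ℕ}

open Classical in
/-- Markov's inequality for half of the events. -/
lemma PR_half {Λ : Type} [Fintype Λ] [DecidableEq Λ] {ex ey : Fin T → Λ} {b : Fin T × Λ → ℝ}
    (hp : ∀ s, 0 ≤ p s ∧ p s ≤ 1) (hb : ∀ v, 0 ≤ b v ∧ b v ≤ 1) (S : Finset ℕ)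
    (hS : 0 < S.card) (A : ℕ → CR T Λ → Prop) (h : ∀ i ∈ S, PR ex ey p b (A i) ≤ ε) :
    PR ex ey p b (fun ω => S.card ≤ 2 * (S.filter fun i => A i ω).card) ≤ 2 * ε := by
  have h1 := RR.WR_markov (ex := ex) (ey := ey) hp hb (S ×ˢ (univ : Finset Bool))
    (E := fun ξ R => S.card ≤ 2 * (S.filter fun i => A i (ξ, R)).card)
    (E' := fun t ξ R => A t.1 (ξ, R)) (M := S.card) fun ξ R _ k => k.trans (le_of_eq (by
      rw [mul_comm, ← Fintype.card_bool, ← card_univ, ← card_product]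
      exact congrArg card (by ext t; simp)))
  have h2 : ∑ t ∈ S ×ˢ (univ : Finset Bool), RR.WR ex ey p b (fun ξ R => A t.1 (ξ, R)) ≤
      (S ×ˢ (univ : Finset Bool)).card • (ε * DL.Zt ex ey p b) :=
    sum_le_card_nsmul _ _ _ fun t ht => (PR_le_iff hp hb).1 (h t.1 (mem_product.1 ht).1)
  rw [card_product, nsmul_eq_mul, card_univ, Fintype.card_bool] at h2
  rw [PR_le_iff hp hb]
  refine le_of_mul_le_mul_left (h1.trans (h2.trans (le_of_eq ?_))) (Nat.cast_pos.2 hS)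
  push_cast; ring

/-- **the additional bad event** has a small probability (first moment). -/
theorem PR_bad (hO : Ok ex ey F N p0 Es w B θ ρ0) (hE : Tm F N E Z y) (hal : ∀ v, b v ≠ 0 → al v)
    (hg : 0 ≤ g) (hc : 0 < cF) (H : Rs.Bd ex ey p b (Pr F N E Z al ρ0 dd) 0 y g)
    (hP : Fs.Pin ex ey p0 p E.2) (hZ : ∀ v, b v ≠ 0 → v.2.1 ∉ Z) (hp : ∀ s, 0 ≤ p s ∧ p s ≤ 1)
    (hb : Fld b) (h : Short F N E Z y v u r S) : PR ex ey p b (Bad F E Z y r S) ≤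
      cC F N n B w θ + 2 * cW F N n (2 * Real.exp 1 * (6 * g + cF)) := by
  classical
  obtain ⟨𝒮, s1, s2, s3⟩ := Fs.fast0 hO.hW hO.hθ hO.blk hP (hO.hD ▸ hE.few) N.f
  set π := cW F N n (2 * Real.exp 1 * (6 * g + cF))
  let A : ℕ → Finset (V L n T) → Prop := fun i R =>
    ∃ Y ∈ Pw6 F N E Z y r i, ∀ z ∈ Y, (tm T (i * F.D), z) ∈ R
  have h1 : ∀ i, PR ex ey p b (fun ω => A i ω.2) ≤ π := fun i =>
    (pf_one (k0 := 6) hO hE hal hg hc.le H le_rfl (fun Y hY => ⟨(mem_Pw6 hY).1, fun z hz => by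
      have := (mem_Pw6 hY).2 z hz
      have := h.rad
      have := hO.hr
      have := hO.ρ0
      omega⟩) (sum_Pw6 hE (by positivity))).le hp hb hc
  have h2 : PR ex ey p b (fun ω => ∃ I ∈ 𝒮, ∀ s ∈ I, ω.1 s = true) ≤ cC F N n B w θ :=
    (PR_union hp hb.mem 𝒮 (fun I ω => ∀ s ∈ I, ω.1 s = true) fun _ _ k => k).trans
      ((sum_le_sum fun I hI => PR_coins hp hb.mem I fun s hs =>
        (s1 I hI s hs).2.trans (hO.hW.hp s).2).trans s2)
  have h3 := PR_half hp hb.mem S (hO.τ.1.trans h.card) (fun i ω => A i ω.2) fun i _ => h1 i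
  refine le_trans (PR_mono hp hb.mem fun ω hω k => (s3 ω.1 hω.1.1).imp id fun hS => ?_)
    (((sub_PR hp hb.mem).or _ _).trans (add_le_add h2 h3))
  refine k.trans (Nat.mul_le_mul_left 2 (card_le_card fun i hi => ?_))
  simp only [mem_filter] at hi ⊢
  exact ⟨hi.1, new_cl hO hP hE (hO.hD ▸ hS) hω.1.2 (fun v hv => hZ v (hω.2 v hv)) h.rad hi.2
    (h.win i hi.1).1⟩

theorem PR_bad0 (hτ : 1 ≤ N.τ) (hp : ∀ s, 0 ≤ p s ∧ p s ≤ 1) (hb : ∀ v, 0 ≤ b v ∧ b v ≤ 1)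
    (h0 : ∀ x, b (0, x) = 0) (h : Short F N E Z y v u r S) :
    PR ex ey p b (Bad F E Z y r S) ≤ 0 := by
  classical
  refine PR_zero hp hb h0 fun ξ _ k => ?_
  rw [Bad, filter_eq_empty_iff.2 fun i hi c => (h.win i hi).1 (by simpa using c)] at k
  have := h.card
  simp only [card_empty] at k
  omega

/-! ### producers of `Fs.Pin` and `Fs.Blk` -/

section pin
variable {X X' O : Finset (V L n T)}

lemma pin_base (h : ∀ s, 0 ≤ p0 s) : Fs.Pin ex ey p0 p0 X := fun s => .inl ⟨h s, le_rfl⟩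

lemma pin_mono (h : Fs.Pin ex ey p0 p X) (hX : X ⊆ X') : Fs.Pin ex ey p0 p X' :=
  fun s => (h s).imp id fun k => ⟨k.1, fun e => ⟨hX (k.2 e).1, hX (k.2 e).2⟩⟩

lemma pin_child (h0 : ∀ s, 0 ≤ p0 s) (h : Fs.Pin ex ey p0 p X) (O : Finset (V L n T))
    (ξ : Fin T → Bool) :
    Fs.Pin ex ey p0 (Arc.pin p (Arc.tch ex ey O) ξ) (X ∪ acp ex ey ξ O) := fun s => by
  unfold Arc.pin
  split_ifs with h1 h2
  · have := (Arc.mem_tch ex ey).1 h1
    exact .inr ⟨rfl, fun e => ⟨mem_union_right _ (I.mem_acp.2 ⟨h2, e, this, .inl rfl⟩),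
      mem_union_right _ (I.mem_acp.2 ⟨h2, e, this, .inr rfl⟩)⟩⟩
  · exact .inl ⟨le_rfl, h0 s⟩
  · exact pin_mono h subset_union_left s

lemma pin_loops (h0 : ∀ s, 0 ≤ p0 s) (A : Finset (Gas.Lp T (Tor 3 L × Fin n))) :
    Fs.Pin ex ey p0 (Gas.pin ex ey p0 A) (I.ev ex ey A).2 := fun s => by
  unfold Gas.pin
  split_ifs with h1 h2
  · have k : ∀ y, ex s ≠ ey s → y = ex s ∨ y = ey s → (s, y) ∈ I.act ex ey A := fun y e k =>
      mem_filter.2 ⟨mem_univ _, h2, e, k⟩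
    exact .inr ⟨rfl, fun e => ⟨k _ e (.inl rfl), k _ e (.inr rfl)⟩⟩
  · exact .inl ⟨le_rfl, h0 s⟩
  · exact .inl ⟨h0 s, le_rfl⟩

end pin

open Top in
/-- the symmetriser is the last block of the word of the torus. -/
theorem blk_top [NeZero n] (hL : 3 ≤ L) (β : ℝ) (w : ℕ) {sy : List (Sl L n × Sl L n × ℝ)}
    (hs : Sym sy) : Fs.Blk (Top.ex β w sy) (Top.ey β w sy) (pp β w sy) := by
  have hE : 0 < (lay sy).length := NeZero.pos _
  have hM : 0 < MM β w := NeZero.pos _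
  have hl : (lay sy).length = (Top.bl L n).length + sy.length := List.length_append
  refine ⟨(MM β w - 1) * (lay sy).length + (Top.bl L n).length, fun s => ?_⟩
  have h1 := Nat.div_add_mod' s.val (lay sy).length
  have h2 := Nat.mod_lt s.val hE
  have h3 : s.val / (lay sy).length < MM β w := (Nat.div_lt_iff_lt_mul hE).2 s.2
  have h2' : s.val % (lay sy).length < (Top.bl L n ++ sy).length := h2
  have h4 : stp β w sy s = (Top.bl L n ++ sy)[s.val % (lay sy).length]'h2' := rfl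
  refine ⟨fun a1 a2 => ?_, fun a1 => ?_⟩
  · by_cases c : s.val % (lay sy).length < (Top.bl L n).length
    · rw [Top.ex, Top.ey, h4, List.getElem_append_left c] at a1
      obtain ⟨e, -, he⟩ := List.mem_map.1 (List.getElem_mem c)
      rw [← he] at a1
      exact absurd a1 (ZM.Wd.ne_add hL _ _)
    · rw [pp, if_neg c] at a2
      have : s.val / (lay sy).length = MM β w - 1 := by
        by_contra k
        exact a2 (if_neg (by omega))
      rw [← this]; omega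
  · have c : (Top.bl L n).length ≤ s.val % (lay sy).length := by
      have := Nat.mul_le_mul_right (lay sy).length (by omega : s.val / (lay sy).length ≤ MM β w - 1)
      omega
    rw [Top.ex, Top.ey, h4, List.getElem_append_right c]
    exact hs.site _ (List.getElem_mem _)

end Crest.Agent.N337.G4.Le
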