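import Crest.Agent.N337.G4.Inst
import Crest.Agent.N337.G4.Leaf
import Crest.Agent.N337.I.Slow
import Crest.Agent.N337.Ld.Cov

/-!
# Row 337, G4 (helper23): the inputs of the nested induction on the concrete rung
-/

set_option autoImplicit false
set_option linter.unusedSectionVars false

namespace Crest.Agent.N337.G4.On

open Finset Crest.Agent.N337.Rep Crest.Agent.N337.Free Crest.Agent.N337.Rg Crest.Agent.N337.Tr
  Crest.Agent.N337.G4.Rs Crest.Agent.N337.G4.Sp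
open Crest.Agent.N337.Arc (Fld)
open Crest.Agent.N337.I (V Ev sys)
open Crest.Agent.N337.Ld (locN)

section abs
variable {X α κ : Type} [Fintype X] [SemilatticeSup α] [Preorder κ] (S : Sys X α κ) (d m : ℕ)
  (E : α)

/-- **static junk** for an environment of class `m`. -/
def U (Z : κ) (l : ℕ) (y : X) : Prop :=
  (l < m ∧ S.Jk d E Z l y) ∨ (l = m ∧ ¬ S.Good d E Z m S.tm y)

variable {S d m E} {Z Z' : κ} {l : ℕ} {x y : X}

lemma U.le (h : U S d m E Z l y) : l ≤ m := h.elim (·.1.le) (·.1.le)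

lemma U.anti (h : U S d m E Z' l y) (hZ : Z ≤ Z') : U S d m E Z l y :=
  h.imp (And.imp_right fun k => k.mono le_rfl hZ)
    (And.imp_right fun k g => k (g.mono le_rfl le_rfl hZ le_rfl))

lemma U.jk (h : U S d m E Z l y) (hτ : S.k0 + S.oc + d ≤ S.tm) : S.Jk d E Z l y :=
  h.elim (·.2) fun k g => k.2 (k.1 ▸ g.up hτ)

lemma good (hτ : S.k0 + S.oc + d ≤ S.tm) (hl : l ≤ m) (h : ¬ U S d m E Z l y) :
    S.Good d E Z l S.tm y := by
  rcases hl.eq_or_lt with rfl | hl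
  · exact of_not_not fun k => h (.inr ⟨rfl, k⟩)
  · exact (of_not_not fun k => h (.inl ⟨hl, k⟩) : S.Good d E Z l _ y).up hτ

lemma not_U (h : ∀ z, S.d y z ≤ S.loc l → S.dead Z z) : ¬ U S d m E Z l y := by
  rintro (⟨-, k⟩ | ⟨rfl, k⟩) <;> exact k (Sys.good_dead h)

/-- the junk of level `l < m` in a cell that is not junk. -/
lemma cov_lt (hτ : S.k0 + S.oc + d ≤ S.tm) (h : S.Good d E Z (l + 1) S.tm x) :
    ∃ F : Finset X, F.card ≤ S.N ∧ ∀ u, U S d m E Z l u →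
      S.d x u + 3 * S.tm * S.H l ≤ S.ρ (l + 1) → ∃ f ∈ F, S.d f u ≤ S.rad l S.tm :=
  ⟨_, h.card_cov.trans ((Nat.le_add_right _ _).trans S.N_ge), fun _ hu k => h.jk_cov k (hu.jk hτ)⟩

/-- the junk of level `m`. -/
lemma cov_top {F : Finset X} {R : ℕ} {Z0 : κ} (h : Ld.Cls S d E Z0 m S.tm F R) (hZ : Z0 ≤ Z)
    (hu : U S d m E Z m y) : ∃ f ∈ F, S.d f y ≤ R := by
  by_contra hc
  exact (hu.resolve_left fun k => lt_irrefl _ k.1).2
    ((h y fun f hf => lt_of_not_ge fun k => hc ⟨f, hf, k⟩).mono le_rfl le_rfl hZ le_rfl)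

end abs

/-- **numerics** linking the rung `P0` to the fronts (`mt` levels, `B` windows). -/
structure NO (P0 : I.Num) (mt : ℕ) (Q : Gp) (N : Np) (B d : ℕ) : Prop where
  hl : 1 ≤ P0.l
  hτ : P0.k0 + 27 + d ≤ P0.tm
  hρ : ∀ l, (P0.tm + 1) * P0.a * (2 * P0.rad l P0.tm + 1) + 3 * P0.tm * P0.H l ≤ P0.ρ (l + 1)
  hJ : 2 * P0.tm * P0.j1 ≤ P0.r0
  hN : P0.N ≤ Q.N
  Lam : 4 * (2 * Q.c + 2) ^ Q.N + 1 ≤ P0.Lam
  lc : ∀ l < mt, locN P0 l + 1 ≤ N.lc l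
  v : ∀ l < mt, B * (2 * P0.tm * P0.j1 + P0.lw P0.tm l) ≤ N.v l
  Hc : ∀ l < mt, N.Hc l + 3 * P0.tm * P0.H l ≤ P0.ρ (l + 1)
  Sc : ∀ l < mt, P0.rad l P0.tm ≤ N.Sc l
  sep : ∀ l < mt, Q.sg l + locN P0 l ≤ P0.sep l
  Sx : ∀ l < mt, (2 * Q.c + 2) ^ Q.N * (P0.Sx l + Q.sg l) ≤ Q.Rm l
  H : ∀ l < mt, (Q.N + 1) * (2 * Q.Rm l + Q.W l + 2 * Q.dc l + Q.sg l + locN P0 l) ≤ P0.H l

/-- the cover `(F, R0)` of the top level `m` and the distance `R1` of the claimed cells. -/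
def Tp (P0 : I.Num) (mt : ℕ) (Q : Gp) (N : Np) (m nc R0 R1 : ℕ) : Prop :=
  m < mt ∧ nc ≤ Q.N ∧ R0 ≤ N.Sc m ∧
    2 * ((2 * Q.c + 2) ^ Q.N * (R0 + Q.sg m)) + Q.sg m + locN P0 m ≤ R1

variable {L n T : ℕ} [NeZero L] [NeZero T] (ex ey : Fin T → Tor 3 L × Fin n) (P0 : I.Num)
  (z0 : Tor 3 L) (G : Eg) (Q : Gp) (P : Pz) (N : Np) (B d m : ℕ) (p0 p : Fin T → ℝ)
  (b0 : V L n T → ℝ) (E : Ev L n T) (Z0 F : Finset (Tor 3 L)) (R0 R1 : ℕ)

/-- **an environment of class `m`** with its model. -/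
structure OIn : Prop where
  np : NP G Q P N n (L ^ 3 * n)
  no : NO P0 G.mt Q N B d
  hT : T = B * P0.D
  nn : ∀ s, tdist (ex s).1 (ey s).1 ≤ 1
  hp0 : ∀ s, 0 ≤ p0 s ∧ p0 s ≤ 1 / 2
  rate : ∀ l < G.mt, A.Rate ex ey (fun x y => tdist x.1 y.1) ⟨p0, fun _ => 0⟩ (N.v l + 2) (N.Kr l)
  hp : ∀ s, p s = p0 s ∨ p s = 0 ∨ p s = 1
  pin : Fs.Pin ex ey p0 p E.2
  hb : Fld b0
  dead : ∀ v, v.2.1 ∈ Z0 → b0 v = 0
  cls : Ld.Cls (sys n T P0 z0) d E Z0 m P0.tm F R0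
  top : (m ≤ G.mt ∧ F = ∅) ∨ Tp P0 G.mt Q N m F.card R0 R1

/-- the pairs. -/
def Pr (Nl : Le.Ln) (ρ0 : ℕ) (dd : ℕ → ℕ) (Z : Finset (Tor 3 L)) :
    ℕ → Tor 3 L → V L n T → V L n T → ℝ → Prop :=
  Le.Pr P0.toLf Nl E Z (fun v => b0 v ≠ 0 ∧ v.2.1 ∉ Z) ρ0 dd

variable {ex ey P0 z0 G Q P N B d m p0 p b0 E Z0 F R0 R1} {Z : Finset (Tor 3 L)} {l : ℕ}
  {x y : Tor 3 L}

lemma loc_sys (l : ℕ) : (sys n T P0 z0).loc l = locN P0 l := by
  induction l with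
  | zero => rfl
  | succ l ih => exact congrArg (P0.ρ (l + 1) + ·) ih

namespace OIn
variable (h : OIn ex ey P0 z0 G Q P N B d m p0 p b0 E Z0 F R0 R1)
include h

lemma p01 (s : Fin T) : 0 ≤ p s ∧ p s ≤ 1 := by
  have := h.hp0 s
  rcases h.hp s with e | e | e <;> rw [e] <;> constructor <;> linarith

lemma le_mt : m ≤ G.mt := h.top.elim (·.1) (·.1.le)

/-- the top member. -/
def mem : Mem Prod.fst b0 Z0 :=
  ⟨Z0, b0, Subset.rfl, fun v => (h.hb.mem v).1, fun _ => le_rfl, h.dead⟩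

/-- base cells off the junk. -/
lemma g0 (hy : ¬ U (sys n T P0 z0) d m E Z 0 y) : I.G0 P0.toLf P0.tm E Z y :=
  good (S := sys n T P0 z0) h.no.hτ (Nat.zero_le _) hy

/-- **cover of the junk** within `H` of `x`. -/
theorem cov (hl : l < G.mt) (hZ : Z0 ⊆ Z) (hx : l + 1 < G.mt → ¬ U (sys n T P0 z0) d m E Z (l + 1) x)
    {H : ℕ} (hH : H + 3 * P0.tm * P0.H l ≤ P0.ρ (l + 1)) : ∃ F' : Finset (Tor 3 L), F'.card ≤ Q.N ∧
      ∀ u, U (sys n T P0 z0) d m E Z l u → tdist x u ≤ H → ∃ f ∈ F', tdist f u ≤ N.Sc l := by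
  rcases lt_trichotomy l m with k | rfl | k
  · have : (sys n T P0 z0).Good d E Z (l + 1) P0.tm x := by
      by_cases k' : l + 1 < G.mt
      · exact good (S := sys n T P0 z0) h.no.hτ k (hx k')
      · have := h.le_mt
        obtain rfl : m = l + 1 := by omega
        obtain ⟨-, rfl⟩ := h.top.resolve_right fun t => k' t.1
        exact (h.cls x fun _ hf => absurd hf (notMem_empty _)).mono le_rfl le_rfl hZ le_rfl
    obtain ⟨F', h1, h2⟩ := cov_lt (S := sys n T P0 z0) (m := m) h.no.hτ this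
    exact ⟨F', h1.trans h.no.hN, fun u hu hd => (h2 u hu ((Nat.add_le_add_right hd _).trans hH)).imp
      fun f hf => ⟨hf.1, hf.2.trans (h.no.Sc l hl)⟩⟩
  · rcases h.top with ⟨-, rfl⟩ | t
    · exact ⟨∅, by simp, fun u hu _ => by simpa using cov_top h.cls hZ hu⟩
    · exact ⟨F, t.2.1, fun u hu _ => (cov_top h.cls hZ hu).imp fun f hf => ⟨hf.1, hf.2.trans t.2.2.1⟩⟩
  · exact ⟨∅, by simp, fun u hu _ => absurd hu.le (by omega)⟩

theorem slow (hl : l < G.mt) (hm : l ≤ m) : A.Slow ex ey (fun x y => tdist x.1 y.1)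
    (A.Cheap ex ey (fun x y => tdist x.1 y.1) ⟨p, b0⟩)
    (fun u => u.2.1 ∉ Z ∧ ¬ U (sys n T P0 z0) d m E Z l u.2.1 ∧ b0 u ≠ 0) (N.v l) := by
  refine A.Slow.mono (I.slow_all (ex := ex) (ey := ey) (dd := fun x y => tdist x.1 y.1)
    ⟨fun _ => tdist_self _, fun _ _ => tdist_comm _ _, fun _ _ _ => tdist_triangle _ _ _, h.nn⟩ h.hT
    (I.slow_win' (E := E) (Z := Z) (z0 := z0) (d := d) (m := l)
      (Al := A.Cheap ex ey (fun x y => tdist x.1 y.1) ⟨p, b0⟩)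
      (W := fun u => u.2.1 ∉ Z ∧ ¬ U (sys n T P0 z0) d m E Z l u.2.1 ∧ b0 u ≠ 0)
      h.nn h.no.hl h.no.hτ h.no.hρ h.no.hJ (fun r y hA hd hy _ => ?_) fun u hu =>
        ⟨fun k => hu.1 k.mem, good (S := sys n T P0 z0) h.no.hτ hm hu.2.1⟩))
    (fun _ k => k) (fun _ k => k) (h.no.v l hl)
  have h1 : p r = 1 := hA.resolve_right hd
  have h2 := (h.hp0 r).2
  have h3 := ((h.pin r).resolve_left fun k => by linarith [k.2]).2 fun e => hd (by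
    rw [e, tdist_self])
  rcases hy with rfl | rfl
  exacts [h3.1, h3.2]

/-- **the inputs of G4** up to the reset step. -/
theorem gin {α κ : Type} [SemilatticeSup α] [Preorder κ] {S : Sys (Tor 3 L) α κ} {Nl : Le.Ln}
    {ρ0 : ℕ} (ho : 0 ≤ Nl.o) (hr : ρ0 ≤ N.r0)
    (rin : ∀ M : Mem Prod.fst b0 Z0, ∃ b' Lf, RIn ex ey S G Q p M.b P b'
      (U (sys n T P0 z0) d m E M.Z) Lf (Pr P0 b0 E Nl ρ0 P.dd M.Z)) :
    GIn ex ey S G Q P N p b0 Z0 (U (sys n T P0 z0) d m E) (Pr P0 b0 E Nl ρ0 P.dd) where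
  np := h.np
  hp := h.p01
  hb := h.hb
  nn := h.nn
  anti _ _ _ _ hZ k := k.anti hZ
  dead l hl Z y k := not_U fun z hz z' hz' => k z' (by
    have := tdist_triangle y z z'
    have := h.no.lc l hl
    have : tdist y z ≤ locN P0 l := le_of_le_of_eq hz (loc_sys l)
    omega)
  cov l hl Z x hZ hx := h.cov hl hZ hx (h.no.Hc l hl)
  rate l hl := (h.rate l hl).of_le le_rfl (fun s => (h.hp0 s).1) h.hp
  slow l hl := fun ⟨_, hu⟩ _ _ => h.slow hl hu.le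
  mono _ _ _ _ _ _ _ hZ hv hu k :=
    Le.Pr.mono k hZ ⟨k.2.1.1, fun a => k.2.1.2 (hv a)⟩ ⟨k.2.2.1.1, fun a => k.2.2.1.2 (hu a)⟩
  pos _ _ _ _ _ _ k := by
    rcases k.2.2.2 with ⟨-, rfl⟩ | ⟨-, -, rfl⟩ | ⟨-, rfl, -⟩
    exacts [le_rfl, le_rfl, ho]
  near _ _ _ _ _ _ k := k.1.trans hr
  rin := rin

/-- **data at all levels** for a point with isolated ancestors. -/
theorem data (hz : ∀ i < m, ∃ x, (sys n T P0 z0).Iso ((sys n T P0 z0).Jk d E Z0) i x ∧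
      tdist x y ≤ locN P0 i) (hx : ∃ x, (sys n T P0 z0).Off F R1 x ∧ tdist x y ≤ locN P0 m)
    (i : ℕ) (hi : i < G.mt) : ∃ D, Val Q (U (sys n T P0 z0) d m E Z0) i D ∧
      Cd Q (U (sys n T P0 z0) d m E Z0) i D (Q.sg i) y := by
  have e0 : (∀ u, ¬ U (sys n T P0 z0) d m E Z0 i u) → ∃ D, Val Q (U (sys n T P0 z0) d m E Z0) i D ∧
      Cd Q (U (sys n T P0 z0) d m E Z0) i D (Q.sg i) y := fun k =>
    ⟨∅, ⟨by simp, by simp, by simp, fun u hu => absurd hu (k u)⟩,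
      by simp [In], fun u hu => absurd hu (k u)⟩
  rcases lt_trichotomy i m with k | rfl | k
  · obtain ⟨x, h1, h2⟩ := hz i k
    obtain ⟨D, h3, h4⟩ := pick_iso (S := sys n T P0 z0) (fun _ _ => rfl)
      (h1.mono fun u hu => U.jk (m := m) hu h.no.hτ) h.no.hN (h.no.sep i hi) h.no.Lam (h.no.Sx i hi)
      (h.no.H i hi)
    exact ⟨D, h3, h4 y h2⟩
  · rcases h.top with ⟨-, rfl⟩ | t
    · exact e0 fun u hu => by simpa using cov_top h.cls le_rfl hu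
    obtain ⟨x, h1, h2⟩ := hx
    obtain ⟨D, h3, h4⟩ := pick_gen (Q := Q) (U := U (sys n T P0 z0) d i E Z0) (l := i) (x := x)
      (e := locN P0 i) t.2.1 (fun u hu _ => cov_top h.cls le_rfl hu) le_rfl
      ((Nat.mul_le_mul_left _ (Nat.add_le_add_right t.2.2.1 _)).trans (h.np.Rm i hi))
      (fun f hf => by rw [tdist_comm]; exact t.2.2.2.trans_lt (h1 f hf)) le_rfl
    exact ⟨D, h3, h4 y h2⟩
  · exact e0 fun u hu => absurd hu.le (by omega)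

/-- **G4, Green part, on the rung**: the claims at a point with isolated ancestors. -/
theorem bd {α κ : Type} [SemilatticeSup α] [Preorder κ] {S : Sys (Tor 3 L) α κ} {Nl : Le.Ln}
    {ρ0 : ℕ} (ho : 0 ≤ Nl.o) (hr : ρ0 ≤ N.r0) (h1 : 1 ≤ G.mt)
    (rin : ∀ M : Mem Prod.fst b0 Z0, ∃ b' Lf, RIn ex ey S G Q p M.b P b'
      (U (sys n T P0 z0) d m E M.Z) Lf (Pr P0 b0 E Nl ρ0 P.dd M.Z))
    (hz : ∀ i < m, ∃ x, (sys n T P0 z0).Iso ((sys n T P0 z0).Jk d E Z0) i x ∧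
      tdist x y ≤ locN P0 i) (hx : ∃ x, (sys n T P0 z0).Off F R1 x ∧ tdist x y ≤ locN P0 m) :
    Fr (U (sys n T P0 z0) d m E Z0) 0 (Q.sg 0) y ∧
      ∀ l ≤ G.mt, Bd ex ey p b0 (Pr P0 b0 E Nl ρ0 P.dd Z0) l y (P.γ l) :=
  ⟨(h.data hz hx 0 h1).elim fun _ k => k.2.fr, fun _ hl =>
    g4_pt (h.gin ho hr rin) h.mem hl fun i _ hi => h.data hz hx i hi⟩

end OIn

/-- **the configurations of the cell claims** (`Uk` = extra killed points). -/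
theorem of_ad {W : M.Bs T (Tor 3 L × Fin n)} (hW : W.Ok) (hd : W.d = fun x y => tdist x.1 y.1)
    {Sd : Finset (V L n T) → Prop} {nc : ℕ} {s : M.Cfg T (Tor 3 L × Fin n)} {y : ℝ} (h0 : 0 ≤ y)
    (h1 : y < 1) (np : NP G Q P N n (L ^ 3 * n)) (no : NO P0 G.mt Q N B d) (hT : T = B * P0.D)
    (rate : ∀ l < G.mt, A.Rate W.ex W.ey W.d ⟨W.p, fun _ => 0⟩ (N.v l + 2) (N.Kr l))
    (h : Ld.Ad (I.ins W.ex W.ey P0 z0) W Sd d m nc R0 s F)
    (top : (m ≤ G.mt ∧ F = ∅) ∨ Tp P0 G.mt Q N m nc R0 R1) (Uk : Finset (V L n T)) :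
    OIn W.ex W.ey P0 z0 G Q P N B d m W.p (W.pn s) (W.mdl y (s.rev ∅ Uk)).b (I.ev W.ex W.ey s.e)
      (I.kil s.Z) F R0 R1 where
  np := np
  no := no
  hT := hT
  nn r := by have := hW.d.2.2.2 r; rwa [hd] at this
  hp0 := hW.p
  rate := hd ▸ rate
  hp r := by simp only [M.Bs.pn, Gas.pin]; split_ifs <;> simp
  pin := Le.pin_loops (fun r => (hW.p r).1) _
  hb := Fld.kill ⟨fun v => by
    unfold Top.bt; split_ifs; exacts [⟨h0, h1.le⟩, ⟨zero_le_one, le_rfl⟩],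
    fun x => by simpa [Top.bt] using h1⟩ _
  dead v hv := if_pos (mem_union_left _ (mem_union_left _ (I.mem_of_kil hv)))
  cls := h.cl
  top := top.imp_right fun t => ⟨t.1, h.card.trans t.2.1, t.2.2⟩

end Crest.Agent.N337.G4.On
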