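import Crest.Agent.N337.G4.Leaf
import Crest.Agent.N337.G4.RStep
import Crest.Agent.N337.Gl.Tb

/-!
# Row 337, G4 (helper4): the quenched input `RIn.que` of the reset step
-/

set_option autoImplicit false
set_option linter.unusedSectionVars false

namespace Crest.Agent.N337.G4.Qu

open Finset Crest.MathPhysics.SpinModel Free Crest.Agent.N337.Rep Rg Tr Rs Le Gl
open Crest.Agent.N337.I (V Ev vis cnt evp Cl W0 G0 dead bE)
open Crest.Agent.N337.G1 (lag Scales CovIn Cg)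
open Crest.Agent.N337.Arc (Fld)

/-- the numbers of the quenched bounds. -/
structure Qn where
  /-- scales of G1, exponents of the tubes -/
  Pg : Scales
  k : ℕ → ℕ
  k' : ℕ → ℕ
  /-- rung of the base cells off `U 0`, activity bound of G1 -/
  t : ℕ
  j : ℕ
  /-- radius and range of the covers of the static junk, radius of the domain -/
  Sc : ℕ → ℕ
  Hc : ℕ → ℕ
  rD : ℕ
  /-- escape distance and blocks for long lags, annuli for short lags -/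
  dL : ℕ
  Nb : ℕ
  M : ℕ
  /-- Trotter error -/
  er : ℝ

variable {L n T : ℕ} [NeZero L] [NeZero T] {α κ : Type} [SemilatticeSup α] [Preorder κ]
  (S : Sys (Tor 3 L) α κ) (G : Eg) (Q : Gp) (P : Pz) (F : I.Lf) (N : Ln) (K : Qn)

/-- **numerical conditions** (`c = Cg κ`). -/
structure QN (n B w : ℕ) (θ c : ℝ) : Prop where
  d : ∀ x y, S.d x y = tdist x y
  a1 : 1 ≤ S.a1
  mt : 1 ≤ G.mt
  tb : Tb.Nu S G K.Pg K.k K.k' fun _ => 0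
  cov : ∀ l < G.mt, Q.N + S.a1 ≤ K.Pg.a (l + 1) ∧ 4 * K.Pg.η (l + 1) ≤ S.ρ (l + 1) ∧
    4 * K.Pg.η (l + 1) + Q.dc l + S.loc l ≤ K.Hc l ∧ S.sep l ≤ K.Sc l + Q.dc l + S.loc l ∧
    K.Sc l + Q.dc l + S.loc l ≤ K.Pg.σ (l + 1)
  top : 2 * (K.rD + 1 + F.r0) + 2 * S.loc (G.mt - 1) ≤ S.sep (G.mt - 1) ∧
    4 * (2 * K.rD + 1) ^ 3 ≤ vT G K.k
  fr : 2 * F.r0 + 2 ≤ Q.fr
  tm : 2 * K.t * F.j1 ≤ N.m ∧ 2 * K.t * F.n1 + 2 * (2 * K.t * F.j1 + 0) ≤ N.j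
  γ0 : 0 ≤ P.γ 0 ∧ 0 < P.cF
  far : ∀ l ≤ G.mt, 2 * (P.dd l + F.A) ≤ 2 ^ K.k l ∧ 4 * K.Pg.η l ≤ P.dd l ∧
    2 * (c * (gF S G K.Pg K.k K.k' F.A l (P.dd l) + K.er)) ≤ P.γ l / 2
  lag : 2 * (K.dL + K.Pg.η 0 + F.A) ≤ 2 ^ K.k 0 ∧ 4 * K.Pg.η 0 ≤ K.dL ∧ 1 ≤ K.Nb ∧
    K.Nb * (F.l + 2) ≤ N.Lg ∧ 2 * (c * (cT S G K.Pg K.k K.k' F.A 0 1 / K.Nb +
      gF S G K.Pg K.k K.k' F.A 0 K.dL + K.er)) ≤ P.γ 0 / 2
  short : 2 * (N.d + F.A) ≤ 2 ^ K.k 0 ∧ 1 ≤ K.M ∧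
    2 * (K.M + F.l) * ((K.j + 1) * (2 * F.A + 1)) ≤ N.d ∧
    2 * (c * (2 * cT S G K.Pg K.k K.k' F.A 0 1 / N.τ + cT S G K.Pg K.k K.k' F.A 0 K.M / K.M +
      K.er)) + (cC F N n B w θ + 2 * cW F N n (2 * Real.exp 1 * (6 * (2 * P.γ 0) + P.cF))) ≤
      P.γ 0 / 2 + N.o

/-- **one member**: word `W`, pinned environment `(p, E)`, killed sites `Z`, static junk `U`. -/
structure QIn (ex ey : Fin T → Tor 3 L × Fin n) (W : Wd T) (θ : ℝ) (p : Fin T → ℝ)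
    (b : V L n T → ℝ) (E : Ev L n T) (Z : Finset (Tor 3 L)) (al : V L n T → Prop)
    (U : ℕ → Tor 3 L → Prop) : Prop where
  qn : QN S G Q P F N K n W.B W.w θ (Cg W.κ)
  wd : W.Ok ex ey F
  er : W.er L n ≤ K.er
  half : ∀ s, 1 / 2 ≤ W.b0 s
  nu : Nu W L F K.Pg (K.t + 1) 0 K.j
  ok : Le.Ok ex ey F N W.p0 W.E0 W.w W.B θ (S.ρ 0)
  md : Md W ex ey p E
  pin : Fs.Pin ex ey W.p0 p E.2
  hb : Fld b
  al1 : ∀ v, b v ≠ 0 → al v
  al2 : ∀ v, al v → v ∉ E.1 ∧ v.2.1 ∉ Z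
  dom : ∃ x0, ∀ z ∉ Z, tdist x0 z ≤ K.rD
  u0 : ∀ c, ¬ U 0 c → G0 F K.t E Z c
  cov : ∀ l < G.mt, ∀ x, (l + 1 < G.mt → ¬ U (l + 1) x) → ∃ A : Finset (Tor 3 L), A.card ≤ Q.N ∧
    ∀ u, U l u → tdist x u ≤ K.Hc l → ∃ f ∈ A, tdist f u ≤ K.Sc l

open Classical in
/-- the junk sets of G1. -/
noncomputable def UJ (J : ℕ → Tor 3 L → Prop) (mt m : ℕ) : Finset (Tor 3 L) :=
  univ.filter fun y => 1 ≤ m ∧ m ≤ mt ∧ J (m - 1) y

variable {S G Q P F N K} {ex ey : Fin T → Tor 3 L × Fin n} {W : Wd T} {θ : ℝ} {p : Fin T → ℝ}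
  {b : V L n T → ℝ} {E C : Ev L n T} {Z : Finset (Tor 3 L)} {al : V L n T → Prop}
  {U J : ℕ → Tor 3 L → Prop} {y : Tor 3 L} {mt l : ℕ} {ω : CR T (Tor 3 L × Fin n)}

lemma mem_UJ : y ∈ UJ J mt (l + 1) ↔ l < mt ∧ J l y := by
  classical
  simp [UJ]

/-- leaves sit next to sites that are not dead. -/
lemma w0_near (h : W0 F C E Z y) : ∃ z, ¬ dead Z z ∧ tdist y z ≤ F.r0 := by
  classical
  by_contra h'
  have key : ∀ (R : Finset (V L n T)) k z r, tdist y z + r ≤ F.r0 → cnt (vis Z R) k z r = 0 :=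
    fun R k z r hr => I.cnt_zero fun x hx => lt_of_not_ge fun h1 =>
      h' ⟨x.1, (I.mem_vis.1 hx).2, by have := tdist_triangle y z x.1; omega⟩
  have h0 : tdist y y + F.r0 ≤ F.r0 := by rw [tdist_self, zero_add]
  rcases h with ⟨k, h⟩ | ⟨i, h⟩ | ⟨s, -, i, h⟩
  · exact absurd (h.trans_eq (key _ k y _ h0)) (Nat.not_lt_zero _)
  · exact absurd (h.trans_eq (sum_eq_zero fun k _ => key _ k y _ h0)) (Nat.not_lt_zero _)
  · obtain ⟨i', hi⟩ := card_pos.1 ((Nat.zero_le _).trans_lt h)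
    obtain ⟨k, -, z, h1, h2⟩ := (mem_filter.1 hi).2.1
    rw [key _ k z _ (by have := F.rr_le (s + 1); omega)] at h2
    omega

variable (I : QIn S G Q P F N K ex ey W θ p b E Z al U)
include I

theorem QIn.fld : Fld (bE W.b0 Z E.1) :=
  have h := N337.I.bE_mem (Z := Z) (R := E.1) fun s => (I.wd.pers.hb0 s).1
  ⟨fun v => ⟨(h v).1, (h v).2.trans (I.wd.pers.hb0 _).2⟩,
    fun _ => (h _).2.trans_lt (I.wd.h0.trans_lt I.wd.hY.2)⟩

theorem QIn.tm (h : Fr U 0 Q.fr y) : Tm F N E Z y :=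
  Tm.of (X0 := ∅) I.wd.hT I.nu.hl I.md.rp subset_union_left le_rfl I.qn.tm.1 I.qn.tm.2
    fun z hz => I.u0 z fun k => by have := h z k; have := I.qn.fr; omega

theorem QIn.notop (ω : CR T (Tor 3 L × Fin n)) (hl : l + 1 = G.mt) :
    ¬ FQ S (Cp S Q U) (Lw ex ey F E Z ω) (l + 1) y := by
  obtain ⟨x0, h0⟩ := I.dom
  have key : ∀ z, Lw ex ey F E Z ω z → tdist x0 z ≤ K.rD + 1 + F.r0 := fun z hz => by
    obtain ⟨z1, h1, h2⟩ := w0_near hz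
    simp only [dead, not_forall] at h1
    obtain ⟨z2, h3, h4⟩ := h1
    have := h0 z2 h4
    have := tdist_triangle x0 z2 z
    have := tdist_triangle z2 z1 z
    rw [tdist_comm z2 z1, tdist_comm z1 z] at this
    omega
  refine topJ I.qn.d I.qn.a1 (δ := 2 * (K.rD + 1 + F.r0)) (fun z z' h h' => ?_) ?_
  · have := key z h
    have := key z' h'
    have := tdist_triangle z x0 z'
    rw [tdist_comm z x0] at this
    omega
  · have := I.qn.top.1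
    rwa [← hl, Nat.add_sub_cancel] at this

theorem QIn.st (h : Pos ex ey p b ω) : St W ex ey F K.Pg (K.t + 1) 0 K.j p (bE W.b0 Z E.1) E Z ω.1
    ω.2 ω.2 (UJ (Jr S Q U (Lw ex ey F E Z ω)) G.mt) where
  wd := I.wd
  md := I.md
  nu := I.nu
  hb := I.fld
  le _ := le_rfl
  sub := Subset.rfl
  ends := by
    rw [Arc.ends, filter_eq_empty_iff.2 fun v hv k => k ((h.1.2 v).2 hv)]
    simp
  cov m h1 h2 c _ hc := by
    obtain ⟨l, rfl⟩ : ∃ l, m = l + 1 := ⟨m - 1, by omega⟩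
    have hl : l < G.mt := by rw [I.qn.tb.mt] at h2; omega
    obtain ⟨n1, n2, n3, n4, n5⟩ := I.qn.cov l hl
    rw [mem_UJ, not_and, Jr, not_or] at hc
    obtain ⟨A, a1, a2⟩ := I.cov l hl c fun k => (hc k).1
    obtain ⟨A', b1, b2⟩ := covJ (Q := Q) (U := U) (Lf := Lw ex ey F E Z ω) (y := c) I.qn.d
      (fun k => (lt_or_eq_of_le (Nat.succ_le_of_lt hl)).elim (fun e => (hc e).2 k)
        fun e => I.notop ω e k) n2 (fun u k1 k2 => a2 u k2 (k1.trans n3)) n4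
    exact ⟨A', by omega, fun z hz k => (b2 z k (mem_UJ.1 hz).2).imp fun f hf =>
      ⟨hf.1, hf.2.trans n5⟩⟩
  good c hc := by
    rw [mem_UJ, not_and, Jr, not_or] at hc
    exact fun i => (I.u0 c (hc I.qn.mt).1 i).step (hc I.qn.mt).2

theorem QIn.lnk : Lnk S G K.Pg K.k K.k' (fun _ => 0) (UJ J G.mt) J where
  nu := I.qn.tb
  top := by
    rw [I.qn.tb.mt]
    exact eq_empty_of_forall_notMem fun y hy => lt_irrefl _ (mem_UJ.1 hy).1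
  hJ l _ u hu := ⟨u, by rw [tdist_self], (mem_UJ.1 hu).2⟩

/-- **the field `RIn.que`** with `b' = bE W.b0 Z E.1`, `Lf = Lw`, `Pr = Le.Pr`. -/
theorem QIn.que : ∀ l ≤ G.mt, ∀ y v u o, Pr F N E Z al (S.ρ 0) P.dd l y v u o →
    (l = 0 → Fr U 0 Q.fr y ∧ (Bd ex ey p b (Pr F N E Z al (S.ρ 0) P.dd) 0 y (2 * P.γ 0) ∨
      ∀ x, b (0, x) = 0)) →
    ∃ (Bad : CR T (Tor 3 L × Fin n) → Prop) (g : ℝ), 0 ≤ g ∧ 1 / 2 ≤ bE W.b0 Z E.1 u ∧
      (∀ ξ R R', R ⊆ R' → Bad (ξ, R) → Bad (ξ, R')) ∧ 2 * g + PR ex ey p b Bad ≤ P.γ l / 2 + o ∧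
      ∀ ω, Pos ex ey p b ω → ¬ Bad ω → TBn S G l (Jr S Q U (Lw ex ey F E Z ω)) y → v ∉ ω.2 →
        u ∉ ω.2 → (WN.Gc ex ey p (bE W.b0 Z E.1) ω.2 ω.1 v u - if v = u then 1 else 0) ≤ g := by
  classical
  rintro l hl y v u o ⟨hy, -, hu, H⟩ h0
  have hc : 0 ≤ Cg W.κ := G1.Cg_nonneg I.wd.clock.hκ
  have he : 0 ≤ W.er L n := G1.err_nonneg
  have he' := I.er
  have h2 : 1 / 2 ≤ bE W.b0 Z E.1 u := by
    rw [bE, if_neg (not_or.2 ⟨fun k => (I.al2 u hu).1 (N337.I.vis_sub k), (I.al2 u hu).2⟩)]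
    exact I.half _
  have tp : Tp W Z (vT G K.k) 0 :=
    .inr ⟨le_rfl, I.dom.choose, _, I.dom.choose_spec, I.qn.top.2⟩
  have hx : tcast L (lf 0 v.2.1) = v.2.1 := tcast_lf _ _
  have hF : PR ex ey p b (fun _ => False) ≤ 0 := by
    simpa using PR_union I.md.hp I.hb.mem (∅ : Finset Unit) (fun _ _ => True) fun _ _ k => k.elim
  have c0 := cT_nn (S := S) (G := G) (P := K.Pg) (k := K.k) (k' := K.k') F.A 0
  have g0 := gF_nn (S := S) (G := G) (P := K.Pg) (k := K.k) (k' := K.k') F.A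
  rcases H with ⟨hd, rfl⟩ | ⟨rfl, hd, rfl⟩ | ⟨rfl, rfl, r, A, hA⟩
  · obtain ⟨n1, n2, n3⟩ := I.qn.far l hl
    refine ⟨fun _ => False, _, mul_nonneg hc (add_nonneg (g0 l (P.dd l)) (he.trans he')), h2,
      fun _ _ _ _ k => k, by linarith, fun ω k1 _ k3 _ _ => ((I.st k1).farT I.lnk
        (k3 _ (hx.symm ▸ hy)) hl n1 n2 tp (.inr hx) (tdist_comm _ _ ▸ hd)).trans ?_⟩
    exact mul_le_mul_of_nonneg_left (by linarith) hc
  · obtain ⟨n1, n2, n3, n4, n5⟩ := I.qn.lag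
    refine ⟨fun _ => False, _, mul_nonneg hc (add_nonneg (add_nonneg
      (div_nonneg (c0 1) (Nat.cast_nonneg K.Nb)) (g0 0 K.dL)) (he.trans he')), h2,
      fun _ _ _ _ k => k, by linarith, fun ω k1 _ k3 _ _ => ((I.st k1).lagT I.lnk
        (k3 _ (hx.symm ▸ hy)) n1 n2 tp (.inr hx) n3
        ((Nat.mul_le_mul_right _ n4).trans hd)).trans ?_⟩
    exact mul_le_mul_of_nonneg_left (by linarith) hc
  · obtain ⟨n1, n2, n3, n4⟩ := I.qn.short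
    have hB : PR ex ey p b (Bad F E Z y r A) ≤ cC F N n W.B W.w θ +
        2 * cW F N n (2 * Real.exp 1 * (6 * (2 * P.γ 0) + P.cF)) := by
      have a1 := I.qn.γ0
      rcases (h0 rfl).2 with k | k
      · exact PR_bad I.ok (I.tm (h0 rfl).1) I.al1 (by linarith) a1.2 k I.pin
          (fun v k => (I.al2 v (I.al1 v k)).2) I.md.hp I.hb hA
      · refine (PR_bad0 I.ok.τ.1 I.md.hp I.hb.mem k hA).trans ?_
        have a2 : 0 ≤ 2 * Real.exp 1 * (6 * (2 * P.γ 0) + P.cF) :=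
          mul_nonneg (by positivity) (by linarith)
        unfold cC cW
        positivity
    refine ⟨Bad F E Z y r A, _, mul_nonneg hc (add_nonneg (add_nonneg
      (div_nonneg (mul_nonneg zero_le_two (c0 1)) (Nat.cast_nonneg N.τ))
      (div_nonneg (c0 K.M) (Nat.cast_nonneg K.M))) (he.trans he')), h2,
      fun _ _ _ => Bad.mono, by linarith, fun ω k1 k2 k3 _ _ => ?_⟩
    obtain ⟨A', a0, a1⟩ : ∃ A' : Finset ℕ, (∀ i ∈ A', i ∈ A ∧ ¬ Cl F r (vis Z (E.1 ∪ ω.2)) y i) ∧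
        N.τ < 2 * A'.card := by
      refine ⟨A.filter fun i => ¬ Cl F r (vis Z (E.1 ∪ ω.2)) y i, fun i hi => mem_filter.1 hi, ?_⟩
      have := card_filter_add_card_filter_not (s := A) fun i => Cl F r (vis Z (E.1 ∪ ω.2)) y i
      have := hA.card
      rw [Bad, not_le] at k2
      omega
    refine ((I.st k1).shortT I.lnk (k3 _ (hx.symm ▸ hy)) n1 tp (.inr hx) n2 n3 hA.lag_le A'
      (card_pos.1 (by omega)) (hx.symm ▸ hA.near) fun i hi =>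
        ⟨(a0 i hi).2, (hA.win i (a0 i hi).1).2⟩).trans
      (mul_le_mul_of_nonneg_left ?_ hc)
    have a2 : (N.τ : ℝ) ≤ 2 * A'.card := by exact_mod_cast a1.le
    have a3 : (0 : ℝ) < N.τ := by exact_mod_cast I.ok.τ.1
    have a4 : cT S G K.Pg K.k K.k' F.A 0 1 / A'.card ≤ 2 * cT S G K.Pg K.k K.k' F.A 0 1 / N.τ := by
      rw [← mul_div_mul_left _ _ (two_ne_zero (α := ℝ))]
      exact div_le_div_of_nonneg_left (mul_nonneg zero_le_two (c0 1)) a3 a2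
    linarith

/-- **all inputs of the reset step.** -/
theorem QIn.rin (hb0 : ∀ v, b v ≤ W.b0 v.1) (nt : NT S P G.mt) (ng : NG S G Q)
    (hs : ∀ l ≤ G.mt, ∑ i ∈ Ico l G.mt, ((2 * Q.A i + 1 : ℕ) ^ 3 * P.ε i +
      ((2 * S.ρ (i + 1) + 1 : ℕ) ^ 3 * P.ε i) ^ (S.a1 + 1)) ≤ P.γ l / 2)
    (hk1 : F.n1 + 1 ≤ P.k0) (hk3 : 6 * N.k ≤ P.k0) (c1 : cC F N n W.B W.w θ ≤ P.η ^ 2)
    (c2 : cP F N n W.B (2 * P.γ 0) P.cF ≤ P.η ^ 2) :
    RIn ex ey S G Q p b P (bE W.b0 Z E.1) U (Lw ex ey F E Z) (Pr F N E Z al (S.ρ 0) P.dd) where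
  hp := I.md.hp
  hb := I.hb
  hb' := I.fld
  le := N337.I.le_bE hb0 (fun v k => by_contra fun h => (I.al2 v (I.al1 v h)).1 k)
    fun v k => by_contra fun h => (I.al2 v (I.al1 v h)).2 k
  nt := nt
  ng := ng
  sum := hs
  mono _ _ _ _ := Lw.mono
  zero _ _ _ := Lw.zero
  far _ _ v u h1 h2 h3 h4 := Pr.far h1 (I.al1 v h2) (I.al1 u h3) h4
  leaf _ h H := lfD I.ok (I.tm h) I.al1 (by linarith [I.qn.γ0.1]) I.qn.γ0.2.le H I.pin
    (fun v k => (I.al2 v (I.al1 v k)).2) hk1 hk3 c1 c2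
  que := I.que

end Crest.Agent.N337.G4.Qu
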