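import Crest.Agent.N337.G4.Final
import Crest.Agent.N337.G4.On
import Crest.Agent.N337.G4.Que
import Crest.Agent.N337.C9.Ins

/-!
# Row 337, G4 (helper50): `F1` and `N1` from the word and numbers
-/

set_option autoImplicit false
set_option linter.unusedSectionVars false

namespace Crest.Agent.N337.G4.Rs

open Finset Crest.Agent.N337.Rep Crest.Agent.N337.Free Crest.Agent.N337.Rg Crest.Agent.N337.Tr
  Crest.Agent.N337.G4.Sp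
open Crest.Agent.N337.M (Bs Cfg)
open Crest.Agent.N337.I (V Ev kil ins sys)
open Crest.Agent.N337.Ld (locN)

variable {L n T : ℕ} [NeZero L] [NeZero T] (W : Gl.Wd T) (Gb : Bs T (Tor 3 L × Fin n)) (P0 : I.Num)
  (z0 : Tor 3 L) (S' : Sys (Tor 3 L) (Ev L n T) (Finset (Tor 3 L))) (G : Eg) (Q : Gp) (P : Pz)
  (N : Np) (Nl : Le.Ln) (K : Qu.Qn)

/-- **the word and the numbers of G4** (`S'` = internal system, `d` = dense parties). -/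
structure Pk4 (y θ : ℝ) (d : ℕ) : Prop where
  wr : C9.Wr W Gb P0.toLf y
  er : W.er L n ≤ K.er
  half : ∀ s, 1 / 2 ≤ W.b0 s
  rate : ∀ l < G.mt, A.Rate Gb.ex Gb.ey Gb.d ⟨Gb.p, fun _ => 0⟩ (N.v l + 2) (N.Kr l)
  ok : Le.Ok Gb.ex Gb.ey P0.toLf Nl W.p0 W.E0 W.w W.B θ (S'.ρ 0)
  nu : Gl.Nu W L P0.toLf K.Pg (K.t + 1) 0 K.j
  qn : Qu.QN S' G Q P P0.toLf Nl K n W.B W.w θ (G1.Cg W.κ)
  np : NP G Q P N n (L ^ 3 * n)
  no : On.NO P0 G.mt Q N W.B d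
  nt : NT S' P G.mt
  ng : NG S' G Q
  sum : ∀ l ≤ G.mt, ∑ i ∈ Ico l G.mt, ((2 * Q.A i + 1 : ℕ) ^ 3 * P.ε i +
    ((2 * S'.ρ (i + 1) + 1 : ℕ) ^ 3 * P.ε i) ^ (S'.a1 + 1)) ≤ P.γ l / 2
  k0 : P0.n1 + 1 ≤ P.k0 ∧ 6 * Nl.k ≤ P.k0
  c1 : Le.cC P0.toLf Nl n W.B W.w θ ≤ P.η ^ 2
  c2 : Le.cP P0.toLf Nl n W.B (2 * P.γ 0) P.cF ≤ P.η ^ 2
  /-- the internal system -/
  int : S'.a1 = P0.a1 ∧ S'.ρ = P0.ρ ∧ ∀ l, S'.sep l ≤ P0.sep l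
  r0 : S'.ρ 0 ≤ N.r0
  t : P0.tm ≤ K.t
  cv : ∀ l < G.mt, K.Hc l + 3 * P0.tm * P0.H l ≤ P0.ρ (l + 1) ∧ N.Sc l ≤ K.Sc l

variable {W Gb P0 z0 S' G Q P N Nl K} {y θ ε : ℝ} {d m nc R0 R1 : ℕ} {Sd : Finset (V L n T) → Prop}

theorem Pk4.has (h : Pk4 W Gb P0 S' G Q P N Nl K y θ d) {s : Cfg T (Tor 3 L × Fin n)}
    {F : Finset (Tor 3 L)} (a : Ld.Ad (ins Gb.ex Gb.ey P0 z0) Gb Sd d m nc R0 s F)
    (top : (m ≤ G.mt ∧ F = ∅) ∨ On.Tp P0 G.mt Q N m nc R0 R1)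
    (dom : ∃ x0, ∀ z ∉ kil s.Z, tdist x0 z ≤ K.rD) (U : Finset (V L n T)) :
    Has Gb P0 z0 S' G Q P y d m s U := by
  have w := h.wr
  have o := On.of_ad w.ok w.d w.Y0 w.Y1 h.np h.no w.wd.hT h.rate a top U
  obtain ⟨ξ0, -, hξ⟩ := Gas.qq_supp a.val
  have rin : ∀ M : Mem Prod.fst (bK y s U) (kil s.Z), RIn Gb.ex Gb.ey S' G Q (Gb.pn s) M.b P _
      (On.U (sys n T P0 z0) d m (I.ev Gb.ex Gb.ey s.e) M.Z)
      (Le.Lw Gb.ex Gb.ey P0.toLf (I.ev Gb.ex Gb.ey s.e) M.Z)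
      (On.Pr P0 (bK y s U) (I.ev Gb.ex Gb.ey s.e) Nl (S'.ρ 0) P.dd M.Z) := fun M =>
    Qu.QIn.rin (K := K) (W := W) (θ := θ) ⟨h.qn, w.wd, h.er, h.half, h.nu, h.ok,
      ⟨o.p01, fun r hr => by rw [w.p0]; exact if_neg hr, I.rp_ev _ hξ⟩, w.p0 ▸ o.pin, M.fld o.hb,
      fun v hv => ⟨fun e => hv (le_antisymm (e ▸ M.le v) (M.nn v)), fun e => hv (M.dead v e)⟩,
      fun v hv => ⟨fun e => hv.1 (if_pos (mem_union_right _ (by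
        rw [Cfg.rev, union_empty]; exact e))), hv.2⟩,
      dom.imp fun x0 k z hz => k z fun e => hz (M.sub e),
      fun c hc i => (o.g0 hc i).mono h.t le_rfl Subset.rfl,
      fun l hl x hx => (o.cov hl M.sub hx (h.cv l hl).1).imp fun A k => ⟨k.1, fun u hu e =>
        (k.2 u hu e).imp fun f hf => ⟨hf.1, hf.2.trans (h.cv l hl).2⟩⟩⟩
      (fun v => (M.le v).trans ((Gas.kill_le (fun v => by
        unfold Top.bt; split_ifs; exacts [w.Y0, zero_le_one]) _ v).trans (w.b0 v)))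
      h.nt h.ng h.sum h.k0.1 h.k0.2 h.c1 h.c2
  exact ⟨N, _, _, o.gin h.ok.o h.r0 fun M => ⟨_, _, rin M⟩, fun M => ⟨_, rin M⟩,
    fun l u => Or.imp_right fun k => ⟨k.1, k.2⟩⟩

lemma Pk4.loc (h : Pk4 W Gb P0 S' G Q P N Nl K y θ d) (l : ℕ) :
    (sys n T P0 z0).loc l = S'.loc l := by
  induction l with
  | zero => exact (congrFun h.int.2.1 0).symm
  | succ l ih => rw [Sys.loc, Sys.loc, ih, h.int.2.1]; rfl

lemma Pk4.nt' (h : Pk4 W Gb P0 S' G Q P N Nl K y θ d) (hm : m < G.mt) :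
    NT (sys n T P0 z0) P (m + 1) :=
  have e : (sys n T P0 z0).a1 = S'.a1 := h.int.1.symm
  have e' : (sys n T P0 z0).ρ = S'.ρ := h.int.2.1.symm
  ⟨fun _ _ => rfl, e ▸ h.nt.a1, h.nt.η, h.nt.cF, e ▸ h.nt.γ, h.nt.ε,
    fun k hk => e ▸ e' ▸ h.nt.rec' k (by omega),
    fun k hk => ⟨(h.nt.sep k (by omega)).1,
      h.loc k ▸ (h.nt.sep k (by omega)).2.trans (h.int.2.2 k)⟩⟩

lemma Pk4.ni (h : Pk4 W Gb P0 S' G Q P N Nl K y θ d) (hm : m ≤ G.mt) : NI (sys n T P0 z0) Q m :=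
  ⟨h.no.hN, h.no.Lam, fun l hl => On.loc_sys (n := n) (T := T) (z0 := z0) l ▸ h.no.sep l (by omega),
    fun l hl => h.no.Sx l (by omega),
    fun l hl => On.loc_sys (n := n) (T := T) (z0 := z0) l ▸ h.no.H l (by omega)⟩

/-- **F1** (with cover: `On.Tp`). -/
theorem Pk4.f1 (h : Pk4 W Gb P0 S' G Q P N Nl K y θ d) (hm : m < G.mt)
    (top : nc = 0 ∨ On.Tp P0 G.mt Q N m nc R0 R1) (hε : P.ε m ≤ ε)
    (dom : ∀ Z, Sd Z → ∃ x0, ∀ z ∉ kil Z, tdist x0 z ≤ K.rD) :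
    Ld.F1 (ins Gb.ex Gb.ey P0 z0) Gb Sd y d m nc R0 R1 ε :=
  Rs.f1 (h.nt' hm) (h.ni hm.le) (congrFun h.int.2.1 0).symm hm.le
    (top.elim (fun e => e ▸ Nat.zero_le _) (·.2.1))
    (fun e => have t := top.resolve_left e
      ⟨le_rfl, (Nat.mul_le_mul_left _ (Nat.add_le_add_right t.2.2.1 _)).trans (h.np.Rm m hm),
        On.loc_sys (n := n) (T := T) (z0 := z0) m ▸ t.2.2.2⟩) hε fun s F U a =>
    h.has a (top.imp_left fun e => ⟨hm.le, card_eq_zero.1 (by have := a.card; omega)⟩)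
      (dom _ a.sd) U

/-- **N1.** -/
theorem Pk4.n1 (h : Pk4 W Gb P0 S' G Q P N Nl K y θ d) (hm : m < G.mt)
    (hε : (2 * P0.ρ (m + 1) + 1 : ℕ) ^ 3 * P.ε m ≤ ε)
    (dom : ∀ Z, Sd Z → ∃ x0, ∀ z ∉ kil Z, tdist x0 z ≤ K.rD) :
    Ld.N1 (ins Gb.ex Gb.ey P0 z0) Gb Sd y d m ε :=
  Rs.n1 (h.nt' hm) (h.ni hm) (congrFun h.int.2.1 0).symm hm.le hε fun _ a =>
    h.has (R1 := 0) a (.inl ⟨hm, rfl⟩) (dom _ a.sd) ∅

end Crest.Agent.N337.G4.Rs
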