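import Crest.Agent.N337.G4.Speed
import Crest.Agent.N337.A.Sup
import Crest.Agent.N337.A.Geo

/-!
# Row 337, G4 (helper23): from the kill on a time slice to the kill on a cylinder
-/

set_option autoImplicit false
set_option linter.unusedSectionVars false

namespace Crest.Agent.N337.G4.Sp

open Finset Equiv Function Matrix Crest.Agent.N337.Rep Crest.Agent.N337.LY0 Crest.Agent.N337.DL
  Crest.Agent.N337.Arc

section gen
variable {S : Type} [Fintype S] [DecidableEq S]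

/-- one source: the weight of the arc from the source to the sinks. -/
lemma Tm_one (π : Perm S) (t b : S → ℝ) (u : S) : Tm π (Pi.single u 1) t b =
    ∏ c, (1 + pr π b c) + aw π b t (π u) * ∏ c ∈ univ.erase (o π u), (1 + pr π b c) := by
  obtain ⟨P, h1, h2⟩ := Tr_update π (fun v => mv 0 (t v) (b v)) u
  have e : (fun v => mv ((Pi.single u 1 : S → ℝ) v) (t v) (b v)) =
      update (fun v => mv 0 (t v) (b v)) u (mv 1 (t u) (b u)) := by
    funext v; rcases eq_or_ne v u with rfl | h <;> simp [*]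
  have h3 := h2 (mv 0 (t u) (b u))
  rw [update_eq_self u fun v => mv 0 (t v) (b v), Tr_up] at h3
  have h4 : aw π b t (π u) = (mv 0 (t u) (b u) * P) 0 1 := by
    rw [← h1, Pc, Pk_up]; simp [aw]
  rw [Tm, e, Tp, ← mul_prod_erase _ _ (mem_univ (o π u)), h2,
    ← mul_prod_erase univ (fun c => 1 + pr π b c) (mem_univ (o π u)), h3, h4, ← add_mul]
  congr 1
  · simp only [mv, trace_fin_two, mul_apply, Fin.sum_univ_two, of_apply,
      cons_val', cons_val_zero, cons_val_one, cons_val_fin_one]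
    ring
  · refine prod_congr rfl fun c hc => ?_
    rw [← Tr_up π t b c]
    exact Tr_congr π fun v hv => update_of_ne (fun h => ne_of_mem_erase hc (by rw [← hv, h])) _ _

lemma aw_le_one (π : Perm S) {b : S → ℝ} (hb : ∀ v, 0 ≤ b v ∧ b v ≤ 1) (v x : S) :
    aw π b (Pi.single v 1) x ≤ 1 := by
  refine le_trans (sum_le_sum (g := fun j => (Pi.single v 1 : S → ℝ) (π^[j] x)) fun j _ =>
    mul_le_of_le_one_right (by rw [Pi.single_apply]; split_ifs <;> norm_num)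
      (prod_le_one (fun i _ => (hb _).1) fun i _ => (hb _).2)) ?_
  rw [← sum_ob π x (Pi.single v 1 : S → ℝ), sum_pi_single']
  split_ifs <;> norm_num

lemma aw_nonneg (π : Perm S) {b : S → ℝ} (hb : ∀ v, 0 ≤ b v) (v x : S) :
    0 ≤ aw π b (Pi.single v 1) x :=
  sum_nonneg fun j _ => mul_nonneg (by rw [Pi.single_apply]; split_ifs <;> norm_num)
    (prod_nonneg fun i _ => hb _)

end gen

variable {Λ : Type} [Fintype Λ] [DecidableEq Λ] {T : ℕ} [NeZero T] (ex ey : Fin T → Λ)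
variable {p : Fin T → ℝ} {b : Fin T × Λ → ℝ}

/-- the annealed Green function as a sum over arcs. -/
lemma AG_arc (hp : ∀ s, 0 ≤ p s ∧ p s ≤ 1) (hb : Fld b) (v u : Fin T × Λ) :
    RR.AG ex ey p b v u = ∑ ξ, Pw p ξ * (aw (Sg ex ey ξ) b (Pi.single v 1) (Sg ex ey ξ u) *
      ∏ c ∈ univ.erase (o (Sg ex ey ξ) u), (1 + pr (Sg ex ey ξ) b c)) := by
  have h := Ft_two ex ey hp hb u v
  simp only [Ft_eq, Tm_one, mul_add, sum_add_distrib] at h
  exact (add_left_cancel h).symm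

open Classical in
/-- killing points that are dead anyway on a good event. -/
theorem jump_gen (hp : ∀ s, 0 ≤ p s ∧ p s ≤ 1) (hb : Fld b) (O : Finset (Fin T × Λ))
    (Sl : (Fin T → Bool) → Prop) (v u : Fin T × Λ)
    (h1 : ∀ ξ, Sl ξ → ∀ w ∈ O, ∃ k, b ((Sg ex ey ξ)^[k] w) = 0)
    (h2 : ∀ ξ, Sl ξ → ∀ i j, i < j → (Sg ex ey ξ)^[j + 1] u = v → (Sg ex ey ξ)^[i + 1] u ∈ O →
      ∃ k < j, b ((Sg ex ey ξ)^[k + 1] u) = 0) :
    RR.AG ex ey p b v u ≤ RR.AG ex ey p (kill b O) v u +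
      ∑ ξ, Pw p ξ * A.lw ex ey b ξ * if Sl ξ then 0 else 1 := by
  have hb' := hb.kill O
  rw [AG_arc ex ey hp hb, AG_arc ex ey hp hb', ← sum_add_distrib]
  refine sum_le_sum fun ξ _ => ?_
  rw [mul_assoc, ← mul_add]
  refine mul_le_mul_of_nonneg_left ?_ (Pw_nonneg hp ξ)
  set π := Sg ex ey ξ with hπ
  have n1 : ∀ {b : Fin T × Λ → ℝ}, Fld b → 0 ≤ ∏ c ∈ univ.erase (o π u), (1 + pr π b c) :=
    fun hb => prod_nonneg fun c _ => add_nonneg zero_le_one (pr_nonneg (fun v => (hb.mem v).1) c)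
  split_ifs with hS
  · rw [mul_zero, add_zero]
    refine le_of_eq (congrArg₂ _ (sum_congr rfl fun j _ => ?_) (prod_congr rfl fun c _ => ?_))
    · by_cases hv : π^[j] (π u) = v
      · congr 1
        by_cases hO : ∃ i < j, π^[i + 1] u ∈ O
        · obtain ⟨i, hi, hO⟩ := hO
          obtain ⟨k, hk, h0⟩ := h2 ξ hS i j hi hv hO
          exact (prod_eq_zero (mem_range.2 hk) h0).trans
            (prod_eq_zero (f := fun i => kill b O (π^[i] (π u))) (mem_range.2 hi) (if_pos hO)).symm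
        · exact prod_congr rfl fun i hi => (if_neg fun h => hO ⟨i, mem_range.1 hi, h⟩).symm
      · simp [hv]
    · congr 1
      by_cases hO : ∃ w ∈ O, o π w = c
      · obtain ⟨w, hw, rfl⟩ := hO
        obtain ⟨k, hk⟩ := h1 ξ hS w hw
        rw [pr_zero (o_it π k w) hk, pr_zero (a := kill b O) rfl (if_pos hw)]
      · exact pr_congr fun w hw => (if_neg fun h => hO ⟨w, h, hw⟩).symm
  · rw [mul_one, A.lw, ← mul_prod_erase _ _ (mem_univ (o π u))]
    refine le_add_of_nonneg_of_le (mul_nonneg (aw_nonneg π (fun v => (hb'.mem v).1) _ _) (n1 hb'))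
      (mul_le_mul_of_nonneg_right ((aw_le_one π hb.mem _ _).trans (le_add_of_nonneg_right
        (pr_nonneg (fun v => (hb.mem v).1) _))) (n1 hb))

section geo
variable {ex ey} {d : Λ → Λ → ℕ} {W : Fin T × Λ → Prop} {v0 : ℕ} {ξ : Fin T → Bool}

lemma it_val (ξ : Fin T → Bool) (k : ℕ) (a : Fin T × Λ) :
    ((Sg ex ey ξ)^[k] a).1.val = (a.1.val + k) % T := by
  rw [← A.Sg_pow_val (ex := ex) (ey := ey) ξ k a, Perm.coe_pow]

lemma it_step (ξ : Fin T → Bool) (k : ℕ) (a : Fin T × Λ) :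
    ((Sg ex ey ξ)^[k + 1] a).2 = ((Sg ex ey ξ)^[k] a).2 ∨ (ξ ((Sg ex ey ξ)^[k] a).1 = true ∧
      ((Sg ex ey ξ)^[k + 1] a).2 = swap (ex ((Sg ex ey ξ)^[k] a).1) (ey ((Sg ex ey ξ)^[k] a).1)
        ((Sg ex ey ξ)^[k] a).2) := by
  rw [iterate_succ_apply']
  generalize (Sg ex ey ξ)^[k] a = w
  obtain ⟨s, x⟩ := w
  rw [Sg_apply]
  cases h : ξ s <;> simp [sg]

lemma it_one (hd : A.Met ex ey d) (ξ : Fin T → Bool) (k : ℕ) (a : Fin T × Λ) :
    d ((Sg ex ey ξ)^[k] a).2 ((Sg ex ey ξ)^[k + 1] a).2 ≤ 1 := by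
  rcases it_step (ex := ex) (ey := ey) ξ k a with h | ⟨-, h⟩ <;> rw [h]
  · rw [hd.1]; exact zero_le_one
  · rw [swap_apply_def]
    split_ifs with h1 h2
    · exact hd.ends (.inl h1) (.inr rfl)
    · exact hd.ends (.inr h2) (.inl rfl)
    · rw [hd.1]; exact zero_le_one

lemma seg (hS : A.Slow ex ey d (A.Act ex ey d ξ) W v0) (a : Fin T × Λ) {i j : ℕ} (hij : i ≤ j)
    (hj : a.1.val + j ≤ T) (hW : ∀ k, i ≤ k → k < j → W ((Sg ex ey ξ)^[k] a)) :
    d ((Sg ex ey ξ)^[i] a).2 ((Sg ex ey ξ)^[j] a).2 ≤ v0 := by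
  have := hS (a.1.val + i) (a.1.val + j) (fun r => ((Sg ex ey ξ)^[r - a.1.val] a).2) (by omega) hj
    fun r h1 h2 => by
      have e : ((Sg ex ey ξ)^[r.val - a.1.val] a).1 = r := Fin.ext (by
        rw [it_val, show a.1.val + (r.val - a.1.val) = r.val by omega, Nat.mod_eq_of_lt r.2])
      have e2 : r.val + 1 - a.1.val = r.val - a.1.val + 1 := by omega
      refine ⟨?_, ?_⟩
      · have := hW (r.val - a.1.val) (by omega) (by omega)
        rwa [← Prod.mk.eta (p := (Sg ex ey ξ)^[r.val - a.1.val] a), e] at this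
      · have := it_step (ex := ex) (ey := ey) ξ (r.val - a.1.val) a
        rw [e, ← e2] at this
        exact this.imp_right fun h => ⟨.inl h.1, h.2⟩
  simpa only [Nat.add_sub_cancel_left] using this

variable {D : Finset Λ}

lemma fwd (hd : A.Met ex ey d) (hS : A.Slow ex ey d (A.Act ex ey d ξ) W v0)
    (hW : ∀ u, u.2 ∈ A.nbd d (v0 + 1) D → u.2 ∉ D → b u ≠ 0 → W u) {a : Fin T × Λ} (ha : a.2 ∈ D)
    (n : ℕ) (hn : a.1.val + n ≤ T) (hb : ∀ k, 0 < k → k < n → b ((Sg ex ey ξ)^[k] a) ≠ 0) :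
    ((Sg ex ey ξ)^[n] a).2 ∈ A.nbd d (v0 + 1) D := by
  classical
  induction n using Nat.strong_induction_on with
  | _ n ih =>
  set l := Nat.findGreatest (fun k => ((Sg ex ey ξ)^[k] a).2 ∈ D) n with hl
  have h1 : ((Sg ex ey ξ)^[l] a).2 ∈ D :=
    Nat.findGreatest_spec (P := fun k => ((Sg ex ey ξ)^[k] a).2 ∈ D) (Nat.zero_le n) ha
  refine A.mem_nbd.2 ⟨_, h1, ?_⟩
  rcases (Nat.findGreatest_le (P := fun k => ((Sg ex ey ξ)^[k] a).2 ∈ D) n).eq_or_lt with h | h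
  · rw [hl, h, hd.1]; exact Nat.zero_le _
  have h2 := seg hS a (i := l + 1) (j := n) h hn fun k h3 h4 => hW _
    (ih k h4 (by omega) fun k' h5 h6 => hb k' h5 (by omega))
    (Nat.findGreatest_is_greatest (P := fun k => ((Sg ex ey ξ)^[k] a).2 ∈ D) h3 h4.le)
    (hb k (by omega) h4)
  have h3 := it_one hd ξ l a
  have h4 := hd.2.2.1 ((Sg ex ey ξ)^[l] a).2 ((Sg ex ey ξ)^[l + 1] a).2 ((Sg ex ey ξ)^[n] a).2
  rw [hd.2.1]; omega

lemma bwd (hd : A.Met ex ey d) (hS : A.Slow ex ey d (A.Act ex ey d ξ) W v0)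
    (hW : ∀ u, u.2 ∈ A.nbd d (v0 + 1) D → u.2 ∉ D → b u ≠ 0 → W u) (n : ℕ) (a : Fin T × Λ)
    (ha : ((Sg ex ey ξ)^[n] a).2 ∈ D) (hn : a.1.val + n < T)
    (hb : ∀ k, 0 < k → k < n → b ((Sg ex ey ξ)^[k] a) ≠ 0) : a.2 ∈ A.nbd d (v0 + 1) D := by
  classical
  induction n using Nat.strong_induction_on generalizing a with
  | _ n ih =>
  have hex : ∃ k, ((Sg ex ey ξ)^[k] a).2 ∈ D := ⟨n, ha⟩
  have hl := Nat.find_min' hex ha
  refine A.mem_nbd.2 ⟨_, Nat.find_spec hex, ?_⟩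
  rcases Nat.eq_zero_or_pos (Nat.find hex) with h | h
  · rw [h, iterate_zero, id, hd.1]; exact Nat.zero_le _
  have h2 := seg hS a (i := 1) (j := Nat.find hex) h (by omega) fun k h3 h4 => hW _
    (ih (n - k) (by omega) _ (by rwa [← iterate_add_apply, Nat.sub_add_cancel (by omega)])
      (by rw [it_val, Nat.mod_eq_of_lt (by omega)]; omega) fun k' h5 h6 => by
        rw [← iterate_add_apply]; exact hb _ (by omega) (by omega))
    (Nat.find_min hex h4) (hb k (by omega) (by omega))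
  have h3 := it_one hd ξ 0 a
  have h4 := hd.2.2.1 a.2 ((Sg ex ey ξ)^[1] a).2 ((Sg ex ey ξ)^[Nat.find hex] a).2
  rw [iterate_zero, id, zero_add] at h3
  omega

/-- after a visit to `D` the strand dies before it leaves the neighbourhood. -/
lemma dead (hd : A.Met ex ey d) (hS : A.Slow ex ey d (A.Act ex ey d ξ) W v0)
    (hW : ∀ u, u.2 ∈ A.nbd d (v0 + 1) D → u.2 ∉ D → b u ≠ 0 → W u)
    (h0 : ∀ x ∈ A.nbd d (v0 + 1) D, b (0, x) = 0) {a : Fin T × Λ} (ha : a.2 ∈ D) :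
    ∃ k, b ((Sg ex ey ξ)^[k] a) = 0 ∧ ∀ j ≤ k, ((Sg ex ey ξ)^[j] a).2 ∈ A.nbd d (v0 + 1) D := by
  classical
  have h1 : ∃ k ≤ T - a.1.val, b ((Sg ex ey ξ)^[k] a) = 0 := by
    by_contra hc
    push Not at hc
    have ha1 := a.1.2
    have h2 := fwd hd hS hW ha (T - a.1.val) (by omega) fun k _ hk => hc k hk.le
    refine hc _ le_rfl ?_
    have e : ((Sg ex ey ξ)^[T - a.1.val] a).1 = 0 := Fin.ext (by
      rw [it_val, show a.1.val + (T - a.1.val) = T by omega, Nat.mod_self]; rfl)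
    rw [← Prod.mk.eta (p := (Sg ex ey ξ)^[T - a.1.val] a), e]
    exact h0 _ h2
  have h3 := (Nat.find_spec h1).1
  have ha1 := a.1.2
  exact ⟨Nat.find h1, (Nat.find_spec h1).2, fun j hj => fwd hd hS hW ha j (by omega)
    fun k _ hk h => Nat.find_min h1 (m := k) (by omega) ⟨by omega, h⟩⟩

end geo

open Classical in
/-- **JUMP**: a field that vanishes on the time-`0` slice over the neighbourhood of `D` is compared
with the field killed on the cylinder over `D`. -/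
theorem jump (hp : ∀ s, 0 ≤ p s ∧ p s ≤ 1) (hb : Fld b) {d : Λ → Λ → ℕ} (hd : A.Met ex ey d)
    {D : Finset Λ} {v0 : ℕ} {W : Fin T × Λ → Prop}
    (hW : ∀ u, u.2 ∈ A.nbd d (v0 + 1) D → u.2 ∉ D → b u ≠ 0 → W u)
    (h0 : ∀ x ∈ A.nbd d (v0 + 1) D, b (0, x) = 0) {v u : Fin T × Λ}
    (huv : v.2 ∉ A.nbd d (v0 + 1) D ∨ u.2 ∉ A.nbd d (v0 + 1) D) :
    GA ex ey p b v u ≤ GA ex ey p (kill b (A.cyl D)) v u +
      (∑ ξ, Pw p ξ * A.lw ex ey b ξ *
        if A.Slow ex ey d (A.Act ex ey d ξ) W v0 then 0 else 1) / Zt ex ey p b := by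
  have hb' := hb.kill (A.cyl D)
  have hZ := Zt_pos ex ey hp fun v => (hb.mem v).1
  have key := jump_gen ex ey hp hb (A.cyl D) (fun ξ => A.Slow ex ey d (A.Act ex ey d ξ) W v0) v u
    (fun ξ hS w hw => (dead hd hS hW h0 (A.mem_cyl.1 hw)).imp fun _ h => h.1)
    fun ξ hS i j hij hv hO => by
      rw [A.mem_cyl] at hO
      rcases huv with h | h
      · obtain ⟨k, hk, hk'⟩ := dead hd hS hW h0 hO
        refine ⟨k + i, ?_, by rwa [add_assoc, iterate_add_apply]⟩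
        by_contra hc
        have := hk' (j - i) (by omega)
        rw [← iterate_add_apply, show j - i + (i + 1) = j + 1 by omega, hv] at this
        exact h this
      · by_contra hc
        push Not at hc
        by_cases ht : u.1.val + (i + 1) < T
        · exact h (bwd hd hS hW (i + 1) u hO ht fun k h1 h2 => by
            have := hc (k - 1) (by omega); rwa [Nat.sub_add_cancel h1] at this)
        · have hu := u.1.2
          set t := (u.1.val + (i + 1)) % T with htt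
          have t1 : t < T := Nat.mod_lt _ (by omega)
          have t2 := Nat.div_add_mod (u.1.val + (i + 1)) T
          have t3 : T * 1 ≤ T * ((u.1.val + (i + 1)) / T) :=
            Nat.mul_le_mul_left _ ((Nat.le_div_iff_mul_le (by omega)).2 (by omega))
          have e : ((Sg ex ey ξ)^[i - t + 1] u).1 = 0 := Fin.ext (by
            rw [it_val, show u.1.val + (i - t + 1) = T * ((u.1.val + (i + 1)) / T) by omega,
              Nat.mul_mod_right]; rfl)
          have h2 := bwd hd hS hW t ((Sg ex ey ξ)^[i - t + 1] u)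
            (by rwa [← iterate_add_apply, show t + (i - t + 1) = i + 1 by omega])
            (by rw [e]; simpa using t1) fun k h1 h2 => by
              rw [← iterate_add_apply, ← add_assoc]; exact hc _ (by omega)
          refine hc (i - t) (by omega) ?_
          rw [← Prod.mk.eta (p := (Sg ex ey ξ)^[i - t + 1] u), e]
          exact h0 _ h2
  refine (div_le_div_of_nonneg_right key hZ.le).trans ?_
  rw [add_div]
  exact add_le_add (div_le_div_of_nonneg_left (AG_nonneg ex ey hp hb' v u)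
    (Zt_pos ex ey hp fun v => (hb'.mem v).1)
    (Zt_mono ex ey hp (fun v => (hb'.mem v).1) (WN.kill_le (fun v => (hb.mem v).1) _))) le_rfl

/-- **JUMP** with the local fast-chain bound. -/
theorem jump_fast (hp : ∀ s, 0 ≤ p s ∧ p s ≤ 1) (hb : Fld b) {d : Λ → Λ → ℕ} (hd : A.Met ex ey d)
    {D : Finset Λ} {v1 f N : ℕ} {K : ℝ} {W : Fin T × Λ → Prop}
    (hR : A.Rate ex ey d ⟨p, b⟩ (v1 + 2) K) (hS : A.Slow ex ey d (A.Cheap ex ey d ⟨p, b⟩) W v1)
    (hW : ∀ u, u.2 ∈ A.nbd d ((f + 1) * (v1 + 1) + 1) D → u.2 ∉ D → b u ≠ 0 → W u)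
    (hN : (A.nbd d ((f + 1) * (v1 + 1) + 1) D).card ≤ N)
    (h0 : ∀ x ∈ A.nbd d ((f + 1) * (v1 + 1) + 1) D, b (0, x) = 0) {v u : Fin T × Λ}
    (huv : v.2 ∉ A.nbd d ((f + 1) * (v1 + 1) + 1) D ∨ u.2 ∉ A.nbd d ((f + 1) * (v1 + 1) + 1) D) :
    GA ex ey p b v u ≤ GA ex ey p (kill b (A.cyl D)) v u + N * Real.exp (40 * K - f) := by
  classical
  have hM : (⟨p, b⟩ : A.Mdl T Λ).Ok 1 := ⟨hp, hb.mem, fun x => (hb.lt x).le⟩
  have hl : A.Lab (fun (_ : Finset (Fin T × Λ)) (_ : Unit) => (1 : ℝ)) :=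
    ⟨fun _ _ => zero_le_one, fun _ => by simp⟩
  have h := A.fastS ex ey (W := fun u => W u ∧ u.2 ∈ A.nbd d ((f + 1) * (v1 + 1) + 1) D) f hd hM
    zero_le_one hR (hS.mono (fun _ h => h) (fun _ h => h.1) le_rfl) hl (fun _ h => h.2) hN
  refine (jump ex ey hp hb hd (W := fun u => W u ∧ u.2 ∈ A.nbd d ((f + 1) * (v1 + 1) + 1) D)
    (fun u h1 h2 h3 => ⟨hW u h1 h2 h3, h1⟩) h0 huv).trans (add_le_add le_rfl (le_trans
      (le_of_eq ?_) h))
  rw [A.Pb, A.Ev]
  congr 1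
  refine (A.Bs.sum_wt_phi ex ey ⟨p, b⟩ hl _).symm.trans (sum_congr rfl fun ω _ => ?_)
  split_ifs <;> rfl

end Crest.Agent.N337.G4.Sp
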