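import Crest.Agent.N337.G4.Jump

/-!
# Row 337, G4 (helper99): the jump for a source inside the killed zone
-/

set_option autoImplicit false
set_option linter.unusedSectionVars false

namespace Crest.Agent.N337.G4.Sp

open Finset Function Equiv Crest.Agent.N337.Rep Crest.Agent.N337.DL Crest.Agent.N337.Arc

variable {Λ : Type} [Fintype Λ] [DecidableEq Λ] {T : ℕ} [NeZero T] (ex ey : Fin T → Λ)
variable {p : Fin T → ℝ} {b : Fin T × Λ → ℝ}

open Classical in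
/-- an arc from `D` to the outside of the neighbourhood is dead on slow coins. -/
theorem jump0' (hp : ∀ s, 0 ≤ p s ∧ p s ≤ 1) (hb : Fld b) {d : Λ → Λ → ℕ} (hd : A.Met ex ey d)
    {D : Finset Λ} {v0 : ℕ} {W : Fin T × Λ → Prop}
    (hW : ∀ u, u.2 ∈ A.nbd d (v0 + 1) D → u.2 ∉ D → b u ≠ 0 → W u)
    (h0 : ∀ x ∈ A.nbd d (v0 + 1) D, b (0, x) = 0) {v u : Fin T × Λ} (hu : u.2 ∈ D)
    (hv : v.2 ∉ A.nbd d (v0 + 1) D) :
    GA ex ey p b v u ≤ (∑ ξ, Pw p ξ * A.lw ex ey b ξ *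
        if A.Slow ex ey d (A.Act ex ey d ξ) W v0 then 0 else 1) / Zt ex ey p b := by
  refine div_le_div_of_nonneg_right ?_ (Zt_pos ex ey hp fun v => (hb.mem v).1).le
  rw [AG_arc ex ey hp hb]
  refine sum_le_sum fun ξ _ => ?_
  rw [mul_assoc]
  refine mul_le_mul_of_nonneg_left ?_ (Pw_nonneg hp ξ)
  have n1 : 0 ≤ ∏ c ∈ univ.erase (o (Sg ex ey ξ) u), (1 + pr (Sg ex ey ξ) b c) :=
    prod_nonneg fun c _ => add_nonneg zero_le_one (pr_nonneg (fun v => (hb.mem v).1) c)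
  split_ifs with hS
  · rw [mul_zero]
    refine le_of_eq (mul_eq_zero_of_left (sum_eq_zero fun j _ => ?_) _)
    by_cases e : (Sg ex ey ξ)^[j] (Sg ex ey ξ u) = v
    · refine mul_eq_zero_of_right _ ?_
      by_contra hc
      have h1 : ∀ k, 0 < k → k < j + 1 → b ((Sg ex ey ξ)^[k] u) ≠ 0 := fun k a c h =>
        hc (prod_eq_zero (i := k - 1) (mem_range.2 (by omega)) (by
          rwa [← iterate_succ_apply, Nat.succ_eq_add_one, Nat.sub_add_cancel a]))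
      have hu1 := u.1.2
      by_cases ht : u.1.val + (j + 1) ≤ T
      · exact hv (e ▸ fwd hd hS hW hu (j + 1) ht h1)
      · have h2 := fwd hd hS hW hu (T - u.1.val) (by omega) fun k a c => h1 k a (by omega)
        refine h1 (T - u.1.val) (by omega) (by omega) ?_
        have e : ((Sg ex ey ξ)^[T - u.1.val] u).1 = 0 := Fin.ext (by
          rw [it_val, show u.1.val + (T - u.1.val) = T by omega, Nat.mod_self]; rfl)
        rw [← Prod.mk.eta (p := (Sg ex ey ξ)^[T - u.1.val] u), e]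
        exact h0 _ h2
    · simp [e]
  · rw [mul_one, A.lw, ← mul_prod_erase _ _ (mem_univ (o (Sg ex ey ξ) u))]
    exact mul_le_mul_of_nonneg_right ((aw_le_one _ hb.mem _ _).trans (le_add_of_nonneg_right
      (pr_nonneg (fun v => (hb.mem v).1) _))) n1

/-- **JUMP**, source over the killed zone. -/
theorem jump0 (hp : ∀ s, 0 ≤ p s ∧ p s ≤ 1) (hb : Fld b) {d : Λ → Λ → ℕ} (hd : A.Met ex ey d)
    {D : Finset Λ} {v1 f N : ℕ} {K : ℝ} {W : Fin T × Λ → Prop}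
    (hR : A.Rate ex ey d ⟨p, b⟩ (v1 + 2) K) (hS : A.Slow ex ey d (A.Cheap ex ey d ⟨p, b⟩) W v1)
    (hW : ∀ u, u.2 ∈ A.nbd d ((f + 1) * (v1 + 1) + 1) D → u.2 ∉ D → b u ≠ 0 → W u)
    (hN : (A.nbd d ((f + 1) * (v1 + 1) + 1) D).card ≤ N)
    (h0 : ∀ x ∈ A.nbd d ((f + 1) * (v1 + 1) + 1) D, b (0, x) = 0) {v u : Fin T × Λ}
    (hu : u.2 ∈ D) (hv : v.2 ∉ A.nbd d ((f + 1) * (v1 + 1) + 1) D) :
    GA ex ey p b v u ≤ N * Real.exp (40 * K - f) := by
  classical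
  have hM : (⟨p, b⟩ : A.Mdl T Λ).Ok 1 := ⟨hp, hb.mem, fun x => (hb.lt x).le⟩
  have hl : A.Lab (fun (_ : Finset (Fin T × Λ)) (_ : Unit) => (1 : ℝ)) :=
    ⟨fun _ _ => zero_le_one, fun _ => by simp⟩
  have h := A.fastS ex ey (W := fun u => W u ∧ u.2 ∈ A.nbd d ((f + 1) * (v1 + 1) + 1) D) f hd hM
    zero_le_one hR (hS.mono (fun _ h => h) (fun _ h => h.1) le_rfl) hl (fun _ h => h.2) hN
  refine (jump0' ex ey hp hb hd (W := fun u => W u ∧ u.2 ∈ A.nbd d ((f + 1) * (v1 + 1) + 1) D)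
    (fun u h1 h2 h3 => ⟨hW u h1 h2 h3, h1⟩) h0 hu hv).trans (le_trans (le_of_eq ?_) h)
  rw [A.Pb, A.Ev]
  congr 1
  refine (A.Bs.sum_wt_phi ex ey ⟨p, b⟩ hl _).symm.trans (sum_congr rfl fun ω _ => ?_)
  split_ifs <;> rfl

end Crest.Agent.N337.G4.Sp
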