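import Mathlib

/-!
# Row 337, G4 (helper23): the nested induction along un-kill paths (model free)

Members `M` are ordered by killing.  `B M l x c`: the claims of level `l` at `x` hold with bound `c`.
`Cs l`: clean at level `l`; `Cd l d r`: clean at level `l` off the front of radius `r` of the
datum `d`.
-/

set_option autoImplicit false

namespace Crest.Agent.N337.G4.Sp

/-- the data of the nested induction. -/
structure NS (Mem X Dat : Type) where
  /-- `le M' M`: `M'` is more killed than `M`. -/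
  le : Mem → Mem → Prop
  /-- number of levels. -/
  L : ℕ
  B : Mem → ℕ → X → ℝ → Prop
  γ : ℕ → ℝ
  Cs : ℕ → Mem → X → Prop
  Cd : ℕ → Dat → ℕ → Mem → X → Prop
  Val : ℕ → Mem → Dat → Prop
  /-- stage `k` of the un-kill path of the datum `d`. -/
  F : ℕ → Dat → ℕ → Mem → Prop
  /-- stage `k` of the path of the fugacity. -/
  G : ℕ → Mem → Prop
  K : ℕ → ℕ
  ρ : ℕ → ℕ
  σ : ℕ → ℕ
  Δ : ℕ → ℕ

namespace NS

variable {Mem X Dat : Type} (N : NS Mem X Dat)

/-- type `(l0, j)`. -/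
def Ty (j l0 : ℕ) (D : ℕ → Dat) (r : ℕ → ℕ) (M : Mem) (x : X) : Prop :=
  (∀ i, l0 ≤ i → i < j → N.Cs i M x) ∧ ∀ i, j ≤ i → i < N.L → N.Cd i (D i) (r i) M x

/-- admissible data at the levels `≥ l`, with room `s` for the radii. -/
def Ad (l : ℕ) (D : ℕ → Dat) (r : ℕ → ℕ) (s : ℕ) (M : Mem) : Prop :=
  ∀ i, l ≤ i → i < N.L → N.Val i M (D i) ∧ N.ρ i ≤ r i ∧ r i + s ≤ N.σ i

/-- the claims of type `j` with bound `c γ`. -/
def Cl (j : ℕ) (D : ℕ → Dat) (r : ℕ → ℕ) (c : ℝ) (M : Mem) : Prop :=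
  ∀ l0 ≤ j, ∀ x, N.Ty j l0 D r M x → N.B M l0 x (c * N.γ l0)

/-- the hypotheses. -/
structure Ok : Prop where
  refl : ∀ M, N.le M M
  trans : ∀ M M' M'', N.le M'' M' → N.le M' M → N.le M'' M
  γ0 : ∀ l, 0 ≤ N.γ l
  B_mono : ∀ M l x c c', c ≤ c' → N.B M l x c → N.B M l x c'
  Cs_mono : ∀ l M M' x, N.le M' M → N.Cs l M x → N.Cs l M' x
  Cd_mono : ∀ l d r r' M M' x, N.le M' M → r' ≤ r → N.Cd l d r M x → N.Cd l d r' M' x
  Val_mono : ∀ l M M' d, N.le M' M → N.Val l M d → N.Val l M' d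
  F_mono : ∀ l d k M M', N.le M' M → N.F l d k M → N.F l d k M'
  G_mono : ∀ k M M', N.le M' M → N.G k M → N.G k M'
  Δ_le : ∀ l < N.L, (N.K l + 1) * N.Δ l ≤ N.Δ (l + 1)
  σ_ge : ∀ l < N.L, N.ρ l + (N.K l + 1) * N.Δ l ≤ N.σ l
  /-- a clean point has a datum. -/
  pick : ∀ l < N.L, ∀ D r M x, N.Ad (l + 1) D r 0 M → N.Ty (l + 1) l D r M x →
    ∃ d, N.Val l M d ∧ N.Cd l d (N.σ l) M x
  /-- when the datum is killed, points off the front are clean. -/
  start : ∀ l < N.L, ∀ d M x, N.F l d 0 M → N.Val l M d → N.Cd l d (N.ρ l) M x → N.Cs l M x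
  /-- jump and drift. -/
  step : ∀ l < N.L, ∀ d, ∀ k < N.K l, ∀ M, N.F l d (k + 1) M → N.Val l M d →
    ∃ M', N.le M' M ∧ N.F l d k M' ∧ ∀ l0 ≤ l, ∀ x c, N.Cd l d (N.ρ l) M x →
      N.B M' l0 x c → N.B M l0 x (c + N.γ l0)
  last : ∀ l < N.L, ∀ d M, N.F l d (N.K l) M
  /-- the reset step. -/
  reset : ∀ l ≤ N.L, ∀ D r M, N.Ad l D r (N.Δ l) M → (∀ j, l ≤ j → j ≤ N.L → N.Cl j D r 2 M) →
    ∀ x, N.Ty l l D (fun i => r i + N.Δ l) M x → N.B M l x (N.γ l)
  /-- no red loops. -/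
  base : ∀ M, N.G 0 M → ∀ l0 ≤ N.L, ∀ x, (∀ i, l0 ≤ i → i < N.L → N.Cs i M x) →
    N.B M l0 x (2 * N.γ l0)
  stepG : ∀ k < N.K N.L, ∀ M, N.G (k + 1) M → ∃ M', N.le M' M ∧ N.G k M' ∧
    ∀ l0 ≤ N.L, ∀ x c, N.B M' l0 x c → N.B M l0 x (c + N.γ l0)
  lastG : ∀ M, N.G (N.K N.L) M

variable {N}

lemma Ty.mono (h : N.Ok) {j l0 : ℕ} {D : ℕ → Dat} {r r' : ℕ → ℕ} {M M' : Mem} {x : X}
    (t : N.Ty j l0 D r M x) (hM : N.le M' M) (hr : ∀ i, j ≤ i → i < N.L → r' i ≤ r i) :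
    N.Ty j l0 D r' M' x :=
  ⟨fun i a b => h.Cs_mono _ _ _ _ hM (t.1 i a b),
    fun i a b => h.Cd_mono _ _ _ _ _ _ _ hM (hr i a b) (t.2 i a b)⟩

lemma Cl.mono (h : N.Ok) {j : ℕ} {D : ℕ → Dat} {r r' : ℕ → ℕ} {c : ℝ} {M : Mem}
    (t : N.Cl j D r c M) (hr : ∀ i, j ≤ i → i < N.L → r i ≤ r' i) : N.Cl j D r' c M :=
  fun l0 h0 x hx => t l0 h0 x (hx.mono h (h.refl M) hr)

lemma Cl.two (h : N.Ok) {j : ℕ} {D : ℕ → Dat} {r : ℕ → ℕ} {M : Mem} (t : N.Cl j D r 1 M) :
    N.Cl j D r 2 M := fun l0 h0 x hx =>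
  h.B_mono _ _ _ _ _ (by linarith [h.γ0 l0]) (t l0 h0 x hx)

/-- the self-improvement at level `l`. -/
def GS (N : NS Mem X Dat) (l : ℕ) : Prop :=
  ∀ D r M, N.Ad l D r (N.Δ l) M → (∀ M', N.le M' M → ∀ j, l ≤ j → j ≤ N.L → N.Cl j D r 2 M') →
    N.Cl l D (fun i => r i + N.Δ l) 1 M

/-- the un-kill path of the datum of level `l`. -/
lemma path (h : N.Ok) {l : ℕ} (hl : l < N.L) (gs : N.GS l) {D : ℕ → Dat} {r : ℕ → ℕ} {M : Mem}
    (hA : N.Ad l D r ((N.K l + 1) * N.Δ l) M)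
    (hH : ∀ M', N.le M' M → ∀ j, l < j → j ≤ N.L → N.Cl j D r 2 M') :
    N.Cl l D (fun i => r i + (N.K l + 1) * N.Δ l) 1 M := by
  have up : ∀ k ≤ N.K l, (∀ M', N.le M' M → N.F l (D l) k M' →
      N.Cl l D (fun i => r i + k * N.Δ l) 2 M') → ∀ M', N.le M' M → N.F l (D l) k M' →
      N.Cl l D (fun i => r i + (k + 1) * N.Δ l) 1 M' := fun k hk H M' hM hF => by
    refine (gs D (fun i => r i + k * N.Δ l) M' (fun i a b => ?_) fun M'' hM' j a b => ?_).mono h
      fun i _ _ => le_of_eq (by ring)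
    · obtain ⟨a1, a2, a3⟩ := hA i a b
      refine ⟨h.Val_mono _ _ _ _ hM a1, a2.trans (Nat.le_add_right _ _), le_trans ?_ a3⟩
      nlinarith
    · rcases a.eq_or_lt with rfl | a
      · exact H M'' (h.trans _ _ _ hM' hM) (h.F_mono _ _ _ _ _ hM' hF)
      · exact (hH M'' (h.trans _ _ _ hM' hM) j a b).mono h fun i _ _ => Nat.le_add_right _ _
  obtain ⟨v1, v2, -⟩ := hA l le_rfl hl
  have key : ∀ k ≤ N.K l, ∀ M', N.le M' M → N.F l (D l) k M' →
      N.Cl l D (fun i => r i + k * N.Δ l) 2 M' := fun k hk => by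
    induction k with
    | zero =>
      intro M' hM hF l0 h0 x hx
      refine hH M' hM (l + 1) l.lt_succ_self hl l0 (by omega) x ⟨fun i a b => ?_, fun i a b => ?_⟩
      · rcases (Nat.le_of_lt_succ b).eq_or_lt with rfl | b
        · exact h.start _ hl _ _ _ hF (h.Val_mono _ _ _ _ hM v1)
            (h.Cd_mono _ _ _ _ _ _ _ (h.refl _) (v2.trans (Nat.le_add_right _ _)) (hx.2 i le_rfl hl))
        · exact hx.1 i a b
      · simpa using hx.2 i (by omega) b
    | succ k ih =>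
      intro M' hM hF l0 h0 x hx
      obtain ⟨M'', a1, a2, a3⟩ := h.step l hl _ k hk M' hF (h.Val_mono _ _ _ _ hM v1)
      have := up k (by omega) (ih (by omega)) M'' (h.trans _ _ _ a1 hM) a2 l0 h0 x
        (hx.mono h a1 fun _ _ _ => le_rfl)
      exact h.B_mono _ _ _ _ _ (by linarith) (a3 l0 h0 x _
        (h.Cd_mono _ _ _ _ _ _ _ (h.refl _) (v2.trans (Nat.le_add_right _ _)) (hx.2 l le_rfl hl)) this)
  exact up _ le_rfl (key _ le_rfl) M (h.refl M) (h.last l hl _ _)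

lemma gs (h : N.Ok) : ∀ l ≤ N.L, N.GS l := by
  have diag : ∀ l ≤ N.L, ∀ D r M, N.Ad l D r (N.Δ l) M →
      (∀ M', N.le M' M → ∀ j, l ≤ j → j ≤ N.L → N.Cl j D r 2 M') →
      ∀ x, N.Ty l l D (fun i => r i + N.Δ l) M x → N.B M l x (1 * N.γ l) :=
    fun l hl D r M hA hH x hx => by
      rw [one_mul]; exact h.reset l hl D r M hA (hH M (h.refl M)) x hx
  intro l hl
  induction l with
  | zero =>
    intro D r M hA hH l0 h0 x hx
    obtain rfl := Nat.le_zero.1 h0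
    exact diag 0 hl D r M hA hH x hx
  | succ l ih =>
    intro D r M hA hH l0 h0 x hx
    rcases h0.eq_or_lt with rfl | h0
    · exact diag _ hl D r M hA hH x hx
    obtain ⟨d, d1, d2⟩ := h.pick l hl D (fun i => r i + N.Δ (l + 1)) M x
      (fun i a b => ⟨(hA i a b).1, (hA i a b).2.1.trans (Nat.le_add_right _ _), (hA i a b).2.2⟩)
      ⟨fun i a b => hx.1 i (by omega) b, hx.2⟩
    have e1 : ∀ i, l < i → Function.update D l d i = D i := fun i hi => Function.update_of_ne hi.ne' _ _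
    have e2 : ∀ i, l < i → Function.update r l (N.ρ l) i = r i :=
      fun i hi => Function.update_of_ne hi.ne' _ _
    have s1 := h.Δ_le l hl
    have s2 := h.σ_ge l hl
    refine path h hl (ih (by omega)) (D := Function.update D l d) (r := Function.update r l (N.ρ l))
      (fun i a b => ?_) (fun M' hM j a b l1 h1 y hy => hH M' hM j a b l1 h1 y
        ⟨hy.1, fun i a' b' => ?_⟩) l0 (by omega) x ⟨fun i a b => hx.1 i a (by omega), fun i a b => ?_⟩
    · rcases a.eq_or_lt with rfl | a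
      · simpa using ⟨d1, s2⟩
      · rw [e1 i a, e2 i a]
        obtain ⟨a1, a2, a3⟩ := hA i a b
        exact ⟨a1, a2, by omega⟩
    · have := hy.2 i a' b'
      rwa [e1 i (by omega), e2 i (by omega)] at this
    · rcases a.eq_or_lt with rfl | a
      · simpa using h.Cd_mono _ _ _ _ _ _ _ (h.refl _) s2 d2
      · rw [e1 i a]
        exact h.Cd_mono _ _ _ _ _ _ _ (h.refl _) (by dsimp only; rw [e2 i a]; omega) (hx.2 i a b)

/-- **NEST**, clean points. -/
theorem top (h : N.Ok) (D : ℕ → Dat) (r : ℕ → ℕ) (M : Mem) : N.Cl N.L D r 1 M := by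
  have up : ∀ k, (∀ M', N.G k M' → N.Cl N.L D r 2 M') → ∀ M', N.G k M' → N.Cl N.L D r 1 M' :=
    fun k H M' hG l0 h0 x hx => gs h _ le_rfl D r M' (fun i a b => absurd b (by omega))
      (fun M'' hM j a b => by
        obtain rfl := a.antisymm b
        exact H M'' (h.G_mono _ _ _ hM hG)) l0 h0 x ⟨hx.1, fun i a b => absurd b (by omega)⟩
  have key : ∀ k ≤ N.K N.L, ∀ M', N.G k M' → N.Cl N.L D r 2 M' := fun k hk => by
    induction k with
    | zero => exact fun M' hG l0 h0 x hx => h.base M' hG l0 h0 x hx.1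
    | succ k ih =>
      intro M' hG l0 h0 x hx
      obtain ⟨M'', a1, a2, a3⟩ := h.stepG k hk M' hG
      exact h.B_mono _ _ _ _ _ (by linarith) (a3 l0 h0 x _
        (up k (ih (by omega)) M'' a2 l0 h0 x (hx.mono h a1 fun _ _ _ => le_rfl)))
  exact up _ (key _ le_rfl) M (h.lastG M)

/-- **NEST**, all types: radii `ρ i + ∑_{t ≤ i} Δ (t + 1)` suffice. -/
theorem all (h : N.Ok) {R : ℕ → ℕ} (hR : ∀ i < N.L, N.ρ i + ∑ t ∈ Finset.range (i + 1), N.Δ (t + 1) ≤
      R i ∧ R i ≤ N.σ i) {j : ℕ} (hj : j ≤ N.L) {D : ℕ → Dat} {M : Mem}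
    (hV : ∀ i, j ≤ i → i < N.L → N.Val i M (D i)) : N.Cl j D R 1 M := by
  have key : ∀ n j, j + n = N.L → ∀ M, (∀ i, j ≤ i → i < N.L → N.Val i M (D i)) →
      ∀ j', j ≤ j' → j' ≤ N.L →
        N.Cl j' D (fun i => N.ρ i + ∑ t ∈ Finset.Ico j (i + 1), N.Δ (t + 1)) 1 M := by
    intro n
    induction n with
    | zero =>
      intro j e M _ j' a b
      obtain rfl : j' = N.L := by omega
      exact top h _ _ M
    | succ n ih =>
      intro j e M hV j' a b
      have hl : j < N.L := by omega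
      have sp : ∀ i, j ≤ i → ∑ t ∈ Finset.Ico j (i + 1), N.Δ (t + 1) =
          N.Δ (j + 1) + ∑ t ∈ Finset.Ico (j + 1) (i + 1), N.Δ (t + 1) :=
        fun i hi => Finset.sum_eq_sum_Ico_succ_bot (by omega) _
      have s1 := h.Δ_le j hl
      rcases a.eq_or_lt with rfl | a
      · refine (path h hl (gs h j hl.le)
          (r := fun i => N.ρ i + ∑ t ∈ Finset.Ico (j + 1) (i + 1), N.Δ (t + 1)) (fun i a' b' => ?_)
          fun M' hM j' a' b' => (ih (j + 1) (by omega) M' (fun i a b =>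
            h.Val_mono _ _ _ _ hM (hV i (by omega) b)) j' a' b').two h).mono h fun i a' _ => ?_
        · refine ⟨hV i a' b', Nat.le_add_right _ _, ?_⟩
          have := Finset.sum_le_sum_of_subset (f := fun t => N.Δ (t + 1))
            (show Finset.Ico j (i + 1) ⊆ Finset.range (i + 1) from fun t ht =>
              Finset.mem_range.2 (Finset.mem_Ico.1 ht).2)
          have := sp i a'
          have := hR i b'
          dsimp only
          omega
        · have := sp i a'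
          omega
      · refine (ih (j + 1) (by omega) M (fun i a b => hV i (by omega) b) j' a b).mono h
          fun i a' _ => ?_
        have := sp i (by omega)
        omega
  refine (key (N.L - j) j (by omega) M hV j le_rfl hj).mono h fun i a b => ?_
  have := Finset.sum_le_sum_of_subset (f := fun t => N.Δ (t + 1))
    (show Finset.Ico j (i + 1) ⊆ Finset.range (i + 1) from fun t ht =>
      Finset.mem_range.2 (Finset.mem_Ico.1 ht).2)
  have := hR i b
  omega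

end NS

end Crest.Agent.N337.G4.Sp
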