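import Crest.Agent.N337.G4.Prob

/-!
# Row 337, G4 (helper4): the annealed Green function for sources that may be killed
-/

set_option autoImplicit false
set_option linter.unusedSectionVars false

namespace Crest.Agent.N337.G4

open Finset Equiv Matrix Crest.Agent.N337.Rep Crest.Agent.N337.LY0
open Crest.Agent.N337.RR (red)
open Crest.Agent.N337.Arc (Fld kill)
open Crest.Agent.N337.WN (Gi Gc)

variable {Λ : Type} [Fintype Λ] [DecidableEq Λ] {T : ℕ} [NeZero T] (ex ey : Fin T → Λ)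

/-- `u'` is a possible successor of `u`. -/
def Nx (u u' : Fin T × Λ) : Prop :=
  u'.1 = u.1 + 1 ∧ (u'.2 = u.2 ∨ u'.2 = swap (ex u.1) (ey u.1) u.2)

variable {ex ey} {p : Fin T → ℝ} {b b' : Fin T × Λ → ℝ} {ξ : Fin T → Bool} {ω : Rep.Env T Λ}

lemma mul_Kb (M : Matrix (Fin T × Λ) (Fin T × Λ) ℝ) (p : Fin T → ℝ) (v u : Fin T × Λ) :
    (M * Kb ex ey p) v u = (1 - p u.1) * M v (u.1 + 1, u.2) +
      p u.1 * M v (u.1 + 1, swap (ex u.1) (ey u.1) u.2) := by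
  obtain ⟨s, x⟩ := u
  rw [mul_apply, Fintype.sum_prod_type, sum_eq_single (s + 1)]
  · simp only [Kb_apply, if_true, mul_add, sum_add_distrib, mul_ite, mul_one, mul_zero, sum_ite_eq',
      mem_univ]
    ring
  · intro r _ hr
    simp [Kb_apply, hr]
  · simp

lemma Ge_le_Nx (hp : ∀ s, 0 ≤ p s ∧ p s ≤ 1) (hb : Fld b) (hb' : Fld b') (hle : ∀ v, b v ≤ b' v)
    (h0 : Pw p ξ ≠ 0) (hi : ∀ v, ω (Sg ex ey ξ v) = ω v) {v u : Fin T × Λ} {γ : ℝ}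
    (h : ∀ u', Nx ex ey u u' → Gc ex ey p b' (red ω) ξ v u' ≤ γ) : DL.Ge ex ey p b ω v u ≤ γ := by
  have hq := th_mem ex ey hp ω
  have k : Fld (zg b ω) := zg_eq_kill b ω ▸ hb.kill _
  have k' : Fld (zg b' ω) := zg_eq_kill b' ω ▸ hb'.kill _
  have e : ∀ u', Nx ex ey u u' → Gi ex ey (th ex ey p ω) (zg b ω) v u' ≤ γ := fun u' hu =>
    (WN.Gi_mono ex ey hq k k' (fun z => by
      unfold zg; split_ifs; exacts [hle z, le_rfl]) v u').trans (by rw [Gi_eq_Gc h0 hi]; exact h u' hu)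
  rw [DL.Ge, mul_Kb]
  have e1 := mul_le_mul_of_nonneg_left (e (u.1 + 1, u.2) ⟨rfl, .inl rfl⟩) (sub_nonneg.2 (hq u.1).2)
  have e2 := mul_le_mul_of_nonneg_left (e (u.1 + 1, _) ⟨rfl, .inr rfl⟩) (hq u.1).1
  linarith

/-- **annealed Green function**, no condition on the field at the source. -/
theorem annN (hp : ∀ s, 0 ≤ p s ∧ p s ≤ 1) (hb : Fld b) (hb' : Fld b') (hle : ∀ v, b v ≤ b' v)
    {Bad : CR T Λ → Prop} (hB : ∀ ξ R R', R ⊆ R' → Bad (ξ, R) → Bad (ξ, R')) {v u : Fin T × Λ}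
    {γ : ℝ} (hγ : 0 ≤ γ) (h : ∀ ω, Pos ex ey p b ω → ¬ Bad ω → v ∉ ω.2 → u ∉ ω.2 →
      ∀ u', Nx ex ey u u' → Gc ex ey p b' ω.2 ω.1 v u' ≤ γ) :
    Sp.GA ex ey p b v u ≤ γ + PR ex ey p b Bad := by
  have key := RR.ann Λ T ex ey p b hp hb.mem hb.lt (fun ξ R => (∃ v ∈ R, b v = 0) ∨ Bad (ξ, R))
    (fun ξ R R' k => Or.imp (fun ⟨v, k1, k2⟩ => ⟨v, k k1, k2⟩) (hB ξ R R' k)) v u γ hγ
    fun ξ ω k1 k2 k3 k4 k5 => Ge_le_Nx hp hb hb' hle k1 k2 (by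
      rw [not_or] at k3
      exact h (ξ, red ω) ⟨RR.cmp_of k1 k2, fun z hz e => k3.1 ⟨z, hz, e⟩⟩ k3.2
        (by simp [RR.mem_red, k4]) (by simp [RR.mem_red, k5]))
  rw [Sp.GA_le_iff ex ey hp hb, add_mul]
  refine key.trans (add_le_add le_rfl ?_)
  exact (PR_le_iff hp hb.mem (A := fun ω => (∃ v ∈ ω.2, b v = 0) ∨ Bad ω)).1
    (PR_mono hp hb.mem fun ω k1 k2 => k2.resolve_left fun ⟨v, k3, k4⟩ => k1.2 v k3 k4)

end Crest.Agent.N337.G4
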