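import Crest.Agent.N337.G4.Jump0
import Crest.Agent.N337.G4.Nest

/-!
# Row 337, G4 (helper23): members and un-kill paths; the analytic fields of `NS.Ok`
-/

set_option autoImplicit false
set_option linter.unusedSectionVars false

namespace Crest.Agent.N337.G4.Sp

open Finset Crest.Agent.N337.Rep Crest.Agent.N337.DL Crest.Agent.N337.Arc

variable {Λ X : Type} [Fintype Λ] [DecidableEq Λ] [DecidableEq X] {T : ℕ} [NeZero T]

/-- members: more killed sites, smaller field (`st` = site of a slot). -/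
structure Mem (st : Λ → X) (b0 : Fin T × Λ → ℝ) (Z0 : Finset X) where
  Z : Finset X
  b : Fin T × Λ → ℝ
  sub : Z0 ⊆ Z
  nn : ∀ v, 0 ≤ b v
  le : ∀ v, b v ≤ b0 v
  dead : ∀ v, st v.2 ∈ Z → b v = 0

/-- the slots over a set of sites. -/
def slots (st : Λ → X) (Z : Finset X) : Finset Λ := univ.filter fun y => st y ∈ Z

/-- geometric data; the junk predicates only depend on the killed set. -/
structure GD (T : ℕ) (Λ X Dat : Type) where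
  L : ℕ
  γ : ℕ → ℝ
  /-- `Pr l Z x v u o`: the pair (target `v`, source `u`) is claimed at `x` with offset `o`. -/
  Pr : ℕ → Finset X → X → Fin T × Λ → Fin T × Λ → ℝ → Prop
  Cs : ℕ → Finset X → X → Prop
  Cd : ℕ → Dat → ℕ → Finset X → X → Prop
  Val : ℕ → Finset X → Dat → Prop
  /-- the sites killed with a datum -/
  kz : ℕ → Dat → Finset X
  K : ℕ → ℕ
  ρ : ℕ → ℕ
  σ : ℕ → ℕ
  Δ : ℕ → ℕ
  /-- speed of the cheap steps, number of expensive steps, size of the slice -/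
  v : ℕ → ℕ
  f : ℕ → ℕ
  Nn : ℕ → ℕ

variable {Dat : Type} (ex ey : Fin T → Λ) (p : Fin T → ℝ) (st : Λ → X) (b0 : Fin T × Λ → ℝ)
  (Z0 : Finset X) (d : Λ → Λ → ℕ) (g : GD T Λ X Dat)

namespace GD

/-- the neighbourhood of the killed zone. -/
def Dp (l : ℕ) (a : Dat) : Finset Λ :=
  A.nbd d ((g.f l + 1) * (g.v l + 1) + 1) (slots st (g.kz l a))

/-- the claims of level `l` at `x`. -/
def Bd (M : Mem st b0 Z0) (l : ℕ) (x : X) (c : ℝ) : Prop :=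
  ∀ v u o, g.Pr l M.Z x v u o → GA ex ey p M.b v u ≤ c + o

/-- the nested system (`u l` = ladder of level `l`). -/
def ns (u : ℕ → ℕ → ℝ) : NS (Mem st b0 Z0) X Dat where
  le M' M := M.Z ⊆ M'.Z ∧ ∀ v, M'.b v ≤ M.b v
  L := g.L
  B M l x c := 0 ≤ c ∧ g.Bd ex ey p st b0 Z0 M l x c
  γ := g.γ
  Cs l M := g.Cs l M.Z
  Cd l a r M := g.Cd l a r M.Z
  Val l M := g.Val l M.Z
  F l a k M := match k with
    | 0 => g.kz l a ⊆ M.Z
    | k + 1 => ∀ y ∈ g.Dp st d l a, M.b (0, y) ≤ u l k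
  G k M := ∀ y, M.b (0, y) ≤ u g.L k
  K l := if l < g.L then g.K l + 2 else g.K l + 1
  ρ := g.ρ
  σ := g.σ
  Δ := g.Δ

/-- type `(l0, j)` for a killed set. -/
def Ty (j l0 : ℕ) (D : ℕ → Dat) (r : ℕ → ℕ) (Z : Finset X) (x : X) : Prop :=
  (∀ i, l0 ≤ i → i < j → g.Cs i Z x) ∧ ∀ i, j ≤ i → i < g.L → g.Cd i (D i) (r i) Z x

/-- admissible data. -/
def Ad (l : ℕ) (D : ℕ → Dat) (r : ℕ → ℕ) (s : ℕ) (Z : Finset X) : Prop :=
  ∀ i, l ≤ i → i < g.L → g.Val i Z (D i) ∧ g.ρ i ≤ r i ∧ r i + s ≤ g.σ i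

/-- the hypotheses (`Kr` = rate constant). -/
structure Ok (Kr : ℕ → ℝ) : Prop where
  hp : ∀ s, 0 ≤ p s ∧ p s ≤ 1
  hb : Fld b0
  hd : A.Met ex ey d
  γ_pos : ∀ l, 0 < g.γ l ∧ g.γ l ≤ 3
  γ_anti : Antitone g.γ
  Pr_mono : ∀ l Z Z' x v u κ, Z ⊆ Z' → (st v.2 ∈ Z' → st v.2 ∈ Z) → (st u.2 ∈ Z' → st u.2 ∈ Z) →
    g.Pr l Z x v u κ → g.Pr l Z' x v u κ
  Pr_pos : ∀ l Z x v u κ, g.Pr l Z x v u κ → 0 ≤ κ
  Cs_mono : ∀ l Z Z' x, Z ⊆ Z' → g.Cs l Z x → g.Cs l Z' x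
  Cd_mono : ∀ l a r r' Z Z' x, Z ⊆ Z' → r' ≤ r → g.Cd l a r Z x → g.Cd l a r' Z' x
  Val_mono : ∀ l Z Z' a, Z ⊆ Z' → g.Val l Z a → g.Val l Z' a
  Δ_le : ∀ l < g.L, (g.K l + 3) * g.Δ l ≤ g.Δ (l + 1)
  σ_ge : ∀ l < g.L, g.ρ l + (g.K l + 3) * g.Δ l ≤ g.σ l
  lad : ∀ l ≤ g.L, 3 * (g.Nn l : ℝ) ≤ g.γ l * Real.exp (g.γ l * g.K l / 6)
  top : Fintype.card Λ ≤ g.Nn g.L
  fast : ∀ l < g.L, g.Nn l * Real.exp (40 * Kr l - g.f l) ≤ g.γ l
  rate : ∀ l < g.L, A.Rate ex ey d ⟨p, b0⟩ (g.v l + 2) (Kr l)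
  card : ∀ l < g.L, ∀ Z a, Z0 ⊆ Z → g.Val l Z a → (g.Dp st d l a).card ≤ g.Nn l
  slow : ∀ l < g.L, ∀ Z a, Z0 ⊆ Z → g.Val l Z a → A.Slow ex ey d (A.Cheap ex ey d ⟨p, b0⟩)
    (fun u => u.2 ∈ g.Dp st d l a ∧ st u.2 ∉ g.kz l a ∧ st u.2 ∉ Z ∧ b0 u ≠ 0) (g.v l)
  far : ∀ l < g.L, ∀ Z a x, Z0 ⊆ Z → g.Val l Z a → g.Cd l a (g.ρ l) Z x → ∀ l0 ≤ l, ∀ v u κ,
    g.Pr l0 Z x v u κ → v.2 ∉ g.Dp st d l a
  pick : ∀ l < g.L, ∀ D r Z x, Z0 ⊆ Z → g.Ad (l + 1) D r 0 Z → g.Ty (l + 1) l D r Z x →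
    ∃ a, g.Val l Z a ∧ g.Cd l a (g.σ l) Z x
  start : ∀ l < g.L, ∀ a Z x, Z0 ⊆ Z → g.kz l a ⊆ Z → g.Val l Z a → g.Cd l a (g.ρ l) Z x →
    g.Cs l Z x
  reset : ∀ l ≤ g.L, ∀ D r (M : Mem st b0 Z0), g.Ad l D r (g.Δ l) M.Z →
    (∀ j, l ≤ j → j ≤ g.L → ∀ l0 ≤ j, ∀ x, g.Ty j l0 D r M.Z x →
      g.Bd ex ey p st b0 Z0 M l0 x (2 * g.γ l0)) →
    ∀ x, g.Ty l l D (fun i => r i + g.Δ l) M.Z x → g.Bd ex ey p st b0 Z0 M l x (g.γ l)
  base : ∀ l ≤ g.L, ∀ D r (M : Mem st b0 Z0), (∀ y, M.b (0, y) = 0) → g.Ad l D r (g.Δ l) M.Z →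
    ∀ x, g.Ty l l D (fun i => r i + g.Δ l) M.Z x → g.Bd ex ey p st b0 Z0 M l x (2 * g.γ l)

variable {ex ey p st b0 Z0 d g} {Kr : ℕ → ℝ}

lemma _root_.Crest.Agent.N337.G4.Sp.Mem.fld (M : Mem st b0 Z0) (hb : Fld b0) : Fld M.b :=
  fld_of_le hb M.nn M.le

/-- a drift step on the time-`0` slice over `P`. -/
lemma drift (h : g.Ok ex ey p st b0 Z0 d Kr) (M : Mem st b0 Z0) {P : Finset Λ} {l N : ℕ}
    (hN : P.card ≤ N) {a a' : ℝ} (h0 : 0 ≤ a) (h1 : a ≤ a') (h2 : a' ≤ 1)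
    (h3 : 3 * (N : ℝ) * (a' - a) ≤ g.γ l ∨ (a' < 1 ∧ 3 * (a' - a) ≤ g.γ l * (1 - a')))
    (hM : ∀ y ∈ P, M.b (0, y) ≤ a') : ∃ M' : Mem st b0 Z0, (M.Z ⊆ M'.Z ∧ ∀ v, M'.b v ≤ M.b v) ∧
      (∀ y ∈ P, M'.b (0, y) ≤ a) ∧ ∀ l0 ≤ l, ∀ x c, g.Bd ex ey p st b0 Z0 M' l0 x c →
        g.Bd ex ey p st b0 Z0 M l0 x (c + g.γ l0) := by
  obtain ⟨b', f1, f2, f3, -, f5⟩ := speed_mem ex ey (P := P.image fun y => ((0 : Fin T), y))
    (γ := g.γ l) h.hp (M.fld h.hb) h0 h1 h2 (fun v hv => by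
      obtain ⟨y, hy, rfl⟩ := mem_image.1 hv; exact hM y hy) (h3.imp_left fun h3 => le_trans
        (mul_le_mul_of_nonneg_right (mul_le_mul_of_nonneg_left
          (Nat.cast_le.2 (card_image_le.trans hN)) (by norm_num)) (sub_nonneg.2 h1)) h3)
  refine ⟨⟨M.Z, b', M.sub, fun v => (f1.mem v).1, fun v => (f2 v).trans (M.le v),
    fun v hv => le_antisymm (M.dead v hv ▸ f2 v) (f1.mem v).1⟩, ⟨Subset.rfl, f2⟩,
    fun y hy => f3 _ (mem_image_of_mem _ hy), fun l0 hl x c hc v u κ hP => ?_⟩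
  have a1 : GA ex ey p b' v u ≤ c + κ := hc v u κ hP
  have a2 := (abs_le.1 (f5 v u)).2
  have a3 := h.γ_anti hl
  linarith

/-- data at all levels for a clean point. -/
lemma data (h : g.Ok ex ey p st b0 Z0 d Kr) (a : Dat) {Z : Finset X} (hZ : Z0 ⊆ Z) {x : X} (n : ℕ) :
    ∀ j, j + n = g.L → (∀ i, j ≤ i → i < g.L → g.Cs i Z x) →
      ∃ D : ℕ → Dat, ∀ i, j ≤ i → i < g.L → g.Val i Z (D i) ∧ g.Cd i (D i) (g.σ i) Z x := by
  induction n with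
  | zero => exact fun j e _ => ⟨fun _ => a, fun i a b => absurd b (by omega)⟩
  | succ n ih =>
    intro j e hx
    obtain ⟨D, hD⟩ := ih (j + 1) (by omega) fun i a b => hx i (by omega) b
    obtain ⟨c, c1⟩ := h.pick j (by omega) D g.σ Z x hZ
      (fun i a b => ⟨(hD i a b).1, le_trans (Nat.le_add_right _ _) (h.σ_ge i b), le_rfl⟩)
      ⟨fun i a b => hx i a (by omega), fun i a b => (hD i a b).2⟩
    refine ⟨Function.update D j c, fun i a b => ?_⟩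
    rcases a.eq_or_lt with rfl | a
    · simpa using c1
    · rw [Function.update_of_ne a.ne']; exact hD i a b

lemma Δ_mono (h : g.Ok ex ey p st b0 Z0 d Kr) {l i : ℕ} (h1 : l ≤ i) (h2 : i ≤ g.L) :
    g.Δ l ≤ g.Δ i := by
  induction i, h1 using Nat.le_induction with
  | base => exact le_rfl
  | succ i _ ih =>
    exact (ih (by omega)).trans ((Nat.le_mul_of_pos_left _ (by omega)).trans (h.Δ_le i h2))

theorem ns_ok (h : g.Ok ex ey p st b0 Z0 d Kr) (a0 : Dat) :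
    ∃ u, (g.ns ex ey p st b0 Z0 d u).Ok := by
  have hu : ∀ l, ∃ u : ℕ → ℝ, l ≤ g.L → u 0 = 0 ∧ u (g.K l + 1) = 1 ∧ ∀ k ≤ g.K l, 0 ≤ u k ∧
      u k ≤ u (k + 1) ∧ u (k + 1) ≤ 1 ∧ (3 * (g.Nn l : ℝ) * (u (k + 1) - u k) ≤ g.γ l ∨
        (u (k + 1) < 1 ∧ 3 * (u (k + 1) - u k) ≤ g.γ l * (1 - u (k + 1)))) := fun l => by
    by_cases hl : l ≤ g.L
    · exact (ladder (h.γ_pos l).1 (h.γ_pos l).2 (h.lad l hl)).imp fun _ h _ => h
    · exact ⟨0, fun h => absurd h hl⟩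
  choose u hu using hu
  have eK : ∀ l < g.L, (g.ns ex ey p st b0 Z0 d u).K l = g.K l + 2 := fun l hl => if_pos hl
  have eL : (g.ns ex ey p st b0 Z0 d u).K g.L = g.K g.L + 1 := if_neg (lt_irrefl _)
  refine ⟨u, ⟨fun M => ⟨Subset.rfl, fun _ => le_rfl⟩,
    fun M M' M'' a b => ⟨b.1.trans a.1, fun v => (a.2 v).trans (b.2 v)⟩,
    fun l => (h.γ_pos l).1.le, fun M l x c c' hc hB => ⟨hB.1.trans hc, fun v w κ hP =>
      (hB.2 v w κ hP).trans (add_le_add hc le_rfl)⟩,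
    fun l M M' x a => h.Cs_mono _ _ _ _ a.1, fun l a r r' M M' x b => h.Cd_mono _ _ _ _ _ _ _ b.1,
    fun l M M' a b => h.Val_mono _ _ _ _ b.1, fun l a k M M' b hF => ?_,
    fun k M M' b hG y => (b.2 _).trans (hG y), fun l hl => ?_, fun l hl => ?_,
    fun l hl D r M x => h.pick l hl D r _ x M.sub, fun l hl a M x => h.start l hl a _ x M.sub,
    fun l hl a k hk M hF hV => ?_, fun l hl a M => ?_, fun l hl D r M hA hH x hx =>
      ⟨(h.γ_pos l).1.le, h.reset l hl D r M hA (fun j a b l0 c y hy => (hH j a b l0 c y hy).2) x hx⟩,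
    fun M hG l hl x hx => ?_, fun k hk M hG => ?_, fun M y => ?_⟩⟩
  · cases k
    · exact Subset.trans hF b.1
    · exact fun y hy => (b.2 _).trans (hF y hy)
  · rw [eK l hl]; exact h.Δ_le l hl
  · rw [eK l hl]; exact h.σ_ge l hl
  · rw [eK l hl] at hk
    obtain ⟨u0, -, u2⟩ := hu l (le_of_lt hl)
    cases k with
    | zero =>
      have hb := M.fld h.hb
      refine ⟨⟨M.Z ∪ g.kz l a, kill M.b (A.cyl (slots st (g.kz l a))),
        M.sub.trans subset_union_left, fun v => ((hb.kill _).mem v).1,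
        fun v => (WN.kill_le M.nn _ v).trans (M.le v), fun v hv => ?_⟩,
        ⟨subset_union_left, WN.kill_le M.nn _⟩, subset_union_right,
        fun l0 h0 x c hx hc => ⟨add_nonneg hc.1 (h.γ_pos l0).1.le, fun v w κ hP => ?_⟩⟩
      · unfold kill
        split_ifs with h1
        · rfl
        · exact M.dead v ((mem_union.1 hv).resolve_right fun h2 =>
            h1 (A.mem_cyl.2 (mem_filter.2 ⟨mem_univ _, h2⟩)))
      · have hW : ∀ z : Fin T × Λ, z.2 ∈ g.Dp st d l a → z.2 ∉ slots st (g.kz l a) → M.b z ≠ 0 →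
            z.2 ∈ g.Dp st d l a ∧ st z.2 ∉ g.kz l a ∧ st z.2 ∉ M.Z ∧ b0 z ≠ 0 :=
          fun z h1 h2 h3 => ⟨h1, fun h4 => h2 (mem_filter.2 ⟨mem_univ _, h4⟩),
            fun h4 => h3 (M.dead z h4), fun h4 => h3 (le_antisymm (h4 ▸ M.le z) (M.nn z))⟩
        have hv := h.far l hl _ a x M.sub hV hx l0 h0 v w κ hP
        have hz : ∀ y ∈ g.Dp st d l a, M.b (0, y) = 0 :=
          fun y hy => le_antisymm (u0 ▸ hF y hy) (M.nn _)
        have a3 := h.γ_anti h0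
        have a4 := h.fast l hl
        show _ ≤ c + g.γ l0 + κ
        by_cases hw : st w.2 ∈ g.kz l a
        · have a2 := jump0 ex ey h.hp hb h.hd (h.rate l hl) (h.slow l hl _ a M.sub hV) hW
            (h.card l hl _ a M.sub hV) hz (mem_filter.2 ⟨mem_univ _, hw⟩) hv
          linarith [hc.1, h.Pr_pos _ _ _ _ _ _ hP]
        have a1 : GA ex ey p (kill M.b (A.cyl (slots st (g.kz l a)))) v w ≤ c + κ :=
          hc.2 v w κ (h.Pr_mono _ _ _ _ _ _ _ subset_union_left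
            (fun k => (mem_union.1 k).resolve_right fun k => hv (A.mem_nbd.2
              ⟨v.2, mem_filter.2 ⟨mem_univ _, k⟩, by rw [h.hd.1]; omega⟩))
            (fun k => (mem_union.1 k).resolve_right hw) hP)
        have a2 := jump_fast ex ey h.hp hb h.hd (h.rate l hl) (h.slow l hl _ a M.sub hV) hW
          (h.card l hl _ a M.sub hV) hz (u := w) (.inl hv)
        linarith
    | succ k =>
      obtain ⟨a1, a2, a3, a4⟩ := u2 k (by omega)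
      obtain ⟨M', b1, b2, b3⟩ := drift h M (h.card l hl _ a M.sub hV) a1 a2 a3 a4 hF
      exact ⟨M', b1, b2, fun l0 h0 x c _ k =>
        ⟨add_nonneg k.1 (h.γ_pos l0).1.le, b3 l0 h0 x c k.2⟩⟩
  · rw [eK l hl]
    exact fun y _ => (hu l (le_of_lt hl)).2.1 ▸ ((M.fld h.hb).mem _).2
  · obtain ⟨D, hD⟩ := data h a0 M.sub (g.L - l) l (by have : l ≤ g.L := hl; omega) hx
    have key : ∀ i, l ≤ i → i < g.L → g.ρ i + g.Δ l ≤ g.σ i := fun i a b =>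
      le_trans (Nat.add_le_add_left ((Δ_mono h a b.le).trans
        (Nat.le_mul_of_pos_left _ (by omega))) _) (h.σ_ge i b)
    exact ⟨mul_nonneg zero_le_two (h.γ_pos l).1.le,
      h.base l hl D g.ρ M (fun y => le_antisymm ((hu _ le_rfl).1 ▸ hG y) (M.nn _))
      (fun i a b => ⟨(hD i a b).1, le_rfl, key i a b⟩) x ⟨fun i a b => absurd b (by omega),
        fun i a b => h.Cd_mono _ _ _ _ _ _ _ Subset.rfl (key i a b) (hD i a b).2⟩⟩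
  · rw [show (g.ns ex ey p st b0 Z0 d u).K (g.ns ex ey p st b0 Z0 d u).L = _ from eL] at hk
    obtain ⟨a1, a2, a3, a4⟩ := (hu _ le_rfl).2.2 k (by omega)
    obtain ⟨M', b1, b2, b3⟩ := drift h M (P := univ) h.top a1 a2 a3 a4 fun y _ => hG y
    exact ⟨M', b1, fun y => b2 y (mem_univ _), fun l0 h0 x c k =>
      ⟨add_nonneg k.1 (h.γ_pos l0).1.le, b3 l0 h0 x c k.2⟩⟩
  · rw [show (g.ns ex ey p st b0 Z0 d u).K (g.ns ex ey p st b0 Z0 d u).L = _ from eL]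
    exact (hu _ le_rfl).2.1 ▸ ((M.fld h.hb).mem _).2

/-- **G4, Green part**: all members, all types. -/
theorem all (h : g.Ok ex ey p st b0 Z0 d Kr) {R : ℕ → ℕ}
    (hR : ∀ i < g.L, g.ρ i + ∑ t ∈ range (i + 1), g.Δ (t + 1) ≤ R i ∧ R i ≤ g.σ i)
    (M : Mem st b0 Z0) {j : ℕ} (hj : j ≤ g.L) {D : ℕ → Dat}
    (hV : ∀ i, j ≤ i → i < g.L → g.Val i M.Z (D i)) {l0 : ℕ} (h0 : l0 ≤ j) {x : X}
    (hx : g.Ty j l0 D R M.Z x) : g.Bd ex ey p st b0 Z0 M l0 x (g.γ l0) := by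
  obtain ⟨u, hu⟩ := ns_ok h (D 0)
  have := (NS.all hu (R := R) hR hj (M := M) hV l0 h0 x hx).2
  rwa [one_mul] at this

/-- **G4, Green part**: clean points. -/
theorem clean (h : g.Ok ex ey p st b0 Z0 d Kr) (a : Dat) (M : Mem st b0 Z0) {l0 : ℕ}
    (h0 : l0 ≤ g.L) {x : X} (hx : ∀ i, l0 ≤ i → i < g.L → g.Cs i M.Z x) :
    g.Bd ex ey p st b0 Z0 M l0 x (g.γ l0) := by
  obtain ⟨u, hu⟩ := ns_ok h a
  have := (NS.top hu (fun _ => a) (fun _ => 0) M l0 h0 x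
    ⟨hx, fun i a b => absurd b (not_lt.2 a)⟩).2
  rwa [one_mul] at this

end GD

end Crest.Agent.N337.G4.Sp
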