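import Crest.Agent.N337.G4.T4

/-!
# Row 337, G4 (helper23): finite speed of the annealed Green function in a local kill parameter
-/

set_option autoImplicit false
set_option linter.unusedSectionVars false

namespace Crest.Agent.N337.G4.Sp

open Finset Equiv Function Matrix Crest.Agent.N337.Rep Crest.Agent.N337.LY0 Crest.Agent.N337.DL
  Crest.Agent.N337.Arc

variable {Λ : Type} [Fintype Λ] [DecidableEq Λ] {T : ℕ} [NeZero T] (ex ey : Fin T → Λ)
variable {p : Fin T → ℝ} {b c : Fin T × Λ → ℝ} {P : Finset (Fin T × Λ)}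

/-- the normalised annealed Green function, entry `(target, source)`. -/
noncomputable def GA (p : Fin T → ℝ) (b : Fin T × Λ → ℝ) (v u : Fin T × Λ) : ℝ :=
  RR.AG ex ey p b v u / Zt ex ey p b

lemma GA_nonneg (hp : ∀ s, 0 ≤ p s ∧ p s ≤ 1) (hb : Fld b) (v u : Fin T × Λ) :
    0 ≤ GA ex ey p b v u :=
  div_nonneg (AG_nonneg ex ey hp hb v u) (Zt_pos ex ey hp fun v => (hb.mem v).1).le

lemma GA_le_one (hp : ∀ s, 0 ≤ p s ∧ p s ≤ 1) (hb : Fld b) (v u : Fin T × Λ) :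
    GA ex ey p b v u ≤ 1 :=
  (div_le_one (Zt_pos ex ey hp fun v => (hb.mem v).1)).2 (AG_le ex ey hp hb v u)

lemma GA_le_iff (hp : ∀ s, 0 ≤ p s ∧ p s ≤ 1) (hb : Fld b) (v u : Fin T × Λ) (γ : ℝ) :
    GA ex ey p b v u ≤ γ ↔ RR.AG ex ey p b v u ≤ γ * Zt ex ey p b :=
  div_le_iff₀ (Zt_pos ex ey hp fun v => (hb.mem v).1)

/-- the field `c` multiplied by `u` on `P`. -/
def sc (P : Finset (Fin T × Λ)) (c : Fin T × Λ → ℝ) (u : ℝ) : Fin T × Λ → ℝ :=
  fun v => if v ∈ P then u * c v else c v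

lemma fld_of_le (hb : Fld b) (h0 : ∀ v, 0 ≤ c v) (h : ∀ v, c v ≤ b v) : Fld c :=
  ⟨fun v => ⟨h0 v, (h v).trans (hb.mem v).2⟩, fun x => (h _).trans_lt (hb.lt x)⟩

lemma sc_fld (hc : ∀ v ∈ P, 0 ≤ c v) {u u' : ℝ} (h0 : 0 ≤ u) (h : u ≤ u') (hF : Fld (sc P c u')) :
    Fld (sc P c u) := by
  refine fld_of_le hF (fun v => ?_) fun v => ?_
  · have := (hF.mem v).1
    unfold sc at this ⊢
    split_ifs at this ⊢ with hv; exacts [mul_nonneg h0 (hc v hv), this]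
  · unfold sc
    split_ifs with hv; exacts [mul_le_mul_of_nonneg_right h (hc v hv), le_rfl]

lemma sc_deriv (p : Fin T → ℝ) (s t : Fin T × Λ → ℝ) (u : ℝ) :
    HasDerivAt (fun u => Ft ex ey p (sc P c u) s t)
      (∑ z ∈ P, c z * Dz ex ey p (sc P c u) s t z) u := by
  have h := Ft_bderiv ex ey p (sc P c u) s t fun v => if v ∈ P then c v else 0
  simp only [ite_mul, zero_mul, sum_ite_mem, univ_inter] at h
  have h2 := HasDerivAt.comp_sub_const u u ((sub_self u).symm ▸ h)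
  refine h2.congr_of_eventuallyEq (.of_forall fun w => ?_)
  dsimp only
  congr 1
  funext v
  unfold sc
  split_ifs <;> ring

/-- the mean value inequality with the four-point bound. -/
lemma speed_gen (hp : ∀ s, 0 ≤ p s ∧ p s ≤ 1) (hc : ∀ v ∈ P, 0 ≤ c v ∧ c v ≤ 1) {u u' C : ℝ}
    (h0 : 0 ≤ u) (h : u ≤ u') (hF : Fld (sc P c u')) (v w : Fin T × Λ)
    (hC : ∀ x ∈ Set.Ico u u', 3 / 2 * ∑ z ∈ P, (RR.AG ex ey p (sc P c x) z w +
      RR.AG ex ey p (sc P c x) v z) ≤ C * Zt ex ey p (sc P c x)) :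
    |GA ex ey p (sc P c u') v w - GA ex ey p (sc P c u) v w| ≤ C * (u' - u) := by
  have F : ∀ x ∈ Set.Icc u u', Fld (sc P c x) := fun x hx =>
    sc_fld (fun v hv => (hc v hv).1) (h0.trans hx.1) hx.2 hF
  have Z : ∀ x ∈ Set.Icc u u', 0 < Zt ex ey p (sc P c x) := fun x hx =>
    Zt_pos ex ey hp fun v => ((F x hx).mem v).1
  have e : ∀ x ∈ Set.Icc u u', Ft ex ey p (sc P c x) (Pi.single w 1) (Pi.single v 1) /
      Ft ex ey p (sc P c x) 0 0 = 1 + GA ex ey p (sc P c x) v w := fun x hx => by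
    rw [Ft_two ex ey hp (F x hx), Ft_s0, GA, add_div, div_self (Z x hx).ne']
  have key := norm_image_sub_le_of_norm_deriv_le_segment' (C := C)
    (fun x hx => ((sc_deriv ex ey (P := P) (c := c) p (Pi.single w 1) (Pi.single v 1) x).div
      (sc_deriv ex ey (P := P) (c := c) p 0 0 x)
      (by rw [Ft_s0]; exact (Z x hx).ne')).hasDerivWithinAt) (fun x hx => ?_) u' ⟨h, le_rfl⟩
  · simp only [Pi.div_apply] at key
    rw [e u' ⟨h, le_rfl⟩, e u ⟨le_rfl, h⟩, add_sub_add_left_eq_sub] at key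
    exact key
  have hx' := Set.Ico_subset_Icc_self hx
  have hb := F x hx'
  have hZ := Z x hx'
  rw [Real.norm_eq_abs, abs_div, abs_pow, Ft_s0, abs_of_pos hZ, div_le_iff₀ (pow_pos hZ 2),
    Ft_two ex ey hp hb, sum_mul, mul_sum, ← sum_sub_distrib]
  refine (abs_sum_le_sum_abs _ _).trans (le_trans (sum_le_sum (g := fun z =>
    3 / 2 * Zt ex ey p (sc P c x) * (RR.AG ex ey p (sc P c x) z w + RR.AG ex ey p (sc P c x) v z))
    fun z hz => ?_)
    (le_trans (le_of_eq ?_) ((mul_le_mul_of_nonneg_left (hC x hx) hZ.le).trans (le_of_eq ?_))))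
  rotate_left
  · rw [← mul_sum]; ring
  · ring
  have h4 := t4 ex ey hp hb w v z
  rw [Dz_zero ex ey hp hb]
  refine le_trans (le_of_eq ?_) ((mul_le_of_le_one_left (abs_nonneg _) (hc z hz).2).trans h4)
  rw [← abs_of_nonneg (hc z hz).1, ← abs_mul, abs_of_nonneg (hc z hz).1]
  congr 1; ring

/-- **SPEED**, few points. -/
theorem speed_card (hp : ∀ s, 0 ≤ p s ∧ p s ≤ 1) (hc : ∀ v ∈ P, 0 ≤ c v ∧ c v ≤ 1) {u u' : ℝ}
    (h0 : 0 ≤ u) (h : u ≤ u') (hF : Fld (sc P c u')) (v w : Fin T × Λ) :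
    |GA ex ey p (sc P c u') v w - GA ex ey p (sc P c u) v w| ≤ 3 * P.card * (u' - u) := by
  refine speed_gen ex ey hp hc h0 h hF v w fun x hx => ?_
  have hb := sc_fld (fun v hv => (hc v hv).1) (h0.trans hx.1) hx.2.le hF
  have := sum_le_card_nsmul P _ _ fun z _ => add_le_add (AG_le ex ey hp hb z w) (AG_le ex ey hp hb v z)
  rw [nsmul_eq_mul] at this
  linarith

/-- **SPEED**, any number of points. -/
theorem speed_geo (hp : ∀ s, 0 ≤ p s ∧ p s ≤ 1) (hc : ∀ v ∈ P, 0 ≤ c v ∧ c v ≤ 1) {u u' : ℝ}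
    (h0 : 0 ≤ u) (h : u ≤ u') (h1 : u' < 1) (hF : Fld (sc P c u')) (v w : Fin T × Λ) :
    |GA ex ey p (sc P c u') v w - GA ex ey p (sc P c u) v w| ≤ 3 / (1 - u') * (u' - u) := by
  refine speed_gen ex ey hp hc h0 h hF v w fun x hx => ?_
  have hb := sc_fld (fun v hv => (hc v hv).1) (h0.trans hx.1) hx.2.le hF
  have key : ∀ f : Fin T × Λ → ℝ, (∀ z, 0 ≤ f z) →
      (1 - u') * ∑ z ∈ P, f z ≤ ∑ z, (1 - sc P c x z) * f z := fun f hf => by
    rw [mul_sum]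
    refine le_trans (sum_le_sum fun z hz => mul_le_mul_of_nonneg_right ?_ (hf z))
      (sum_le_sum_of_subset_of_nonneg (subset_univ P) fun z _ _ =>
        mul_nonneg (sub_nonneg.2 (hb.mem z).2) (hf z))
    rw [sc, if_pos hz]
    nlinarith [(hc z hz).1, (hc z hz).2, hx.2, h0.trans hx.1]
  have k1 := (key _ fun z => AG_nonneg ex ey hp hb z w).trans (sum_tgt ex ey hp hb w)
  have k2 := (key _ fun z => AG_nonneg ex ey hp hb v z).trans (sum_src ex ey hp hb v)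
  rw [div_mul_eq_mul_div 3 (1 - u'), le_div_iff₀ (sub_pos.2 h1), sum_add_distrib]
  linarith

lemma sc_le (hb : Fld b) {r : ℝ} (h1 : r ≤ 1) (v : Fin T × Λ) : sc P b r v ≤ b v := by
  unfold sc; split_ifs; exacts [mul_le_of_le_one_left (hb.mem v).1 h1, le_rfl]

lemma sc_nonneg (hb : Fld b) {r : ℝ} (h0 : 0 ≤ r) (v : Fin T × Λ) : 0 ≤ sc P b r v := by
  unfold sc; split_ifs; exacts [mul_nonneg h0 (hb.mem v).1, (hb.mem v).1]

/-- **SPEED** for members: a field below `u'` on `P` is close to a field below `u` on `P`. -/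
theorem speed_mem (hp : ∀ s, 0 ≤ p s ∧ p s ≤ 1) (hb : Fld b) {u u' γ : ℝ} (h0 : 0 ≤ u) (h : u ≤ u')
    (h1 : u' ≤ 1) (hP : ∀ v ∈ P, b v ≤ u')
    (hγ : 3 * P.card * (u' - u) ≤ γ ∨ (u' < 1 ∧ 3 * (u' - u) ≤ γ * (1 - u'))) :
    ∃ b' : Fin T × Λ → ℝ, Fld b' ∧ (∀ v, b' v ≤ b v) ∧ (∀ v ∈ P, b' v ≤ u) ∧
      (∀ v ∉ P, b' v = b v) ∧ ∀ v w, |GA ex ey p b v w - GA ex ey p b' v w| ≤ γ := by
  have hγ0 : 0 ≤ γ := by
    rcases hγ with hγ | ⟨h2, hγ⟩
    · exact le_trans (mul_nonneg (by positivity) (sub_nonneg.2 h)) hγ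
    · exact nonneg_of_mul_nonneg_left (by linarith) (sub_pos.2 h2)
  rcases (h0.trans h).eq_or_lt with rfl | hu
  · exact ⟨b, hb, fun _ => le_rfl, fun v hv => (hP v hv).trans h0, fun _ _ => rfl,
      fun v w => by simpa using hγ0⟩
  set c : Fin T × Λ → ℝ := sc P b u'⁻¹ with hc
  have hcv : ∀ v ∈ P, c v = u'⁻¹ * b v := fun v hv => if_pos hv
  have hc1 : ∀ v ∈ P, 0 ≤ c v ∧ c v ≤ 1 := fun v hv => by
    rw [hcv v hv]
    exact ⟨mul_nonneg (inv_nonneg.2 hu.le) (hb.mem v).1, (inv_mul_le_one₀ hu).2 (hP v hv)⟩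
  have e : sc P c u' = b := by
    funext v
    by_cases hv : v ∈ P
    · rw [sc, if_pos hv, hcv v hv, mul_inv_cancel_left₀ hu.ne']
    · simp [sc, hc, hv]
  have hF : Fld (sc P c u') := e ▸ hb
  refine ⟨sc P c u, sc_fld (fun v hv => (hc1 v hv).1) h0 h hF, fun v => ?_, fun v hv => ?_,
    fun v hv => by simp [sc, hc, hv], fun v w => ?_⟩
  · rw [← e]; unfold sc
    split_ifs with hv; exacts [mul_le_mul_of_nonneg_right h (hc1 v hv).1, le_rfl]
  · rw [sc, if_pos hv]; exact mul_le_of_le_one_right h0 (hc1 v hv).2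
  · rcases hγ with hγ | ⟨h2, hγ⟩
    · exact (e ▸ speed_card ex ey hp hc1 h0 h hF v w).trans hγ
    · refine (e ▸ speed_geo ex ey hp hc1 h0 h h2 hF v w).trans ?_
      rwa [div_mul_eq_mul_div, div_le_iff₀ (sub_pos.2 h2)]

/-- the ladder of kill parameters: `K + 1` steps from `0` to `1`. -/
theorem ladder {γ N : ℝ} (h0 : 0 < γ) (h1 : γ ≤ 3) {K : ℕ} (hK : 3 * N ≤ γ * Real.exp (γ * K / 6)) :
    ∃ u : ℕ → ℝ, u 0 = 0 ∧ u (K + 1) = 1 ∧ ∀ k ≤ K, 0 ≤ u k ∧ u k ≤ u (k + 1) ∧ u (k + 1) ≤ 1 ∧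
      (3 * N * (u (k + 1) - u k) ≤ γ ∨
        (u (k + 1) < 1 ∧ 3 * (u (k + 1) - u k) ≤ γ * (1 - u (k + 1)))) := by
  set q : ℝ := 1 - γ / 6 with hq
  have q0 : 0 < q := by linarith
  have q1 : q ≤ 1 := by linarith
  have p1 : ∀ k, q ^ k ≤ 1 := fun k => pow_le_one₀ q0.le q1
  refine ⟨fun k => if k ≤ K then 1 - q ^ k else 1, by simp, by simp, fun k hk => ?_⟩
  have pk := pow_pos q0 k
  rcases hk.eq_or_lt with rfl | hk'
  · simp only [le_refl, if_true, Nat.add_one_le_iff, lt_irrefl, if_false]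
    refine ⟨by linarith [p1 k], by linarith, trivial, .inl ?_⟩
    have h2 : q ^ k ≤ Real.exp (-(γ * k / 6)) := by
      rw [show -(γ * k / 6) = k * (-(γ / 6)) by ring, Real.exp_nat_mul]
      exact pow_le_pow_left₀ q0.le (by linarith [Real.add_one_le_exp (-(γ / 6))]) k
    have h3 : Real.exp (γ * k / 6) * q ^ k ≤ 1 := by
      rw [Real.exp_neg] at h2
      exact (mul_le_mul_of_nonneg_left h2 (Real.exp_pos _).le).trans
        (mul_inv_cancel₀ (Real.exp_pos _).ne').le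
    nlinarith [mul_le_mul_of_nonneg_right hK pk.le]
  · simp only [if_pos hk, if_pos (Nat.succ_le_of_lt hk'), pow_succ]
    refine ⟨by linarith [p1 k], by nlinarith, by nlinarith, .inr ⟨by nlinarith, ?_⟩⟩
    have : 3 * (1 - q) ≤ γ * q := by rw [hq]; nlinarith
    nlinarith

/-- **the un-kill path**: a property of fields that survives a drift step with `K + 1` losses.
`Q k b'` for all members below `b` that vanish on `P` (`k = 0`) and a step rule give `Q (K + 1)`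
for all members below `b`. -/
theorem path (hp : ∀ s, 0 ≤ p s ∧ p s ≤ 1) {γ : ℝ} (h0 : 0 < γ) (h1 : γ ≤ 3) {K : ℕ}
    (hK : 3 * (P.card : ℝ) ≤ γ * Real.exp (γ * K / 6))
    (Q : ℕ → ℝ → Prop) (hQ0 : Q 0 0)
    (step : ∀ k u u', Q k u → (∀ b : Fin T × Λ → ℝ, Fld b → (∀ v ∈ P, b v ≤ u') →
      ∃ b' : Fin T × Λ → ℝ, Fld b' ∧ (∀ v, b' v ≤ b v) ∧ (∀ v ∈ P, b' v ≤ u) ∧
        (∀ v ∉ P, b' v = b v) ∧ ∀ v w, |GA ex ey p b v w - GA ex ey p b' v w| ≤ γ) →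
      Q (k + 1) u') : Q (K + 1) 1 := by
  obtain ⟨u, u0, u1, hu⟩ := ladder h0 h1 hK
  have : ∀ k ≤ K + 1, Q k (u k) := fun k hk => by
    induction k with
    | zero => rwa [u0]
    | succ k ih =>
      obtain ⟨a1, a2, a3, a4⟩ := hu k (by omega)
      exact step k _ _ (ih (by omega)) fun b hb hP => speed_mem ex ey hp hb a1 a2 a3 hP a4
  exact u1 ▸ this _ le_rfl

end Crest.Agent.N337.G4.Sp
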