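import Crest.Agent.N337.G4.Red
import Crest.Agent.N337.G4.Speed
import Crest.Agent.N337.R.Env
import Crest.Agent.N337.Rg.Cnt

/-!
# Row 337, G4 (helper76): the red probability as an outer measure; red, coin and annealed bounds

`PR p b A` = probability of the event `A (coins, red set)`; only compatible, alive red sets count.
`annG` : annealed Green function from quenched bounds in the pinned and killed model `WN.Gc`.
-/

set_option autoImplicit false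
set_option linter.unusedSectionVars false

namespace Crest.Agent.N337.G4

open Finset Equiv Matrix Crest.Agent.N337.Rep Crest.Agent.N337.LY0
open Crest.Agent.N337.Gas (Lp L ub qq nu pts)
open Crest.Agent.N337.RR (WR AG Cmp red)
open Crest.Agent.N337.Arc (Fld pin kill tch)
open Crest.Agent.N337.WN (Gi Gc)

variable {Λ : Type} [Fintype Λ] [DecidableEq Λ] {T : ℕ} [NeZero T] (ex ey : Fin T → Λ)

/-- coins and red set. -/
abbrev CR (T : ℕ) (Λ : Type) : Type := (Fin T → Bool) × Finset (Fin T × Λ)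

/-- the red probability. -/
noncomputable def PR (p : Fin T → ℝ) (b : Fin T × Λ → ℝ) (A : CR T Λ → Prop) : ℝ :=
  WR ex ey p b (fun ξ R => A (ξ, R)) / DL.Zt ex ey p b

/-- possible states: `R` is a union of alive loops of the possible coins `ξ`. -/
def Pos (p : Fin T → ℝ) (b : Fin T × Λ → ℝ) (ω : CR T Λ) : Prop :=
  Cmp ex ey p ω.1 ω.2 ∧ ∀ v ∈ ω.2, b v ≠ 0

variable {ex ey} {p : Fin T → ℝ} {b b' : Fin T × Λ → ℝ} {A B : CR T Λ → Prop}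
  {ξ : Fin T → Bool} {ω : Rep.Env T Λ}

lemma WR_pos (E : (Fin T → Bool) → Finset (Fin T × Λ) → Prop) :
    WR ex ey p b E = WR ex ey p b fun ξ R => Pos ex ey p b (ξ, R) ∧ E ξ R := by
  classical
  refine sum_congr rfl fun ξ _ => ?_
  by_cases h0 : Pw p ξ = 0
  · simp [h0]
  refine congrArg _ (sum_congr rfl fun ω _ => ?_)
  by_cases h1 : zr b ω = 0
  · simp [h1]
  by_cases h : ∀ v, ω (Sg ex ey ξ v) = ω v
  · have k : Pos ex ey p b (ξ, red ω) := ⟨RR.cmp_of h0 h, fun v hv h2 =>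
      h1 (prod_eq_zero (mem_univ v) (by rw [if_neg (RR.mem_red.1 hv), h2]))⟩
    simp [k]
  · rw [if_neg fun k => h k.1, if_neg fun k => h k.1]

lemma PR_le_iff (hp : ∀ s, 0 ≤ p s ∧ p s ≤ 1) (hb : ∀ v, 0 ≤ b v ∧ b v ≤ 1) {ε : ℝ} :
    PR ex ey p b A ≤ ε ↔ WR ex ey p b (fun ξ R => A (ξ, R)) ≤ ε * DL.Zt ex ey p b :=
  div_le_iff₀ (DL.Zt_pos ex ey hp fun v => (hb v).1)

lemma PR_nn (hp : ∀ s, 0 ≤ p s ∧ p s ≤ 1) (hb : ∀ v, 0 ≤ b v ∧ b v ≤ 1) : 0 ≤ PR ex ey p b A :=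
  div_nonneg (RR.BasAux.WR_nonneg ex ey hp hb _) (DL.Zt_pos ex ey hp fun v => (hb v).1).le

/-- monotonicity, on possible states. -/
theorem PR_mono (hp : ∀ s, 0 ≤ p s ∧ p s ≤ 1) (hb : ∀ v, 0 ≤ b v ∧ b v ≤ 1)
    (h : ∀ ω, Pos ex ey p b ω → A ω → B ω) : PR ex ey p b A ≤ PR ex ey p b B := by
  refine div_le_div_of_nonneg_right ?_ (DL.Zt_pos ex ey hp fun v => (hb v).1).le
  rw [WR_pos]
  exact RR.WR_mono hp hb fun ξ R _ k => h _ k.1 k.2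

lemma PR_le_one (hp : ∀ s, 0 ≤ p s ∧ p s ≤ 1) (hb : ∀ v, 0 ≤ b v ∧ b v ≤ 1) :
    PR ex ey p b A ≤ 1 := by
  rw [PR_le_iff hp hb, one_mul, ← RR.BasAux.WR_true]
  exact RR.WR_mono hp hb fun _ _ _ _ => trivial

theorem sub_PR (hp : ∀ s, 0 ≤ p s ∧ p s ≤ 1) (hb : ∀ v, 0 ≤ b v ∧ b v ≤ 1) :
    Rg.Sub (PR ex ey p b) where
  mono _ _ h := PR_mono hp hb fun ω _ => h ω
  or A B := by
    rw [PR, PR, PR, ← add_div]
    exact div_le_div_of_nonneg_right (RR.WR_or hp hb fun _ _ _ h => h)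
      (DL.Zt_pos ex ey hp fun v => (hb v).1).le
  bot := by simp [PR, WR]

/-- union bound on possible states. -/
theorem PR_union (hp : ∀ s, 0 ≤ p s ∧ p s ≤ 1) (hb : ∀ v, 0 ≤ b v ∧ b v ≤ 1) {ι : Type}
    (I : Finset ι) (B : ι → CR T Λ → Prop) (h : ∀ ω, Pos ex ey p b ω → A ω → ∃ i ∈ I, B i ω) :
    PR ex ey p b A ≤ ∑ i ∈ I, PR ex ey p b (B i) :=
  (PR_mono hp hb h).trans ((sub_PR hp hb).union I B fun _ k => k)

/-- nothing is red if every loop is dead. -/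
theorem PR_zero (hp : ∀ s, 0 ≤ p s ∧ p s ≤ 1) (hb : ∀ v, 0 ≤ b v ∧ b v ≤ 1) (h0 : ∀ x, b (0, x) = 0)
    (h : ∀ ξ, Pw p ξ ≠ 0 → ¬ A (ξ, ∅)) : PR ex ey p b A ≤ 0 := by
  refine (PR_mono hp hb (B := fun _ => False) ?_).trans (sub_PR hp hb).bot
  rintro ⟨ξ, R⟩ ⟨h1, h2⟩ h3
  rcases R.eq_empty_or_nonempty with rfl | ⟨v, hv⟩
  · exact h ξ h1.1 h3
  obtain ⟨x, hx⟩ := exists_time ex ey ξ (o (Sg ex ey ξ) v) 0
  refine h2 (0, x) ?_ (h0 x)
  have := N337.A.Bs.inv_eq (n := fun v => decide (v ∈ R)) (fun v => decide_eq_decide.2 (h1.2 v)) hx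
  simpa [hv] using this

/-- **red bound.** -/
theorem PR_red (hp : ∀ s, 0 ≤ p s ∧ p s ≤ 1) (hb : Fld b) (X : Finset (Fin T × Λ))
    (r : Fin T × Λ → ℝ) (hr : ∀ v ∈ X, 0 < r v)
    (h : (∀ v ∈ X, b v ≠ 0) → ∀ v ∈ X, ∑ u ∈ X, Sp.GA ex ey p b v u ≤ r v) :
    PR ex ey p b (fun ω => X ⊆ ω.2) ≤ ∏ v ∈ X, 2 * Real.exp 1 * r v := by
  by_cases h0 : ∀ v ∈ X, b v ≠ 0
  · rw [PR_le_iff hp hb.mem]
    refine RR.BasAux.WR_red ex ey hp hb.mem hb.lt X r hr fun v hv => ?_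
    have := h h0 v hv
    simp only [Sp.GA, ← sum_div] at this
    exact (div_le_iff₀ (DL.Zt_pos ex ey hp fun v => (hb.mem v).1)).1 this
  · refine ((PR_mono hp hb.mem (B := fun _ => False) fun ω k1 k2 =>
      h0 fun v hv => k1.2 v (k2 hv)).trans (sub_PR hp hb.mem).bot).trans ?_
    exact prod_nonneg fun v hv => (mul_pos (by positivity) (hr v hv)).le

/-- **coin bound.** -/
theorem PR_coins (hp : ∀ s, 0 ≤ p s ∧ p s ≤ 1) (hb : ∀ v, 0 ≤ b v ∧ b v ≤ 1) (S : Finset (Fin T))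
    (hS : ∀ s ∈ S, p s ≤ 1 / 2) :
    PR ex ey p b (fun ω => ∀ s ∈ S, ω.1 s = true) ≤ ∏ s ∈ S, 6 * p s := by
  rw [PR_le_iff hp hb]
  have hM : N337.A.Mdl.Ok ⟨p, b⟩ 1 := ⟨hp, hb, fun x => (hb _).2⟩
  exact (RR.BasAux.WR_coin ex ey fun ξ => ∀ s ∈ S, ξ s = true).trans_le
    (N337.A.Bs.sum_coins ex ey hM S hS)

/-- two bounds for the same event. -/
lemma le_sqrt_mul {x a c : ℝ} (h0 : 0 ≤ x) (h1 : x ≤ a) (h2 : x ≤ c) : x ≤ √a * √c := by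
  rw [← Real.sqrt_mul (h0.trans h1)]
  exact Real.le_sqrt_of_sq_le (by rw [sq]; exact mul_le_mul h1 h2 h0 (h0.trans h1))

/-- **the gas is dominated by the red set.** -/
theorem gas_le_PR (hp : ∀ s, 0 ≤ p s ∧ p s ≤ 1) (hb : ∀ v, 0 ≤ b v ∧ b v ≤ 1)
    {F : Finset (Lp T Λ) → Prop} [DecidablePred F]
    (h : ∀ ω w, Pos ex ey p b ω → w ⊆ L ex ey ω.1 → pts w ⊆ ω.2 → F w → A ω) :
    Op.ex (nu (qq ex ey p) (ub b)) (Op.ind F) ≤ PR ex ey p b A := by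
  have := gas_le_WR hp hb (F := F) (E := fun ξ R => (∃ v ∈ R, b v = 0) ∨ A (ξ, R))
    (ε := PR ex ey p b A) (fun ξ w R h1 h2 _ h4 h5 => or_iff_not_imp_left.2 fun k =>
      h (ξ, R) w ⟨h1, fun v hv e => k ⟨v, hv, e⟩⟩ h2 h4 h5)
    ((PR_le_iff hp hb (A := fun ω => (∃ v ∈ ω.2, b v = 0) ∨ A ω)).1
      (PR_mono hp hb fun ω k1 k2 => k2.resolve_left fun ⟨v, k3, k4⟩ => k1.2 v k3 k4))
  convert this

/-- the down loops and the alive set of the child model form the red set. -/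
theorem join_le_PR (hp : ∀ s, 0 ≤ p s ∧ p s ≤ 1) (hb : ∀ v, 0 ≤ b v ∧ b v ≤ 1)
    {Bad : Finset (Lp T Λ) → Prop} [DecidablePred Bad]
    (h : ∀ ξ S, Pos ex ey p b (ξ, pts S) → S ⊆ L ex ey ξ → Bad S → A (ξ, pts S)) :
    Op.ex (nu (qq ex ey p) (ub b))
      (fun w => Pc.mkE (Pw p) (L ex ey) (ub b) w (Op.ind fun C => Bad (w ∪ C))) ≤
      PR ex ey p b A := by
  have := join_le_WR hp hb (Bad := Bad) (E := fun ξ R => A (ξ, R)) (ε := PR ex ey p b A)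
    (fun ξ S h1 h2 h3 h4 => h ξ S ⟨cmp_pts h1 h2, fun v hv => ?_⟩ h2 h4) ((PR_le_iff hp hb).1 le_rfl)
  · convert this
  obtain ⟨g, k1, k2⟩ := Gas.mem_pts.1 hv
  exact prod_ne_zero_iff.1 (h3 g k1) v k2

/-! ### the quenched model is the pinned and killed model -/

lemma th_eq_pin (h0 : Pw p ξ ≠ 0) (hi : ∀ v, ω (Sg ex ey ξ v) = ω v) {s : Fin T}
    (h : ω (s, ex s) = none ∨ ω (s, ey s) = none) :
    th ex ey p ω s = pin p (tch ex ey (red ω)) ξ s := by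
  by_cases e : ω (s, ex s) = ω (s, ey s)
  · rw [RR.th_free hi e, pin, if_neg]
    rw [Arc.mem_tch, RR.mem_red, RR.mem_red, ← e]
    rw [← e] at h
    tauto
  have h1 : s ∈ tch ex ey (red ω) := by
    rw [Arc.mem_tch, RR.mem_red, RR.mem_red]
    by_contra k
    push Not at k
    exact e (k.1.trans k.2.symm)
  have h2 := prod_ne_zero_iff.1 h0 s (mem_univ s)
  have h3 := RR.inv_step hi s
  have h4 : ¬ ∀ x, ω (s + 1, sg (ex s) (ey s) (!ξ s) x) = ω (s, x) := fun k => e (by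
    have k1 := k (ex s)
    have k2 := h3 (ey s)
    revert k1 k2
    cases ξ s <;> simp [sg] <;> intro k1 k2 <;> rw [← k1, k2])
  rw [pin, if_pos h1, th, wc, wc]
  revert h2 h3 h4
  cases ξ s <;> intro h2 h3 h4
  · simp only [Bool.not_false] at h4
    simp [if_neg h4]
  · simp only [Bool.not_true] at h4
    rw [if_pos h3, if_neg h4, add_zero, div_self h2, if_pos rfl]

lemma Kb_col_eq (h0 : Pw p ξ ≠ 0) (hi : ∀ v, ω (Sg ex ey ξ v) = ω v) (v : Fin T × Λ)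
    {u : Fin T × Λ} (hu : ω u = none) :
    Kb ex ey (th ex ey p ω) v u = Kb ex ey (pin p (tch ex ey (red ω)) ξ) v u := by
  obtain ⟨r, y⟩ := v
  obtain ⟨s, x⟩ := u
  rw [Kb_apply, Kb_apply]
  by_cases h : x = ex s ∨ x = ey s
  · rw [th_eq_pin h0 hi (h.imp (fun k => k ▸ hu) fun k => k ▸ hu)]
  · push Not at h
    rw [swap_apply_of_ne_of_ne h.1 h.2]
    split_ifs <;> ring

lemma zg_eq_kill (b : Fin T × Λ → ℝ) (ω : Rep.Env T Λ) : zg b ω = kill b (red ω) := by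
  funext v; simp [zg, kill, RR.mem_red]

lemma Gi_eq_Gc (h0 : Pw p ξ ≠ 0) (hi : ∀ v, ω (Sg ex ey ξ v) = ω v) :
    Gi ex ey (th ex ey p ω) (zg b ω) = Gc ex ey p b (red ω) ξ := by
  rw [Gc, Gi, Gi, ← zg_eq_kill]
  congr 2
  ext v u
  rw [mul_diagonal, mul_diagonal]
  by_cases hu : ω u = none
  · rw [Kb_col_eq h0 hi v hu]
  · simp [zg, hu]

lemma Ge_le_Gc (hp : ∀ s, 0 ≤ p s ∧ p s ≤ 1) (hb : Fld b) (hb' : Fld b') (hle : ∀ v, b v ≤ b' v)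
    (h0 : Pw p ξ ≠ 0) (hi : ∀ v, ω (Sg ex ey ξ v) = ω v) (v : Fin T × Λ) {u : Fin T × Λ}
    (hu : ω u = none) (h2 : 1 / 2 ≤ b' u) :
    DL.Ge ex ey p b ω v u ≤ 2 * (Gc ex ey p b' (red ω) ξ v u - if v = u then 1 else 0) := by
  have hq := th_mem ex ey hp ω
  have k : Fld (zg b ω) := zg_eq_kill b ω ▸ hb.kill _
  have k' : Fld (zg b' ω) := zg_eq_kill b' ω ▸ hb'.kill _
  have e1 : DL.Ge ex ey p b ω v u ≤ (Gi ex ey (th ex ey p ω) (zg b' ω) * Kb ex ey (th ex ey p ω)) v u := by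
    rw [DL.Ge, mul_apply, mul_apply]
    exact sum_le_sum fun w _ => mul_le_mul_of_nonneg_right (WN.Gi_mono ex ey hq k k' (fun z => by
      unfold zg; split_ifs; exacts [hle z, le_rfl]) v w) (WN.Kb_nonneg ex ey hq _ _)
  have e3 := congrFun (congrFun (WN.Gi_mul ex ey (WN.Zg_pos ex ey hq k').ne') v) u
  rw [← Matrix.mul_assoc, mul_diagonal, Matrix.sub_apply, one_apply, zg, if_pos hu] at e3
  have e4 : 0 ≤ (Gi ex ey (th ex ey p ω) (zg b' ω) * Kb ex ey (th ex ey p ω)) v u := by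
    rw [mul_apply]
    exact sum_nonneg fun w _ => mul_nonneg (WN.Gi_nonneg ex ey hq k' _ _) (WN.Kb_nonneg ex ey hq _ _)
  rw [← Gi_eq_Gc h0 hi, ← e3]
  nlinarith

/-- **annealed Green function** from quenched bounds at a top field `b' ≥ b`. -/
theorem annG (hp : ∀ s, 0 ≤ p s ∧ p s ≤ 1) (hb : Fld b) (hb' : Fld b') (hle : ∀ v, b v ≤ b' v)
    {Bad : CR T Λ → Prop} (hB : ∀ ξ R R', R ⊆ R' → Bad (ξ, R) → Bad (ξ, R')) {v u : Fin T × Λ}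
    (h2 : 1 / 2 ≤ b' u) {γ : ℝ} (hγ : 0 ≤ γ)
    (h : ∀ ω, Pos ex ey p b ω → ¬ Bad ω → v ∉ ω.2 → u ∉ ω.2 →
      (Gc ex ey p b' ω.2 ω.1 v u - if v = u then 1 else 0) ≤ γ) :
    Sp.GA ex ey p b v u ≤ 2 * γ + PR ex ey p b Bad := by
  have key := RR.ann Λ T ex ey p b hp hb.mem hb.lt (fun ξ R => (∃ v ∈ R, b v = 0) ∨ Bad (ξ, R))
    (fun ξ R R' k => Or.imp (fun ⟨v, k1, k2⟩ => ⟨v, k k1, k2⟩) (hB ξ R R' k)) v u (2 * γ)
    (by linarith) fun ξ ω k1 k2 k3 k4 k5 => (Ge_le_Gc hp hb hb' hle k1 k2 v k5 h2).trans (by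
      rw [not_or] at k3
      have := h (ξ, red ω) ⟨RR.cmp_of k1 k2, fun z hz e => k3.1 ⟨z, hz, e⟩⟩ k3.2
        (by simp [RR.mem_red, k4]) (by simp [RR.mem_red, k5])
      linarith)
  rw [Sp.GA_le_iff ex ey hp hb, add_mul]
  refine key.trans (add_le_add le_rfl ?_)
  exact (PR_le_iff hp hb.mem (A := fun ω => (∃ v ∈ ω.2, b v = 0) ∨ Bad ω)).1
    (PR_mono hp hb.mem fun ω k1 k2 => k2.resolve_left fun ⟨v, k3, k4⟩ => k1.2 v k3 k4)

end Crest.Agent.N337.G4
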