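import Crest.Agent.N337.G4.Prob
import Crest.Agent.N337.E.TDefs
import Crest.Agent.N337.Rg.Ult

/-!
# Row 337, G4 (helper50): the reset step. Definitions

`U l` = static junk of level `l` of one member.  A datum is a finite family of cubes; its front of
radius `r` is `In D r`.  `FQ` = trees of failing cells, `Jr` = junk of the environment and the red
set, `LfD` = a leaf is dominated by coin families and point families, `RIn` = the inputs.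
-/

set_option autoImplicit false
set_option linter.unusedSectionVars false

namespace Crest.Agent.N337.G4.Rs

open Finset Crest.Agent.N337.Rep Crest.Agent.N337.Free Crest.Agent.N337.Rg Crest.Agent.N337.Tr
open Crest.Agent.N337.Arc (Fld)

/-- numbers of the fronts. -/
structure Gp where
  /-- cubes of a datum, their separation constant, their largest radius -/
  N : ℕ
  c : ℕ
  Rm : ℕ → ℕ
  /-- clean radius -/
  dc : ℕ → ℕ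
  /-- range of the route datum plus the range of a cell -/
  W : ℕ → ℕ
  /-- largest radius of a front, displacement in one reset step -/
  sg : ℕ → ℕ
  un : ℕ → ℕ
  /-- ball without failing cells -/
  A : ℕ → ℕ
  /-- no base junk within `fr` of a leaf -/
  fr : ℕ

/-- data: cubes (centre, radius). -/
abbrev Dat (L : ℕ) : Type := Finset (Tor 3 L × ℕ)

section geo
variable {L : ℕ} (Q : Gp) (U : ℕ → Tor 3 L → Prop)

/-- the front of radius `r`. -/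
def In (D : Dat L) (r : ℕ) (y : Tor 3 L) : Prop := ∃ B ∈ D, tdist B.1 y ≤ B.2 + r

/-- no junk of level `l` within `d`. -/
def Fr (l d : ℕ) (y : Tor 3 L) : Prop := ∀ u, U l u → d < tdist y u

/-- clean at level `l`. -/
def Cs (l : ℕ) (y : Tor 3 L) : Prop := Fr U l (Q.dc l) y

/-- off the front, and the junk nearby lies in the datum. -/
def Cd (l : ℕ) (D : Dat L) (r : ℕ) (y : Tor 3 L) : Prop :=
  ¬ In D r y ∧ ∀ u, U l u → tdist y u ≤ Q.W l + Q.dc l + r → In D 0 u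

/-- valid data: few, small, well separated cubes, no other junk nearby. -/
structure Val (l : ℕ) (D : Dat L) : Prop where
  card : D.card ≤ Q.N
  rad : ∀ B ∈ D, B.2 ≤ Q.Rm l
  sep : ∀ B ∈ D, ∀ B' ∈ D, B ≠ B' → Q.c * (B.2 + Q.sg l + (B'.2 + Q.sg l)) ≤ tdist B.1 B'.1
  cls : ∀ u, U l u → In D (Q.W l + 2 * Q.dc l + Q.sg l) u → In D 0 u

/-- type `(l0, j)` below the level `mt` (radii `r`). -/
def Ty (mt j l0 : ℕ) (D : ℕ → Dat L) (r : ℕ → ℕ) (y : Tor 3 L) : Prop :=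
  (∀ i, l0 ≤ i → i < j → Cs Q U i y) ∧ ∀ i, j ≤ i → i < mt → Cd Q U i (D i) (r i) y

end geo

section tree
variable {X α κ : Type} [SemilatticeSup α] [Preorder κ] (S : Sys X α κ)

/-- trees of cells with the property `P` and leaves `Lf`. -/
def FQ (P : ℕ → X → Prop) (Lf : X → Prop) : ℕ → X → Prop
  | 0, x => Lf x
  | m + 1, x => S.Sepd (fun y => S.d x y ≤ S.ρ (m + 1) ∧ P m y ∧ FQ P Lf m y) (S.a1 + 1) (S.sep m)

/-- `k + 1` separated failing cells of level `m` in `A`. -/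
def FT (P : ℕ → X → Prop) (Lf : X → Prop) (A : Finset X) (k m : ℕ) : Prop :=
  S.Sepd (fun y => y ∈ A ∧ FQ S P Lf m y) (k + 1) (S.sep m)

end tree

section dyn
variable {L n T : ℕ} [NeZero L] [NeZero T] (ex ey : Fin T → Tor 3 L × Fin n)
  {α κ : Type} [SemilatticeSup α] [Preorder κ] (S : Sys (Tor 3 L) α κ) (G : Eg) (Q : Gp)

/-- space-time points. -/
abbrev Pt (L n T : ℕ) : Type := Fin T × (Tor 3 L × Fin n)

/-- children of the internal trees: all descendants are clean. -/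
def Cp (U : ℕ → Tor 3 L → Prop) (l : ℕ) (y : Tor 3 L) : Prop := Fr U l (Q.dc l + S.loc l) y

/-- junk of the environment and of the red set. -/
def Jr (U : ℕ → Tor 3 L → Prop) (Lf : Tor 3 L → Prop) (l : ℕ) (y : Tor 3 L) : Prop :=
  U l y ∨ FQ S (Cp S Q U) Lf l y

variable (p : Fin T → ℝ) (b : Pt L n T → ℝ)

open Classical in
/-- **leaf data**: the event `A` is dominated by sets of coins and weighted sets of points within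
`r0` of `y`; both families cost `≤ η ^ 2`, also with `cF` added to the row sums. -/
def LfD (r0 k0 : ℕ) (η cF : ℝ) (y : Tor 3 L) (A : CR T (Tor 3 L × Fin n) → Prop) : Prop :=
  ∃ (𝒮 : Finset (Finset (Fin T))) (𝒳 : Finset (Finset (Pt L n T))) (c r : Finset (Pt L n T) → ℝ),
    (∀ I ∈ 𝒮, ∀ s ∈ I, tdist y (ex s).1 ≤ r0 ∧ p s ≤ 1 / 2) ∧
    ∑ I ∈ 𝒮, ∏ s ∈ I, 6 * p s ≤ η ^ 2 ∧
    (∀ X ∈ 𝒳, 0 ≤ c X ∧ 0 ≤ r X ∧ X.card ≤ k0 ∧ (∀ v ∈ X, tdist y v.2.1 ≤ r0) ∧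
      ((∀ v ∈ X, b v ≠ 0) → ∀ v ∈ X, ∑ u ∈ X, Sp.GA ex ey p b v u ≤ r X)) ∧
    ∑ X ∈ 𝒳, c X * (2 * Real.exp 1 * (r X + cF)) ^ X.card ≤ η ^ 2 ∧
    ∀ ω, Pos ex ey p b ω → A ω →
      (∃ I ∈ 𝒮, ∀ s ∈ I, ω.1 s = true) ∨ 1 ≤ ∑ X ∈ 𝒳.filter (· ⊆ ω.2), c X

/-- far pairs with the target near `y`. -/
def Far (r0 d : ℕ) (γ : ℝ) (y : Tor 3 L) : Prop :=
  ∀ v u : Pt L n T, tdist y v.2.1 ≤ r0 → b v ≠ 0 → b u ≠ 0 → d ≤ tdist v.2.1 u.2.1 →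
    Sp.GA ex ey p b v u ≤ γ

/-- the claims: pairs `Pr l y v u o` (target, source, offset) have `G ≤ c + o`. -/
def Bd (Pr : ℕ → Tor 3 L → Pt L n T → Pt L n T → ℝ → Prop) (l : ℕ) (y : Tor 3 L) (c : ℝ) : Prop :=
  ∀ v u o, Pr l y v u o → Sp.GA ex ey p b v u ≤ c + o

/-- prices. -/
structure Pz where
  k0 : ℕ
  η : ℝ
  cF : ℝ
  dd : ℕ → ℕ
  γ : ℕ → ℝ
  ε : ℕ → ℝ

variable (P : Pz)

/-- numerics of the trees below the level `m`. -/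
structure NT (m : ℕ) : Prop where
  d : ∀ x y, S.d x y = tdist x y
  a1 : 1 ≤ S.a1
  η : 0 ≤ P.η ∧ 2 * P.η ≤ P.ε 0
  cF : 0 < P.cF
  γ : ∀ k, 0 ≤ P.γ k ∧ ((S.a1 + 1 : ℕ) : ℝ) ^ (k + 1) * (P.k0 * (2 * P.γ k)) ≤ P.cF * (1 / 2) ^ (k + 1)
  ε : ∀ k, 0 ≤ P.ε k
  rec' : ∀ k, k + 1 < m → ((2 * S.ρ (k + 1) + 1 : ℕ) ^ 3 * P.ε k) ^ (S.a1 + 1) ≤ P.ε (k + 1)
  sep : ∀ k < m, 1 ≤ P.dd k ∧ 2 * S.loc k + P.dd k ≤ S.sep k

/-- numerics of the geometry. -/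
structure NG : Prop where
  c : G.c ≤ Q.c ∧ 1 ≤ G.c
  q : Q.N + S.a1 ≤ qf S G
  A : ∀ l < G.mt, G.A l ≤ Q.A l ∧ (G.c + 1) * G.σ l ≤ Q.A l ∧ Q.A l ≤ G.Rs l ∧ Q.A l + S.loc l ≤ Q.un l
  σ : ∀ l < G.mt, S.sep l ≤ G.σ l ∧ G.σ l ≤ Q.sg l ∧ Q.Rm l + Q.sg l ≤ G.W l
  W : ∀ l < G.mt, G.Rs l + S.loc l ≤ Q.W l ∧ G.Rs l ≤ S.ρ (l + 1)
  un : ∀ l i, l < i → i < G.mt → G.Rs l + S.loc l ≤ Q.un i
  rr : ∀ l < G.mt, S.ρ 0 ≤ G.rr l
  hL : ∀ l < G.mt, 2 * (2 * G.Rs l + G.W l) < L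
  fr : Q.fr ≤ Q.dc 0
  mt : 1 ≤ G.mt

/-- tube data at all points near `y`. -/
def TBn (l : ℕ) (J : ℕ → Tor 3 L → Prop) (y : Tor 3 L) : Prop :=
  ∀ x : Sd.V, tdist y (tcast L x) ≤ S.ρ 0 → TB S G l J x

/-- **the inputs of the reset step** in one member (`b'` = top field). -/
structure RIn (b' : Pt L n T → ℝ) (U : ℕ → Tor 3 L → Prop)
    (Lf : CR T (Tor 3 L × Fin n) → Tor 3 L → Prop)
    (Pr : ℕ → Tor 3 L → Pt L n T → Pt L n T → ℝ → Prop) : Prop where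
  hp : ∀ s, 0 ≤ p s ∧ p s ≤ 1
  hb : Fld b
  hb' : Fld b'
  le : ∀ v, b v ≤ b' v
  nt : NT S P G.mt
  ng : NG S G Q
  sum : ∀ l ≤ G.mt, ∑ i ∈ Ico l G.mt, ((2 * Q.A i + 1 : ℕ) ^ 3 * P.ε i +
    ((2 * S.ρ (i + 1) + 1 : ℕ) ^ 3 * P.ε i) ^ (S.a1 + 1)) ≤ P.γ l / 2
  mono : ∀ ξ R R' y, R ⊆ R' → Lf (ξ, R) y → Lf (ξ, R') y
  zero : ∀ ξ y, Pw p ξ ≠ 0 → ¬ Lf (ξ, ∅) y
  far : ∀ l y v u, tdist y v.2.1 ≤ S.ρ 0 → b v ≠ 0 → b u ≠ 0 → P.dd l ≤ tdist v.2.1 u.2.1 →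
    Pr l y v u 0
  /-- LEAF -/
  leaf : ∀ y, Fr U 0 Q.fr y → Bd ex ey p b Pr 0 y (2 * P.γ 0) →
    LfD ex ey p b (S.ρ 0) P.k0 P.η P.cF y fun ω => Lf ω y
  /-- QUENCHED: Green bounds from tube data, off an additional rare increasing event -/
  que : ∀ l ≤ G.mt, ∀ y v u o, Pr l y v u o →
    (l = 0 → Fr U 0 Q.fr y ∧ (Bd ex ey p b Pr 0 y (2 * P.γ 0) ∨ ∀ x, b (0, x) = 0)) →
    ∃ (Bad : CR T (Tor 3 L × Fin n) → Prop) (g : ℝ), 0 ≤ g ∧ 1 / 2 ≤ b' u ∧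
      (∀ ξ R R', R ⊆ R' → Bad (ξ, R) → Bad (ξ, R')) ∧ 2 * g + PR ex ey p b Bad ≤ P.γ l / 2 + o ∧
      ∀ ω, Pos ex ey p b ω → ¬ Bad ω → TBn S G l (Jr S Q U (Lf ω)) y → v ∉ ω.2 → u ∉ ω.2 →
        (WN.Gc ex ey p b' ω.2 ω.1 v u - if v = u then 1 else 0) ≤ g

/-- **(Reset)** actual radii `r i + un i ≤ r' i ≤ sg i`. -/
def ResetStmt : Prop :=
  ∀ b' U Lf Pr, RIn ex ey S G Q p b P b' U Lf Pr → ∀ l ≤ G.mt, ∀ (D : ℕ → Dat L) (r r' : ℕ → ℕ),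
    (∀ i, l ≤ i → i < G.mt → Val Q U i (D i) ∧ Q.fr ≤ r i ∧ r i + Q.un i ≤ r' i ∧ r' i ≤ Q.sg i) →
    (∀ j, l ≤ j → j ≤ G.mt → ∀ l0 ≤ j, ∀ y, Ty Q U G.mt j l0 D r y →
      Bd ex ey p b Pr l0 y (2 * P.γ l0)) →
    ∀ y, Ty Q U G.mt l l D r' y → Bd ex ey p b Pr l y (P.γ l)

/-- **(Base)** nothing is red. -/
def BaseStmt : Prop :=
  ∀ b' U Lf Pr, RIn ex ey S G Q p b P b' U Lf Pr → (∀ x, b (0, x) = 0) →
    ∀ l ≤ G.mt, ∀ (D : ℕ → Dat L) (r r' : ℕ → ℕ),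
    (∀ i, l ≤ i → i < G.mt → Val Q U i (D i) ∧ Q.fr ≤ r i ∧ r i + Q.un i ≤ r' i ∧ r' i ≤ Q.sg i) →
    ∀ y, Ty Q U G.mt l l D r' y → Bd ex ey p b Pr l y (P.γ l)

end dyn

end Crest.Agent.N337.G4.Rs
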