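import Crest.Agent.N337.G4.RDefs

/-!
# Row 337, G4 (helper50): static witness trees for the red set
-/

set_option autoImplicit false
set_option linter.unusedSectionVars false

namespace Crest.Agent.N337.G4.Rs

open Finset Crest.Agent.N337.Rep Crest.Agent.N337.Free Crest.Agent.N337.Rg
open Crest.Agent.N337.Arc (Fld)

section abs
variable {X α κ : Type} [Fintype X] [SemilatticeSup α] [Preorder κ] {S : Sys X α κ}
  {P P' : ℕ → X → Prop} {Lf Lf' : X → Prop} {m : ℕ} {x : X}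

theorem FQ.mono (h : FQ S P Lf m x) (hP : ∀ k < m, ∀ y, P k y → P' k y) (hL : ∀ y, Lf y → Lf' y) :
    FQ S P' Lf' m x := by
  induction m generalizing x with
  | zero => exact hL x h
  | succ m ih =>
    exact Sys.Sepd.mono h fun y hy =>
      ⟨hy.1, hP _ (by omega) _ hy.2.1, ih hy.2.2 fun k hk => hP k (by omega)⟩

theorem fl_iff {U : ℕ → X → Prop} : S.Fl U Lf m x ↔ FQ S (S.Iso U) Lf m x := by
  induction m generalizing x with
  | zero => rfl
  | succ m ih =>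
    exact ⟨fun h => Sys.Sepd.mono h fun y hy => ⟨hy.1, hy.2.1, ih.1 hy.2.2⟩,
      fun h => Sys.Sepd.mono h fun y hy => ⟨hy.1, hy.2.1, ih.2 hy.2.2⟩⟩

/-- a failing cell has a leaf. -/
theorem FQ.leaf (h : FQ S P Lf m x) : ∃ y, Lf y ∧ S.d x y + S.loc 0 ≤ S.loc m := by
  induction m generalizing x with
  | zero => exact ⟨x, h, by simp [S.d_self]⟩
  | succ m ih =>
    obtain ⟨Y, h1, h2, -⟩ := h
    obtain ⟨y, hy⟩ := card_pos.1 (h1 ▸ Nat.succ_pos _ : 0 < Y.card)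
    obtain ⟨z, a, b⟩ := ih (h2 y hy).2.2
    have := (h2 y hy).1
    have := S.d_tri x y z
    exact ⟨z, a, by simp only [Sys.loc] at b ⊢; omega⟩

variable {Ω Lb : Type} {μ : (Ω → Prop) → ℝ} {K j : ℕ} {J : ℕ → X → Finset Lb}
  {q : ℕ → ℕ → Lb → ℝ} {Ht : Ω → ℕ → ℕ → Lb → Prop} {L : Ω → X → Prop} {ε : ℕ → ℝ} {vol : ℕ → ℕ}

theorem dom_FQ [Nonempty Lb] (hμ : Sub μ) (hq : ∀ m s v, 0 ≤ q m s v) (hK : S.a1 < K)
    (hv : ∀ k < m, ∀ x, (univ.filter fun y => S.d x y ≤ S.ρ (k + 1)).card ≤ vol k)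
    (hL : ∀ ω y, L ω y → ∃ v ∈ J 0 y, Ht ω 0 (S.sep 0) v) (h0 : ∀ k, 0 ≤ ε k)
    (he : ∀ y, ∑ v ∈ J 0 y, q 0 (S.sep 0) v ≤ ε 0)
    (hε : ∀ k < m, (vol k * ε k) ^ (S.a1 + 1) ≤ ε (k + 1)) (hP : ∀ k < m, ∀ y, P k y → P' k y) :
    Dom μ (fun ω => FQ S P (L ω) m x) (S.Ok K S.sep J m x j) (Wt.Real Ht (fun _ => P') m)
      (Wt.wt q) (ε m) := by
  classical
  induction m generalizing x j with
  | zero =>
    exact (Sys.dom_leaf hμ (Nat.zero_lt_of_lt hK) le_rfl le_rfl (fun ω => hL ω x) (he x)).imp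
      fun σ hσ => hσ.1
  | succ m ih =>
    refine Dom.le (fun R c hc H => ?_) (hε m (by omega))
    exact (hμ.mono _ _ fun ω hω => ⟨hω.1, Sys.Sepd.mono hω.2 fun y hy =>
      ⟨mem_filter.2 ⟨mem_univ _, hy.1⟩, hP m (by omega) y hy.2.1, hy.2.2⟩⟩).trans (Sys.dom_node
        (A := fun y ω => FQ S P (L ω) m y) (Q := fun _ => P') hμ hq (h0 m) hK
        (Nat.zero_lt_of_lt hK) (hv m (by omega) x) (fun y hy => (mem_filter.1 hy).2)
        (fun y _ j => (ih (fun k hk => hv k (by omega)) (fun k hk => hε k (by omega))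
          fun k hk => hP k (by omega)).imp fun σ hσ => hσ.child) R c hc fun σ hσ => H σ hσ.1)

end abs

section prob
variable {Λ : Type} [Fintype Λ] [DecidableEq Λ] {T : ℕ} [NeZero T] {ex ey : Fin T → Λ}
  {p : Fin T → ℝ} {b : Fin T × Λ → ℝ} {ι : Type}

open Classical in
/-- weighted union bound. -/
theorem PR_wsum (hp : ∀ s, 0 ≤ p s ∧ p s ≤ 1) (hb : ∀ v, 0 ≤ b v ∧ b v ≤ 1) (I : Finset ι)
    {A : CR T Λ → Prop} (B : ι → CR T Λ → Prop) (w : ι → ℝ) (hw : ∀ i ∈ I, 0 ≤ w i)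
    (h : ∀ ω, Pos ex ey p b ω → A ω → 1 ≤ ∑ i ∈ I.filter (B · ω), w i) :
    PR ex ey p b A ≤ ∑ i ∈ I, w i * PR ex ey p b (B i) := by
  have hZ := DL.Zt_pos ex ey hp fun v => (hb v).1
  simp only [PR, ← mul_div_assoc, ← sum_div]
  refine div_le_div_of_nonneg_right ?_ hZ.le
  rw [WR_pos]
  unfold RR.WR
  simp only [mul_sum]
  rw [sum_comm (s := I)]
  refine sum_le_sum fun ξ _ => ?_
  rw [sum_comm (s := I)]
  refine sum_le_sum fun ω _ => ?_
  have hw' := RR.BasAux.tw_nonneg ex ey hb ξ ω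
  have h0 := Pw_nonneg hp ξ
  split_ifs with h1
  · have h2 := h _ h1.2.1 h1.2.2
    rw [sum_filter] at h2
    refine (le_mul_of_one_le_left (mul_nonneg h0 hw') h2).trans (le_of_eq ?_)
    rw [sum_mul]
    refine sum_congr rfl fun i _ => ?_
    by_cases h3 : B i (ξ, RR.red ω) <;> simp [h3, h1.1]
  · rw [mul_zero]
    exact sum_nonneg fun i hi => mul_nonneg (hw i hi) (mul_nonneg h0 (by
      split_ifs; exacts [hw', le_rfl]))

/-- product families. -/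
theorem PR_pi (hp : ∀ s, 0 ≤ p s ∧ p s ≤ 1) (hb : ∀ v, 0 ≤ b v ∧ b v ≤ 1) [Fintype ι] {β : Type}
    (𝒜 : ι → Finset β) (B : β → CR T Λ → Prop) [∀ ω, DecidablePred (B · ω)] (c : ι → β → ℝ)
    (w : ι → β → ℝ) (hc : ∀ i, ∀ a ∈ 𝒜 i, 0 ≤ c i a)
    (h : ∀ g : ι → β, (∀ i, g i ∈ 𝒜 i) → PR ex ey p b (fun ω => ∀ i, B (g i) ω) ≤ ∏ i, w i (g i)) :
    PR ex ey p b (fun ω => ∀ i, 1 ≤ ∑ a ∈ (𝒜 i).filter (B · ω), c i a) ≤
      ∏ i, ∑ a ∈ 𝒜 i, c i a * w i a := by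
  classical
  have hg : ∀ g ∈ Fintype.piFinset 𝒜, 0 ≤ ∏ i, c i (g i) := fun g hg =>
    prod_nonneg fun i _ => hc i _ (Fintype.mem_piFinset.1 hg i)
  refine (PR_wsum hp hb (Fintype.piFinset 𝒜) (fun g ω => ∀ i, B (g i) ω) (fun g => ∏ i, c i (g i))
    hg fun ω _ hω => ?_).trans ?_
  · refine ((prod_const_one (s := univ)).ge.trans (prod_le_prod (fun _ _ => zero_le_one)
      fun i _ => hω i)).trans (le_of_eq ?_)
    rw [prod_univ_sum]
    refine sum_congr ?_ fun _ _ => rfl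
    ext g
    simp only [Fintype.mem_piFinset, mem_filter, forall_and]
  · rw [prod_univ_sum]
    refine sum_le_sum fun g hg' => ?_
    rw [prod_mul_distrib]
    exact mul_le_mul_of_nonneg_left (h g (Fintype.mem_piFinset.1 hg')) (hg g hg')

theorem PR_coinF (hp : ∀ s, 0 ≤ p s ∧ p s ≤ 1) (hb : ∀ v, 0 ≤ b v ∧ b v ≤ 1) [Fintype ι]
    (g : ι → Finset (Fin T)) (hd : ∀ i j, i ≠ j → Disjoint (g i) (g j))
    (h : ∀ i, ∀ s ∈ g i, p s ≤ 1 / 2) :
    PR ex ey p b (fun ω => ∀ i, ∀ s ∈ g i, ω.1 s = true) ≤ ∏ i, ∏ s ∈ g i, 6 * p s := by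
  classical
  rw [← prod_biUnion fun i _ j _ => hd i j]
  refine (PR_mono hp hb fun ω _ k s hs => ?_).trans (PR_coins hp hb _ fun s hs => ?_) <;>
    obtain ⟨i, -, hi⟩ := mem_biUnion.1 hs
  exacts [k i s hi, h i s hi]

theorem PR_redF (hp : ∀ s, 0 ≤ p s ∧ p s ≤ 1) (hb : Fld b) [Fintype ι]
    (g : ι → Finset (Fin T × Λ)) (hd : ∀ i j, i ≠ j → Disjoint (g i) (g j)) (r : ι → ℝ)
    (hr : ∀ i, 0 < r i) (h : (∀ i, ∀ v ∈ g i, b v ≠ 0) → ∀ i, ∀ v ∈ g i,
      ∑ j, ∑ u ∈ g j, Sp.GA ex ey p b v u ≤ r i) :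
    PR ex ey p b (fun ω => ∀ i, g i ⊆ ω.2) ≤ ∏ i, (2 * Real.exp 1 * r i) ^ (g i).card := by
  classical
  set ρ : Fin T × Λ → ℝ := fun v => ∑ i, if v ∈ g i then r i else 0 with hρ
  have e : ∀ i, ∀ v ∈ g i, ρ v = r i := fun i v hv => by
    rw [hρ]
    refine (sum_eq_single i (fun j _ hj => if_neg fun k => ?_) fun k => absurd (mem_univ _) k).trans
      (if_pos hv)
    exact disjoint_left.1 (hd j i hj) k hv
  have := PR_red (ex := ex) (ey := ey) hp hb (univ.biUnion g) ρ (fun v hv => by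
    obtain ⟨i, -, hi⟩ := mem_biUnion.1 hv
    exact e i v hi ▸ hr i) fun k v hv => by
      obtain ⟨i, -, hi⟩ := mem_biUnion.1 hv
      rw [e i v hi, sum_biUnion fun i _ j _ => hd i j]
      exact h (fun j u hu => k u (mem_biUnion.2 ⟨j, mem_univ _, hu⟩)) i v hi
  rw [prod_biUnion fun i _ j _ => hd i j] at this
  refine (PR_mono hp hb.mem fun ω _ k => biUnion_subset.2 fun i _ => k i).trans
    (this.trans (le_of_eq (prod_congr rfl fun i _ => ?_)))
  rw [prod_congr rfl fun v hv => by rw [e i v hv], prod_const]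

end prob

variable {L n T : ℕ} [NeZero L] [NeZero T] {ex ey : Fin T → Tor 3 L × Fin n}
  {α κ : Type} [SemilatticeSup α] [Preorder κ] {S : Sys (Tor 3 L) α κ} {p : Fin T → ℝ}
  {b : Pt L n T → ℝ} {P : Pz} {Lf : CR T (Tor 3 L × Fin n) → Tor 3 L → Prop}

/-- a good leaf for trees of height `m`. -/
def Gl (ex ey : Fin T → Tor 3 L × Fin n) (S : Sys (Tor 3 L) α κ) (p : Fin T → ℝ) (b : Pt L n T → ℝ)
    (P : Pz) (Lf : CR T (Tor 3 L × Fin n) → Tor 3 L → Prop) (m : ℕ) (y : Tor 3 L) : Prop :=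
  LfD ex ey p b (S.ρ 0) P.k0 P.η P.cF y (fun ω => Lf ω y) ∧
    ∀ k < m, Far ex ey p b (S.ρ 0) (P.dd k) (2 * P.γ k) y

lemma min_le {x η : ℝ} {a c : ℕ} (h0 : 0 ≤ x) (hη : 0 ≤ η) (h1 : x ≤ (η ^ 2) ^ a)
    (h2 : x ≤ (η ^ 2) ^ c) : x ≤ η ^ (a + c) := by
  refine (pow_le_pow_iff_left₀ h0 (pow_nonneg hη _) two_ne_zero).1 ?_
  calc x ^ 2 = x * x := sq x
    _ ≤ (η ^ 2) ^ a * (η ^ 2) ^ c := mul_le_mul h1 h2 h0 (h0.trans h1)
    _ = _ := by ring

/-- **static trees are rare**: `k + 1` separated failing cells of level `m` in `A`. -/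
theorem tree (hp : ∀ s, 0 ≤ p s ∧ p s ≤ 1) (hb : Fld b) {m : ℕ} (N : NT S P (m + 1))
    {Q : ℕ → Tor 3 L → Prop} {A : Finset (Tor 3 L)} {x : Tor 3 L} {k t : ℕ} (hk : k ≤ S.a1)
    (ht : A.card ≤ t) (hA : ∀ y ∈ A, tdist x y ≤ S.ρ (m + 1))
    (H : ∀ (z : ℕ → Tor 3 L), z m ∈ A → (∀ i < m, Q i (z i)) →
      (∀ i ≤ m, tdist (z i) (z 0) + S.loc 0 ≤ S.loc i) → Gl ex ey S p b P Lf (m + 1) (z 0)) :
    PR ex ey p b (fun ω => FT S Q (Lf ω) A k m) ≤ (t * P.ε m) ^ (k + 1) := by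
  classical
  have hμ := sub_PR (ex := ex) (ey := ey) hp hb.mem
  have ex1 : ∀ y, ∃ (𝒮 : Finset (Finset (Fin T))) (𝒳 : Finset (Finset (Pt L n T)))
      (c r : Finset (Pt L n T) → ℝ), Gl ex ey S p b P Lf (m + 1) y → _ := fun y => by
    by_cases h : Gl ex ey S p b P Lf (m + 1) y
    · obtain ⟨𝒮, 𝒳, c, r, h⟩ := h.1
      exact ⟨𝒮, 𝒳, c, r, fun _ => h⟩
    · exact ⟨∅, ∅, 0, 0, fun k => absurd k h⟩
  choose 𝒮 𝒳 c r hD using ex1
  set Ht : CR T (Tor 3 L × Fin n) → ℕ → ℕ → Tor 3 L × Bool → Prop := fun ω _ _ v =>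
    Gl ex ey S p b P Lf (m + 1) v.1 → Pos ex ey p b ω → if v.2 = true then
      ∃ I ∈ 𝒮 v.1, ∀ s ∈ I, ω.1 s = true else 1 ≤ ∑ X ∈ (𝒳 v.1).filter (· ⊆ ω.2), c v.1 X with hHt
  set J : ℕ → Tor 3 L → Finset (Tor 3 L × Bool) := fun i y =>
    if i = 0 then {(y, true), (y, false)} else ∅ with hJ
  set Q' : ℕ → Tor 3 L → Prop := fun i y => if i = m then y ∈ A else Q i y with hQ'
  have hK : S.a1 < S.a1 + 1 := Nat.lt_succ_self _
  have hK2 : 2 ≤ S.a1 + 1 := Nat.succ_le_succ N.a1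
  have dom := Sys.dom_node (S := S) (K := S.a1 + 1) (cs := S.sep) (J := J) (m := m) (j := 0)
    (s := S.sep m) (x := x) (q := fun _ _ _ => P.η) (Ht := Ht) (Q := fun _ => Q')
    (A := fun y ω => FQ S Q (Lf ω) m y) hμ (fun _ _ _ => N.η.1) (N.ε m) (n := k + 1) (by omega)
    (by omega) ht (fun y hy => (N.d x y).trans_le (hA y hy)) fun y _ j =>
      (dom_FQ (vol := fun k => (2 * S.ρ (k + 1) + 1) ^ 3) hμ (fun _ _ _ => N.η.1) hK
        (fun k _ x => by simpa only [N.d] using card_ball_le x _) (fun ω y h => ?_) N.ε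
        (fun y => ?_) (fun k hk => by exact_mod_cast N.rec' k (by omega))
        fun i hi y h => by simp only [hQ', if_neg hi.ne]; exact h).imp fun σ hσ => hσ.child
  rotate_left
  · by_cases h1 : Ht ω 0 (S.sep 0) (y, true)
    · exact ⟨_, by simp [hJ], h1⟩
    refine ⟨(y, false), by simp [hJ], fun h2 h3 => ?_⟩
    simpa using ((hD y h2).2.2.2.2 ω h3 h).resolve_left fun h4 => h1 fun _ _ => by simpa using h4
  · have := N.η.2
    simp only [hJ, if_true]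
    rw [Finset.sum_pair (by simp)]
    linarith
  refine (hμ.mono _ _ fun ω h => ⟨trivial, Sys.Sepd.mono h fun y hy => ⟨hy.1, by
    simpa only [hQ', if_true] using hy.1, hy.2⟩⟩).trans
    ((dom (fun _ => True) 1 zero_le_one fun σ ⟨hσ, _⟩ => ?_).trans_eq (one_mul _))
  -- the price of one witness
  rw [one_mul, Wt.wt, prod_const]
  by_cases hne : ∃ ω, Wt.Real Ht (fun _ => Q') (m + 1) σ ω
  swap
  · exact (hμ.mono _ _ fun ω h => hne ⟨ω, h.2⟩).trans (hμ.bot.trans (pow_nonneg N.η.1 _))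
  obtain ⟨ω0, h0⟩ := hne
  have lv0 : ∀ u ∈ σ.I, σ.lv u = 0 ∧ (σ.pt u).1 = σ.z u 0 := fun u hu => by
    have := hσ.lf u hu
    by_cases e : σ.lv u = 0
    · simp only [hJ, e, if_true, mem_insert, mem_singleton] at this
      exact ⟨e, by rcases this with h | h <;> rw [h]⟩
    · simp [hJ, e] at this
  have anc : ∀ u ∈ σ.I, ∀ i ≤ m + 1, tdist (σ.z u i) (σ.z u 0) + S.loc 0 ≤ S.loc i :=
    fun u hu i hi => by
      have := hσ.anc hu (k := i) (by rw [(lv0 u hu).1]; omega) hi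
      rwa [(lv0 u hu).1, N.d] at this
  have gl : ∀ u ∈ σ.I, Gl ex ey S p b P Lf (m + 1) (σ.z u 0) := fun u hu => by
    have q := fun i => (h0 u hu).2 i (by rw [(lv0 u hu).1]; omega)
    refine H (σ.z u) (by simpa only [hQ', if_true] using q m (by omega)) (fun i hi => ?_)
      fun i hi => anc u hu i (by omega)
    simpa only [hQ', if_neg hi.ne] using q i (by omega)
  have far : ∀ u ∈ σ.I, ∀ u' ∈ σ.I, u ≠ u' → ∀ y y' : Tor 3 L, tdist (σ.z u 0) y ≤ S.ρ 0 →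
      tdist (σ.z u' 0) y' ≤ S.ρ 0 → ∃ i ≤ m, ell (S.a1 + 1) u u' = i + 1 ∧ P.dd i ≤ tdist y y' :=
    fun u hu u' hu' hne y y' h1 h2 => by
      obtain ⟨i, hi⟩ := Nat.exists_eq_succ_of_ne_zero (ell_pos hK2 hne).ne'
      have him : i ≤ m := by
        have := (ell_le_iff hK2).2 ((hσ.pre u hu).trans (hσ.pre u' hu').symm)
        omega
      have a1 := (hσ.sep u hu u' hu' i (ell_spec hK2 hi).1 (ell_spec hK2 hi).2).2
      have a2 : S.sq σ u i = S.sep i := by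
        unfold Sys.sq
        split_ifs with e
        · exact le_antisymm (e ▸ (hσ.sp u hu).2) (e ▸ (hσ.sp u hu).1)
        · rfl
      rw [a2, N.d] at a1
      have a3 := anc u hu i (by omega)
      have a4 := anc u' hu' i (by omega)
      have a5 := (N.sep i (by omega)).2
      have a6 := tdist_triangle (σ.z u i) (σ.z u 0) (σ.z u' i)
      have a7 := tdist_triangle (σ.z u 0) y (σ.z u' i)
      have a8 := tdist_triangle y y' (σ.z u' i)
      have a9 := tdist_triangle y' (σ.z u' 0) (σ.z u' i)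
      rw [tdist_comm y' (σ.z u' 0), tdist_comm (σ.z u' 0) (σ.z u' i)] at a9
      have : S.loc 0 = S.ρ 0 := rfl
      exact ⟨i, him, hi, by omega⟩
  have ne : ∀ u ∈ σ.I, ∀ u' ∈ σ.I, u ≠ u' → ∀ y : Tor 3 L, tdist (σ.z u 0) y ≤ S.ρ 0 →
      ¬ tdist (σ.z u' 0) y ≤ S.ρ 0 := fun u hu u' hu' hne y h1 h2 => by
    obtain ⟨i, hi, -, h⟩ := far u hu u' hu' hne y y h1 h2
    have := (N.sep i (by omega)).1
    rw [tdist_self] at h
    omega
  rw [← card_filter_add_card_filter_not (s := σ.I) fun u => (σ.pt u).2 = true]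
  set I1 := σ.I.filter fun u => (σ.pt u).2 = true
  set I2 := σ.I.filter fun u => ¬ (σ.pt u).2 = true
  have m1 : ∀ u : I1, u.1 ∈ σ.I := fun u => (mem_filter.1 u.2).1
  have m2 : ∀ u : I2, u.1 ∈ σ.I := fun u => (mem_filter.1 u.2).1
  refine min_le (PR_nn hp hb.mem) N.η.1 ?_ ?_
  · refine (PR_mono hp hb.mem fun ω h1 h2 u => ?_).trans ((PR_pi hp hb.mem
      (fun u : I1 => 𝒮 (σ.z u 0)) (fun I ω => ∀ s ∈ I, ω.1 s = true) (fun _ _ => 1)
      (fun _ I => ∏ s ∈ I, 6 * p s) (fun _ _ _ => zero_le_one) fun g hg => PR_coinF hp hb.mem g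
        (fun u u' hne => disjoint_left.2 fun s h1 h2 => ne u (m1 u) u' (m1 u')
          (fun e => hne (Subtype.ext e)) _ ((hD _ (gl u (m1 u))).1 _ (hg u) s h1).1
          ((hD _ (gl u' (m1 u'))).1 _ (hg u') s h2).1)
        fun u s hs => ((hD _ (gl u (m1 u))).1 _ (hg u) s hs).2).trans ?_)
    · have := (h2.2 u (m1 u)).1 ((lv0 u (m1 u)).2 ▸ gl u (m1 u)) h1
      rw [if_pos (mem_filter.1 u.2).2, (lv0 u (m1 u)).2] at this
      obtain ⟨I, a, b⟩ := this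
      rw [sum_const, nsmul_one]
      exact Nat.one_le_cast.2 (card_pos.2 ⟨I, mem_filter.2 ⟨a, b⟩⟩)
    · rw [← Fintype.card_coe I1, ← card_univ, ← prod_const]
      exact prod_le_prod (fun u _ => sum_nonneg fun I _ => mul_nonneg zero_le_one
        (prod_nonneg fun s _ => by have := (hp s).1; positivity)) fun u _ => by
          simpa only [one_mul] using (hD _ (gl u (m1 u))).2.1
  · have hc := fun u : I2 => (hD _ (gl u (m2 u))).2.2.1
    refine (PR_mono hp hb.mem fun ω h1 h2 u => ?_).trans ((PR_pi hp hb.mem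
      (fun u : I2 => 𝒳 (σ.z u 0)) (fun X ω => X ⊆ ω.2) (fun u => c (σ.z u 0))
      (fun u X => (2 * Real.exp 1 * (r (σ.z u 0) X + P.cF)) ^ X.card)
      (fun u X hX => (hc u X hX).1) fun g hg => PR_redF hp hb g
        (fun u u' hne => disjoint_left.2 fun v h1 h2 => ne u (m2 u) u' (m2 u')
          (fun e => hne (Subtype.ext e)) _ ((hc u _ (hg u)).2.2.2.1 v h1)
          ((hc u' _ (hg u')).2.2.2.1 v h2)) (fun u => r (σ.z u 0) (g u) + P.cF)
        (fun u => by have := (hc u _ (hg u)).2.1; have := N.cF; positivity)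
        fun al u v hv => ?_).trans ?_)
    · have := (h2.2 u (m2 u)).1 ((lv0 u (m2 u)).2 ▸ gl u (m2 u)) h1
      rwa [if_neg (mem_filter.1 u.2).2, (lv0 u (m2 u)).2] at this
    · rw [← add_sum_erase _ _ (mem_univ u)]
      refine add_le_add ((hc u _ (hg u)).2.2.2.2 (al u) v hv) ?_
      have := sum_ell hK2 ((I2.erase u.1)) u.1 0 (φ := fun w => if h : w ∈ I2 then
        ∑ v' ∈ g ⟨w, h⟩, Sp.GA ex ey p b v v' else 0) (ψ := fun i => P.k0 * (2 * P.γ (i - 1)))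
        N.cF.le (fun w hw => ?_) (fun i => by have := (N.γ (i - 1)).1; positivity) fun i hi => by
          obtain ⟨i, rfl⟩ := Nat.exists_eq_succ_of_ne_zero hi.ne'
          exact (N.γ i).2
      · refine le_trans (le_of_eq ?_) (this.trans_eq (by simp))
        refine sum_bij (fun w _ => w.1) (fun w hw => mem_erase.2
          ⟨fun e => (mem_erase.1 hw).1 (Subtype.ext e), w.2⟩) (fun _ _ _ _ e => Subtype.ext e)
          (fun w hw => ⟨⟨w, (mem_erase.1 hw).2⟩, mem_erase.2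
            ⟨fun e => (mem_erase.1 hw).1 (congrArg Subtype.val e), mem_univ _⟩, rfl⟩) fun w _ => ?_
        rw [dif_pos w.2]
      · obtain ⟨hw1, hw2⟩ := mem_erase.1 hw
        refine ⟨ell_pos hK2 hw1.symm, ?_⟩
        simp only [dif_pos hw2]
        refine (sum_le_card_nsmul _ _ (2 * P.γ (ell (S.a1 + 1) u w - 1)) fun v' hv' => ?_).trans ?_
        · obtain ⟨i, hi, e, h⟩ := far u (m2 u) w (m2 ⟨w, hw2⟩) hw1.symm _ _
            ((hc u _ (hg u)).2.2.2.1 v hv) ((hc ⟨w, hw2⟩ _ (hg _)).2.2.2.1 v' hv')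
          rw [e, Nat.add_sub_cancel]
          exact (gl u (m2 u)).2 i (by omega) v v' ((hc u _ (hg u)).2.2.2.1 v hv) (al u v hv)
            (al _ v' hv') h
        · rw [nsmul_eq_mul]
          exact mul_le_mul_of_nonneg_right (Nat.cast_le.2 (hc ⟨w, hw2⟩ _ (hg _)).2.2.1)
            (by have := (N.γ (ell (S.a1 + 1) u w - 1)).1; positivity)
    · rw [← Fintype.card_coe I2, ← card_univ, ← prod_const]
      exact prod_le_prod (fun u _ => sum_nonneg fun X hX => mul_nonneg (hc u X hX).1 (by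
        have := (hc u X hX).2.1; have := N.cF; positivity)) fun u _ => (hD _ (gl u (m2 u))).2.2.2.1

end Crest.Agent.N337.G4.Rs
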