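import Crest.Agent.N337.G4.Mecke
import Crest.Agent.N337.R.Bas
import Crest.Agent.N337.R.Ann

/-!
# Row 337, G4 (helper76): the red set on polymers; the gas is dominated by the red set

`WR_eq` : the weights `RR.WR` as a sum over red families; `gas_le_WR` : events of the down loops;
`join_eq`, `join_le_WR` : down loops together with the alive set of the child model are the red set.
-/

set_option autoImplicit false
set_option linter.unusedSectionVars false

namespace Crest.Agent.N337.G4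

open Finset Crest.Agent.N337.Rep Crest.Agent.N337.LY0 Crest.Agent.N337.Gas Crest.Agent.N337.Bi
open Crest.Agent.N337.Pc (bw mkE qP two hi)
open Crest.Agent.N337.RR (WR AG Cmp red)

section abs
variable {Γ : Type} [Fintype Γ] [DecidableEq Γ] {a c : Γ → ℝ} {X : Finset Γ} {F G : Finset Γ → ℝ}

lemma mk_mono (ha : ∀ g, 0 ≤ a g) (hc : ∀ g, 0 ≤ c g) (h : ∀ B ⊆ X, F B ≤ G B) :
    mk a c X F ≤ mk a c X G :=
  sum_le_sum fun B hB => mul_le_mul_of_nonneg_left (h B (mem_powerset.1 hB))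
    (mul_nonneg (prod_nonneg fun g _ => ha g) (prod_nonneg fun g _ => hc g))

lemma mk_union (u : Γ → ℝ) (X : Finset Γ) : ∀ F : Finset Γ → ℝ,
    mk u (fun _ => 1) X (fun w => mk a c (X \ w) fun C => F (w ∪ C)) =
      mk (fun g => u g + a g) c X F := by
  induction X using Finset.induction_on with
  | empty => intro F; simp
  | insert g X hg ih =>
    intro F
    have e1 : ∀ w ⊆ X, (mk a c (insert g X \ w) fun C => F (w ∪ C)) =
        c g * (mk a c (X \ w) fun C => F (w ∪ C)) +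
          a g * mk a c (X \ w) fun C => F (insert g (w ∪ C)) := fun w hw => by
      rw [insert_sdiff_of_notMem _ fun k => hg (hw k), mk_insert fun k => hg (mem_sdiff.1 k).1]
      simp only [union_insert]
    rw [mk_insert hg, mk_insert hg, mk_congr e1]
    simp only [mk_add, mk_mul, insert_sdiff_insert, sdiff_insert_of_notMem hg, insert_union]
    rw [ih F, ih fun S => F (insert g S)]
    ring

lemma mk_image {O : Type} [Fintype O] [DecidableEq O] {f : O → Γ} (hf : Function.Injective f) :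
    mk a c (univ.image f) F = mk (a ∘ f) (c ∘ f) univ fun S => F (S.image f) := by
  rw [mk, powerset_image, sum_image fun _ _ _ _ h => image_injective hf h]
  refine sum_congr rfl fun S _ => ?_
  rw [← image_sdiff _ _ hf, prod_image hf.injOn, prod_image hf.injOn]
  rfl

lemma sum_opt (W : Γ → Option Bool → ℝ) (F : Finset Γ → ℝ) :
    ∑ k : Γ → Option Bool, (∏ g, W g (k g)) * F (univ.filter fun g => k g ≠ none) =
      mk (fun g => W g (some true) + W g (some false)) (fun g => W g none) univ F := by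
  have e : ∀ S : Finset Γ, (∏ g ∈ S, (W g (some true) + W g (some false))) *
      ∏ g ∈ univ \ S, W g none = ∑ k : Γ → Option Bool,
        if (univ.filter fun g => k g ≠ none) = S then ∏ g, W g (k g) else 0 := fun S => by
    have h := prod_univ_sum (fun _ : Γ => (univ : Finset (Option Bool)))
      fun g k => if (k ≠ none ↔ g ∈ S) then W g k else 0
    rw [Fintype.piFinset_univ] at h
    simp only [prod_ite_zero, mem_univ, true_imp_iff] at h
    rw [sum_congr rfl fun k _ => if_congr (Q := ∀ g, k g ≠ none ↔ g ∈ S)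
      (by simp [Finset.ext_iff]) rfl rfl, ← h, ← prod_sdiff (subset_univ S), mul_comm]
    congr 1 <;> refine prod_congr rfl fun g hg => ?_
    · simp [Fintype.sum_option, (mem_sdiff.1 hg).2]
    · simp [Fintype.sum_option, hg]
  simp only [mk, e, sum_mul, powerset_univ]
  rw [sum_comm]
  exact sum_congr rfl fun k _ => by simp

end abs

variable {Λ : Type} [Fintype Λ] [DecidableEq Λ] {T : ℕ} [NeZero T] {ex ey : Fin T → Λ}
  {p : Fin T → ℝ} {b : Fin T × Λ → ℝ} {ξ : Fin T → Bool}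

lemma cmp_pts (h : Pw p ξ ≠ 0) {C : Finset (Lp T Λ)} (hC : C ⊆ L ex ey ξ) :
    Cmp ex ey p ξ (pts C) := by
  refine ⟨h, fun v => ?_⟩
  simp only [mem_pts]
  refine exists_congr fun g => and_congr_right fun hg => ?_
  obtain ⟨u, rfl⟩ := mem_L.1 (hC hg)
  simp only [lp_snd, mem_obv, o_apply]

open Classical in
/-- the weights of the red set as a sum over families of loops. -/
theorem WR_eq (p : Fin T → ℝ) (b : Fin T × Λ → ℝ)
    (E : (Fin T → Bool) → Finset (Fin T × Λ) → Prop) :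
    WR ex ey p b E = ∑ ξ, Pw p ξ * mk (fun g => ub b g + ub b g) (fun g => 1 - ub b g) (L ex ey ξ)
      fun C => if E ξ (pts C) then 1 else 0 := by
  refine sum_congr rfl fun ξ _ => congrArg _ ?_
  simp only [ite_and]
  rw [sum_inv, L_eq_image, mk_image fun _ _ => lp_bp_inj]
  simp only [RR.Ann.W_comp]
  have h := sum_opt (RR.Ann.lwt (Sg ex ey ξ) b) fun S =>
    if E ξ (pts (S.image fun c => lp ex ey ξ (bp c))) then 1 else 0
  simp only [RR.Ann.lwt, reduceCtorEq, if_false, if_true] at h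
  simp only [Function.comp_def, ub_lp, ← h, RR.Ann.lwt]
  refine sum_congr rfl fun k _ => ?_
  have e : red (fun v => k (o (Sg ex ey ξ) v)) =
      pts ((univ.filter fun g => k g ≠ none).image fun c => lp ex ey ξ (bp c)) := by
    ext v
    simp only [red, mem_filter, mem_univ, true_and, mem_pts, mem_image]
    refine ⟨fun hv => ⟨_, ⟨_, hv, rfl⟩, mem_obv.2 (o_bp _).symm⟩, ?_⟩
    rintro ⟨_, ⟨c, hc, rfl⟩, hv⟩
    rwa [(mem_obv.1 hv).trans (o_bp c)]
  by_cases k1 : E ξ (red fun v => k (o (Sg ex ey ξ) v))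
  · rw [if_pos k1, if_pos (e ▸ k1), mul_one]
  · rw [if_neg k1, if_neg (e ▸ k1), mul_zero]

lemma sum_gw_mk (p : Fin T → ℝ) (u : Lp T Λ → ℝ) (F : Finset (Lp T Λ) → ℝ) :
    ∑ A, gw (qq ex ey p) u A * F A = ∑ ξ, Pw p ξ * mk u (fun _ => 1) (L ex ey ξ) F := by
  simp only [Gas.sum_gw, mk, prod_const_one, mul_one]

lemma gZ_Zt (p : Fin T → ℝ) (b : Fin T × Λ → ℝ) : gZ (qq ex ey p) (ub b) = DL.Zt ex ey p b := by
  simp only [gZ_qq, prod_L, ub_lp, DL.Zt]

/-- down loops and the alive loops of the child model (general weights `u`). -/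
theorem join_eq (hp : ∀ s, 0 ≤ p s ∧ p s ≤ 1) (u a : Lp T Λ → ℝ) (φ : Finset (Lp T Λ) → ℝ) :
    ∑ w, gw (qq ex ey p) u w * mkE (Pw p) (L ex ey) a w (fun C => φ (w ∪ C)) =
      ∑ ξ, Pw p ξ * mk (fun g => u g + a g) (fun g => 1 - a g) (L ex ey ξ) φ := by
  simp only [← mk_union, gw]
  rw [sum_congr rfl fun w _ => by rw [mul_right_comm, qq_mkE hp, sum_mul], sum_comm]
  refine sum_congr rfl fun ξ _ => ?_
  rw [mk, mul_sum, ← sum_subset (subset_univ (L ex ey ξ).powerset) fun A _ h => by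
    rw [mem_powerset] at h; simp [h]]
  exact sum_congr rfl fun w hw => by rw [if_pos (mem_powerset.1 hw), prod_const_one]; ring

open Classical in
/-- **the down loops joined with the alive set of the child model are the red set.** -/
theorem join_le_WR (hp : ∀ s, 0 ≤ p s ∧ p s ≤ 1) (hb : ∀ v, 0 ≤ b v ∧ b v ≤ 1)
    {Bad : Finset (Lp T Λ) → Prop} {E : (Fin T → Bool) → Finset (Fin T × Λ) → Prop} {ε : ℝ}
    (h : ∀ ξ S, Pw p ξ ≠ 0 → S ⊆ L ex ey ξ → (∀ g ∈ S, ub b g ≠ 0) → Bad S → E ξ (pts S))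
    (hE : WR ex ey p b E ≤ ε * DL.Zt ex ey p b) :
    Op.ex (nu (qq ex ey p) (ub b))
      (fun w => mkE (Pw p) (L ex ey) (ub b) w (Op.ind fun C => Bad (w ∪ C))) ≤ ε := by
  have h0 := ub_nn (T := T) fun v => (hb v).1
  rw [ex_nu, div_le_iff₀ (Gas.gZ_pos (cpt_qq hp) h0), gZ_Zt]
  refine le_trans ?_ hE
  rw [WR_eq]
  refine (join_eq hp (ub b) (ub b) (Op.ind Bad)).trans_le (sum_le_sum fun ξ _ => ?_)
  by_cases k : Pw p ξ = 0
  · simp [k]
  refine mul_le_mul_of_nonneg_left (sum_le_sum fun S hS => ?_) (Pw_nonneg hp ξ)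
  by_cases k1 : ∀ g ∈ S, ub b g ≠ 0
  · refine mul_le_mul_of_nonneg_left ?_ (mul_nonneg (prod_nonneg fun g _ => add_nonneg (h0 g) (h0 g))
      (prod_nonneg fun g _ => sub_nonneg.2 (ub_le_one hb g)))
    unfold Op.ind
    beta_reduce
    split_ifs with k2 k3
    · exact le_rfl
    · exact absurd (h ξ S k (mem_powerset.1 hS) k1 k2) k3
    · exact zero_le_one
    · exact le_rfl
  · push Not at k1
    obtain ⟨g, k1, k2⟩ := k1
    rw [prod_eq_zero (f := fun g => ub b g + ub b g) k1 (by rw [k2, add_zero])]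
    simp

open Classical in
/-- **the gas is dominated by the red set**, events of the coins and the down loops. -/
theorem gas_le_WR' (hp : ∀ s, 0 ≤ p s ∧ p s ≤ 1) (hb : ∀ v, 0 ≤ b v ∧ b v ≤ 1)
    {F : (Fin T → Bool) → Finset (Lp T Λ) → Prop} {E : (Fin T → Bool) → Finset (Fin T × Λ) → Prop}
    (h : ∀ ξ A R, Cmp ex ey p ξ R → A ⊆ L ex ey ξ → (∀ g ∈ A, ub b g ≠ 0) → pts A ⊆ R → F ξ A →
      E ξ R) :
    ∑ ξ, Pw p ξ * mk (ub b) (fun _ => 1) (L ex ey ξ) (Op.ind (F ξ)) ≤ WR ex ey p b E := by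
  have h0 := ub_nn (T := T) fun v => (hb v).1
  have h1 : ∀ g : Lp T Λ, 0 ≤ 1 - ub b g := fun g => sub_nonneg.2 (ub_le_one hb g)
  rw [WR_eq]
  refine sum_le_sum fun ξ _ => ?_
  by_cases k : Pw p ξ = 0
  · simp [k]
  refine mul_le_mul_of_nonneg_left ?_ (Pw_nonneg hp ξ)
  rw [← mk_union]
  refine sum_le_sum fun A hA => ?_
  by_cases k1 : ∀ g ∈ A, ub b g ≠ 0
  swap
  · push Not at k1
    obtain ⟨g, k1, k2⟩ := k1
    rw [prod_eq_zero k1 k2]
    simp
  refine mul_le_mul_of_nonneg_left ?_ (mul_nonneg (prod_nonneg fun g _ => h0 g) (by simp))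
  unfold Op.ind
  beta_reduce
  split_ifs with k2
  · rw [mk_congr (G := fun _ => 1) fun C hC => if_pos (h ξ A _ (cmp_pts k (union_subset
      (mem_powerset.1 hA) (hC.trans sdiff_subset))) (mem_powerset.1 hA) k1
      (pts_mono subset_union_left) k2), mk_one]
    simp
  · refine le_trans (le_of_eq ?_) (mk_mono (F := fun _ => 0) h0 h1 fun _ _ => by
      split_ifs <;> norm_num)
    simp [mk]

open Classical in
/-- **the gas is dominated by the red set.** -/
theorem gas_le_WR (hp : ∀ s, 0 ≤ p s ∧ p s ≤ 1) (hb : ∀ v, 0 ≤ b v ∧ b v ≤ 1)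
    {F : Finset (Lp T Λ) → Prop} {E : (Fin T → Bool) → Finset (Fin T × Λ) → Prop} {ε : ℝ}
    (h : ∀ ξ A R, Cmp ex ey p ξ R → A ⊆ L ex ey ξ → (∀ g ∈ A, ub b g ≠ 0) → pts A ⊆ R → F A →
      E ξ R) (hE : WR ex ey p b E ≤ ε * DL.Zt ex ey p b) :
    Op.ex (nu (qq ex ey p) (ub b)) (Op.ind F) ≤ ε := by
  rw [ex_nu, div_le_iff₀ (Gas.gZ_pos (cpt_qq hp) (ub_nn fun v => (hb v).1)), gZ_Zt, sum_gw_mk]
  exact (gas_le_WR' hp hb (F := fun _ => F) h).trans hE

end Crest.Agent.N337.G4
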